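import Mathlib

/-!
# Row 52, S0071: the chain lemma (proof by helper992 / helper52, formalized by helper430)

For a family `F` of finite sets with prefixes `pre H j ⊆ H`, if `F` has no cover of `q`-cost
`≤ 1/2`, then with probability at least `1/4` a random colouring `τ` (levels `0..k-1` with
densities `C_i q` and a default level `k`) is good: for some `H ∈ F` every prefix of `H` has at
most a fraction `4^{-(i+1)}` of its points at levels `> i`, for all `i < k`.
-/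

set_option autoImplicit false
set_option linter.unusedSectionVars false

open Finset

namespace Crest.Agent.R052

/-- density constants of the levels -/
noncomputable def Cc (i : ℕ) : ℝ := 192 * 16 ^ i

theorem Cc_pos (i : ℕ) : 0 < Cc i := by unfold Cc; positivity

variable {α : Type} [Fintype α] [DecidableEq α]

/-- `τ` is good -/
def Good (F : Finset (Finset α)) (pre : Finset α → ℕ → Finset α) (k : ℕ) (τ : α → ℕ) : Prop :=
  ∃ H ∈ F, ∀ i < k, ∀ j, 4 ^ (i + 1) * ((pre H j).filter fun x => i < τ x).card ≤ j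

/-- validity with penalties `U i` -/
def Val (pre : ℕ → Finset α) (k : ℕ) (τ : α → ℕ) (U : ℕ → ℕ) : Prop :=
  ∀ i < k, ∀ j, 4 ^ (i + 1) * ((pre j).filter fun x => i < τ x).card ≤ j - 4 ^ (i + 1) * U i

/-- number of points of `T` with `τ ≤ i` -/
def UU (τ : α → ℕ) (T : Finset α) (i : ℕ) : ℕ := (T.filter fun x => τ x ≤ i).card

/-- the maximal valid lowering -/
theorem exists_max (F : Finset (Finset α)) (pre : Finset α → ℕ → Finset α)
    (hsub : ∀ H j, pre H j ⊆ H) (hmono : ∀ H, Monotone (pre H)) (k : ℕ) (τ : α → ℕ)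
    (H : Finset α) (hH : H ∈ F) :
    ∃ τ' : α → ℕ, (∀ x, τ' x ≤ τ x) ∧ (∀ x, x ∉ H → τ' x = τ x) ∧
      (∃ H' ∈ F, Val (pre H') k τ' (UU τ' (univ.filter fun x => τ' x < τ x))) ∧
      ∀ H'' ∈ F, Val (pre H'') k τ' (UU τ' (univ.filter fun x => τ' x < τ x)) →
        ∀ x, τ' x < τ x →
          x ∈ pre H'' (4 ^ (τ' x + 1) * UU τ' (univ.filter fun x => τ' x < τ x) (τ' x)) := by
  classical
  let P : (α → ℕ) → Prop := fun τ' => (∀ x, τ' x ≤ τ x) ∧ (∀ x, x ∉ H → τ' x = τ x) ∧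
      (∃ H' ∈ F, Val (pre H') k τ' (UU τ' (univ.filter fun x => τ' x < τ x)))
  let S : Finset (α → ℕ) := (Fintype.piFinset fun x => range (τ x + 1)).filter P
  have hmem : ∀ τ', P τ' → τ' ∈ S := by
    intro τ' h
    refine mem_filter.2 ⟨?_, h⟩
    rw [Fintype.mem_piFinset]
    intro x
    rw [mem_range]
    exact Nat.lt_succ_of_le (h.1 x)
  have hS : S.Nonempty := by
    refine ⟨fun x => if x ∈ H then 0 else τ x, hmem _ ⟨?_, ?_, H, hH, ?_⟩⟩
    · intro x
      by_cases hx : x ∈ H <;> simp [hx]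
    · intro x hx
      simp [hx]
    · intro i _ j
      have : ((pre H j).filter fun x => i < (if x ∈ H then 0 else τ x)) = ∅ := by
        rw [filter_eq_empty_iff]
        intro x hx
        simp [hsub H j hx]
      rw [this]
      simp
  obtain ⟨τ', hτ'S, hmax⟩ := S.exists_max_image (fun τ' => ∑ x, τ' x) hS
  obtain ⟨h1, h2, h3⟩ := (mem_filter.1 hτ'S).2
  refine ⟨τ', h1, h2, h3, ?_⟩
  intro H'' hH'' hV x0 hx0
  by_contra hnot
  set T : Finset α := univ.filter fun x => τ' x < τ x with hT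
  let τ'' : α → ℕ := Function.update τ' x0 (τ' x0 + 1)
  have hx0' : τ'' x0 = τ' x0 + 1 := Function.update_self _ _ _
  have hne : ∀ x, x ≠ x0 → τ'' x = τ' x := fun x hx => Function.update_of_ne hx _ _
  have hle : ∀ x, τ' x ≤ τ'' x := by
    intro x
    by_cases hx : x = x0
    · subst hx; rw [hx0']; omega
    · rw [hne x hx]
  set T'' : Finset α := univ.filter fun x => τ'' x < τ x with hT''
  have hU1 : ∀ i, UU τ'' T'' i ≤ UU τ' T i := by
    intro i
    refine card_le_card ?_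
    intro x hx
    simp only [mem_filter, hT'', hT, mem_univ, true_and] at hx ⊢
    have := hle x
    exact ⟨by omega, by omega⟩
  have hU2 : UU τ'' T'' (τ' x0) + 1 ≤ UU τ' T (τ' x0) := by
    have h4 : x0 ∉ T''.filter fun x => τ'' x ≤ τ' x0 := by
      simp only [mem_filter, not_and, not_le]
      intro _
      rw [hx0']; omega
    unfold UU
    rw [← card_insert_of_notMem h4]
    refine card_le_card ?_
    intro x hx
    rw [mem_insert] at hx
    simp only [mem_filter, hT, mem_univ, true_and]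
    rcases hx with rfl | hx
    · exact ⟨hx0, le_rfl⟩
    · simp only [mem_filter, hT'', mem_univ, true_and] at hx
      have := hle x
      exact ⟨by omega, by omega⟩
  have hVal : Val (pre H'') k τ'' (UU τ'' T'') := by
    intro i hi j
    by_cases hii : i = τ' x0
    · subst hii
      rcases le_or_gt j (4 ^ (τ' x0 + 1) * UU τ' T (τ' x0)) with hj | hj
      · have hx : x0 ∉ pre H'' j := fun h => hnot (hmono H'' hj h)
        have h5 : ((pre H'' j).filter fun x => τ' x0 < τ'' x) =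
            (pre H'' j).filter fun x => τ' x0 < τ' x := by
          refine filter_congr fun x hx' => ?_
          rw [hne x (fun h => hx (h ▸ hx'))]
        rw [h5]
        refine (hV _ hi j).trans ?_
        have := Nat.mul_le_mul_left (4 ^ (τ' x0 + 1)) (hU1 (τ' x0))
        omega
      · have h5 : ((pre H'' j).filter fun x => τ' x0 < τ'' x).card ≤
            ((pre H'' j).filter fun x => τ' x0 < τ' x).card + 1 := by
          refine (card_le_card (t := insert x0 ((pre H'' j).filter fun x => τ' x0 < τ' x)) ?_).trans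
            (card_insert_le _ _)
          intro x hx
          rw [mem_insert, mem_filter]
          rw [mem_filter] at hx
          by_cases hxx : x = x0
          · exact Or.inl hxx
          · rw [hne x hxx] at hx
            exact Or.inr hx
        have h6 := hV _ hi j
        have h7 := Nat.mul_le_mul_left (4 ^ (τ' x0 + 1)) h5
        have h8 := Nat.mul_le_mul_left (4 ^ (τ' x0 + 1)) hU2
        rw [mul_add, mul_one] at h7 h8
        omega
    · have h5 : ((pre H'' j).filter fun x => i < τ'' x) =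
          (pre H'' j).filter fun x => i < τ' x := by
        refine filter_congr fun x _ => ?_
        by_cases hxx : x = x0
        · subst hxx
          rw [hx0']
          omega
        · rw [hne x hxx]
      rw [h5]
      refine (hV _ hi j).trans ?_
      have := Nat.mul_le_mul_left (4 ^ (i + 1)) (hU1 i)
      omega
  have hP : P τ'' := by
    refine ⟨?_, ?_, H'', hH'', hVal⟩
    · intro x
      by_cases hx : x = x0
      · subst hx; rw [hx0']; exact hx0
      · rw [hne x hx]; exact h1 x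
    · intro x hx
      have hxx : x ≠ x0 := by
        rintro rfl
        have := h2 x hx
        omega
      rw [hne x hxx]
      exact h2 x hx
  have h9 := hmax τ'' (hmem _ hP)
  have h10 : ∑ x, τ' x < ∑ x, τ'' x := by
    refine sum_lt_sum (fun x _ => hle x) ⟨x0, mem_univ _, ?_⟩
    rw [hx0']; omega
  omega

/-! ### counting -/

/-- level counts -/
def lc (k : ℕ) (τ : α → ℕ) (T : Finset α) (l : Fin (k + 1)) : ℕ :=
  (T.filter fun x => τ x = (l : ℕ)).card

/-- cumulative counts -/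
def Uof (k : ℕ) (u : Fin (k + 1) → ℕ) (i : ℕ) : ℕ := ∑ l : Fin (k + 1), if (l : ℕ) ≤ i then u l else 0

theorem UU_eq {k : ℕ} {τ : α → ℕ} (hτ : ∀ x, τ x ≤ k) (T : Finset α) (i : ℕ) :
    UU τ T i = Uof k (lc k τ T) i := by
  unfold UU Uof
  rw [card_eq_sum_card_fiberwise (f := τ) (t := range (k + 1))
    (fun x _ => by rw [coe_range, Set.mem_Iio]; exact Nat.lt_succ_of_le (hτ x)), sum_range]
  refine sum_congr rfl fun l _ => ?_
  rw [filter_filter]
  split_ifs with h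
  · unfold lc
    congr 1
    refine filter_congr fun x _ => ?_
    constructor
    · rintro ⟨_, h'⟩; exact h'
    · intro h'; exact ⟨h' ▸ h, h'⟩
  · rw [card_eq_zero, filter_eq_empty_iff]
    rintro x _ ⟨h1, h2⟩
    exact h (h2 ▸ h1)

theorem Uof_le (k : ℕ) (u : Fin (k + 1) → ℕ) (i : ℕ) : Uof k u i ≤ ∑ l, u l := by
  unfold Uof
  refine sum_le_sum fun l _ => ?_
  split_ifs
  · exact le_rfl
  · exact Nat.zero_le _

theorem prod_levels {k : ℕ} {τ : α → ℕ} (hτ : ∀ x, τ x ≤ k) (f : ℕ → ℝ) (T : Finset α) :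
    ∏ x ∈ T, f (τ x) = ∏ l : Fin (k + 1), f l ^ lc k τ T l := by
  rw [← prod_fiberwise_of_maps_to (g := τ) (t := range (k + 1))
    (fun x _ => by rw [mem_range]; exact Nat.lt_succ_of_le (hτ x)), prod_range]
  refine prod_congr rfl fun l _ => ?_
  unfold lc
  rw [← prod_const]
  refine prod_congr rfl fun x hx => ?_
  rw [(mem_filter.1 hx).2]

theorem sum_levels {k : ℕ} {τ : α → ℕ} (hτ : ∀ x, τ x ≤ k) (f : ℕ → ℝ) (T : Finset α) :
    ∑ x ∈ T, f (τ x) = ∑ l : Fin (k + 1), (lc k τ T l : ℝ) * f l := by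
  rw [← sum_fiberwise_of_maps_to (g := τ) (t := range (k + 1))
    (fun x _ => by rw [mem_range]; exact Nat.lt_succ_of_le (hτ x)), sum_range]
  refine sum_congr rfl fun l _ => ?_
  unfold lc
  rw [← nsmul_eq_mul, ← sum_const]
  refine sum_congr rfl fun x hx => ?_
  rw [(mem_filter.1 hx).2]

theorem sum_half_le (n : ℕ) : ∑ l : Fin n, (1 / 2 : ℝ) ^ ((l : ℕ) + 1) ≤ 1 := by
  rw [← sum_range (fun l => (1 / 2 : ℝ) ^ (l + 1))]
  have : ∀ n : ℕ, ∑ l ∈ range n, (1 / 2 : ℝ) ^ (l + 1) = 1 - (1 / 2) ^ n := by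
    intro n
    induction n with
    | zero => simp
    | succ n ih => rw [sum_range_succ, ih]; ring
  rw [this]
  have : (0 : ℝ) < (1 / 2) ^ n := by positivity
  linarith

theorem geom_le_exp {θ : ℝ} (h0 : 0 ≤ θ) (h1 : θ ≤ 1 / 2) (N : ℕ) :
    ∑ m ∈ range N, θ ^ m ≤ Real.exp (2 * θ) := by
  have h2 : (∑ m ∈ range N, θ ^ m) * (1 - θ) ≤ 1 := by
    have := mul_neg_geom_sum θ N
    have h3 : (∑ m ∈ range N, θ ^ m) * (1 - θ) = 1 - θ ^ N := by rw [mul_comm]; exact this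
    rw [h3]
    have : 0 ≤ θ ^ N := by positivity
    linarith
  have h3 : ∑ m ∈ range N, θ ^ m ≤ 1 + 2 * θ := by
    have h4 : 0 ≤ ∑ m ∈ range N, θ ^ m := sum_nonneg fun _ _ => by positivity
    nlinarith
  linarith [Real.add_one_le_exp (2 * θ)]

/-- the weight of one level -/
theorem Cc_inv (l : ℕ) : (Cc l)⁻¹ = (1 / 8 : ℝ) ^ (l + 1) * (24 * 2 ^ l)⁻¹ := by
  unfold Cc
  have h : (16 : ℝ) ^ l = 8 ^ l * 2 ^ l := by rw [← mul_pow]; norm_num
  rw [h, one_div, inv_pow, ← mul_inv]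
  congr 1
  ring

theorem count_fixed {k : ℕ} {τ : α → ℕ} (hτ : ∀ x, τ x ≤ k) (u : Fin (k + 1) → ℕ)
    (A : ℕ → Finset α) (hA : ∀ l, (A l).card ≤ 4 ^ (l + 1) * Uof k u l) :
    ∑ T ∈ (univ : Finset (Finset α)).filter
      (fun T => (∀ x ∈ T, x ∈ A (τ x)) ∧ lc k τ T = u), ∏ x ∈ T, (Cc (τ x))⁻¹ ≤
      ∏ l : Fin (k + 1), (Real.exp 1 * (24 * 2 ^ (l : ℕ))⁻¹) ^ u l := by
  classical
  let B : Finset α := univ.filter fun x => x ∈ A (τ x)
  have h1 : ∀ T ∈ (univ : Finset (Finset α)).filter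
      (fun T => (∀ x ∈ T, x ∈ A (τ x)) ∧ lc k τ T = u), ∏ x ∈ T, (Cc (τ x))⁻¹ =
      (∏ x ∈ T, (1 / 8 : ℝ) ^ (τ x + 1)) * ∏ l : Fin (k + 1), ((24 * 2 ^ (l : ℕ) : ℝ)⁻¹) ^ u l := by
    intro T hT
    have h2 := (mem_filter.1 hT).2.2
    simp only [Cc_inv]
    rw [prod_mul_distrib, prod_levels hτ (fun l => (24 * 2 ^ l : ℝ)⁻¹) T, h2]
  rw [sum_congr rfl h1, ← sum_mul]
  have h3 : ∑ T ∈ (univ : Finset (Finset α)).filter
      (fun T => (∀ x ∈ T, x ∈ A (τ x)) ∧ lc k τ T = u), ∏ x ∈ T, (1 / 8 : ℝ) ^ (τ x + 1) ≤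
      ∏ x ∈ B, (1 + (1 / 8 : ℝ) ^ (τ x + 1)) := by
    rw [prod_one_add]
    refine sum_le_sum_of_subset_of_nonneg ?_ fun T _ _ => prod_nonneg fun x _ => by positivity
    intro T hT
    rw [mem_powerset]
    intro x hx
    exact mem_filter.2 ⟨mem_univ _, (mem_filter.1 hT).2.1 x hx⟩
  have h4 : ∏ x ∈ B, (1 + (1 / 8 : ℝ) ^ (τ x + 1)) ≤ Real.exp (∑ x ∈ B, (1 / 8 : ℝ) ^ (τ x + 1)) := by
    rw [Real.exp_sum]
    refine prod_le_prod (fun x _ => by positivity) fun x _ => ?_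
    have := Real.add_one_le_exp ((1 / 8 : ℝ) ^ (τ x + 1))
    linarith
  have h5 : ∑ x ∈ B, (1 / 8 : ℝ) ^ (τ x + 1) ≤ ∑ l, (u l : ℝ) := by
    rw [sum_levels hτ (fun l => (1 / 8 : ℝ) ^ (l + 1)) B]
    have h6 : ∀ l : Fin (k + 1), (lc k τ B l : ℝ) * (1 / 8 : ℝ) ^ ((l : ℕ) + 1) ≤
        (1 / 2 : ℝ) ^ ((l : ℕ) + 1) * ∑ l, (u l : ℝ) := by
      intro l
      have h7 : lc k τ B l ≤ (A l).card := by
        refine card_le_card ?_
        intro x hx
        rw [mem_filter] at hx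
        have h8 := (mem_filter.1 hx.1).2
        rw [hx.2] at h8
        exact h8
      have h8 : lc k τ B l ≤ 4 ^ ((l : ℕ) + 1) * ∑ l, u l :=
        h7.trans ((hA l).trans (Nat.mul_le_mul_left _ (Uof_le k u l)))
      have h9 : (lc k τ B l : ℝ) ≤ 4 ^ ((l : ℕ) + 1) * ∑ l, (u l : ℝ) := by exact_mod_cast h8
      have h10 : (4 : ℝ) ^ ((l : ℕ) + 1) * (1 / 8 : ℝ) ^ ((l : ℕ) + 1) = (1 / 2 : ℝ) ^ ((l : ℕ) + 1) := by
        rw [← mul_pow]; norm_num
      calc (lc k τ B l : ℝ) * (1 / 8 : ℝ) ^ ((l : ℕ) + 1)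
          ≤ (4 ^ ((l : ℕ) + 1) * ∑ l, (u l : ℝ)) * (1 / 8 : ℝ) ^ ((l : ℕ) + 1) :=
            mul_le_mul_of_nonneg_right h9 (by positivity)
        _ = (4 ^ ((l : ℕ) + 1) * (1 / 8 : ℝ) ^ ((l : ℕ) + 1)) * ∑ l, (u l : ℝ) := by ring
        _ = _ := by rw [h10]
    refine (sum_le_sum fun l _ => h6 l).trans ?_
    rw [← sum_mul]
    have h11 : (0 : ℝ) ≤ ∑ l, (u l : ℝ) := sum_nonneg fun _ _ => Nat.cast_nonneg _
    have := mul_le_mul_of_nonneg_right (sum_half_le (k + 1)) h11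
    linarith
  have h6 : Real.exp (∑ l, (u l : ℝ)) = ∏ l, Real.exp 1 ^ u l := by
    rw [Real.exp_sum]
    refine prod_congr rfl fun l _ => ?_
    rw [← Real.exp_nat_mul, mul_one]
  calc _ ≤ (∏ l, Real.exp 1 ^ u l) * ∏ l : Fin (k + 1), ((24 * 2 ^ (l : ℕ) : ℝ)⁻¹) ^ u l := by
        refine mul_le_mul_of_nonneg_right ?_ (prod_nonneg fun l _ => by positivity)
        rw [← h6]
        exact h3.trans (h4.trans (Real.exp_le_exp.2 h5))
    _ = _ := by
        rw [← prod_mul_distrib]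
        refine prod_congr rfl fun l _ => ?_
        rw [mul_pow]

theorem count {k : ℕ} {τ : α → ℕ} (hτ : ∀ x, τ x ≤ k)
    (A : (Fin (k + 1) → ℕ) → ℕ → Finset α)
    (hA : ∀ u l, (A u l).card ≤ 4 ^ (l + 1) * Uof k u l) :
    ∑ T ∈ (univ : Finset (Finset α)).filter (fun T => ∀ x ∈ T, x ∈ A (lc k τ T) (τ x)),
      ∏ x ∈ T, (Cc (τ x))⁻¹ ≤ 2 := by
  classical
  let N := Fintype.card α + 1
  have hmaps : ∀ T ∈ (univ : Finset (Finset α)).filter
      (fun T => ∀ x ∈ T, x ∈ A (lc k τ T) (τ x)),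
      lc k τ T ∈ Fintype.piFinset fun _ : Fin (k + 1) => range N := by
    intro T _
    rw [Fintype.mem_piFinset]
    intro l
    rw [mem_range]
    exact Nat.lt_succ_of_le ((card_filter_le _ _).trans (card_le_univ T))
  rw [← sum_fiberwise_of_maps_to hmaps]
  have h1 : ∀ u ∈ Fintype.piFinset fun _ : Fin (k + 1) => range N,
      ∑ T ∈ ((univ : Finset (Finset α)).filter
        (fun T => ∀ x ∈ T, x ∈ A (lc k τ T) (τ x))).filter (fun T => lc k τ T = u),
        ∏ x ∈ T, (Cc (τ x))⁻¹ ≤ ∏ l : Fin (k + 1), (Real.exp 1 * (24 * 2 ^ (l : ℕ))⁻¹) ^ u l := by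
    intro u _
    refine le_trans (le_of_eq ?_) (count_fixed hτ u (A u) (hA u))
    refine sum_congr ?_ fun _ _ => rfl
    ext T
    simp only [mem_filter, mem_univ, true_and]
    constructor
    · rintro ⟨h1, rfl⟩; exact ⟨h1, rfl⟩
    · rintro ⟨h1, rfl⟩; exact ⟨h1, rfl⟩
  refine (sum_le_sum h1).trans ?_
  rw [← prod_univ_sum (fun _ : Fin (k + 1) => range N)
    (fun l m => (Real.exp 1 * (24 * 2 ^ (l : ℕ))⁻¹) ^ m)]
  have hθ : ∀ l : ℕ, Real.exp 1 * (24 * 2 ^ l)⁻¹ ≤ 1 / 4 * (1 / 2 : ℝ) ^ (l + 1) := by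
    intro l
    have h2 : Real.exp 1 ≤ 3 := by linarith [Real.exp_one_lt_d9]
    have h3 : (0 : ℝ) < (24 * 2 ^ l)⁻¹ := by positivity
    have h4 : (3 : ℝ) * (24 * 2 ^ l)⁻¹ = 1 / 4 * (1 / 2 : ℝ) ^ (l + 1) := by
      rw [one_div_pow, pow_succ]
      field_simp
      norm_num
    rw [← h4]
    exact mul_le_mul_of_nonneg_right h2 h3.le
  have h2 : ∀ l : Fin (k + 1), ∑ m ∈ range N, (Real.exp 1 * (24 * 2 ^ (l : ℕ))⁻¹) ^ m ≤
      Real.exp (1 / 2 * (1 / 2 : ℝ) ^ ((l : ℕ) + 1)) := by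
    intro l
    have h3 : (1 / 2 : ℝ) ^ ((l : ℕ) + 1) ≤ 1 := pow_le_one₀ (by norm_num) (by norm_num)
    refine (geom_le_exp (by positivity) ((hθ l).trans (by linarith)) N).trans ?_
    refine Real.exp_le_exp.2 ?_
    have := hθ l
    linarith
  calc ∏ l : Fin (k + 1), ∑ m ∈ range N, (Real.exp 1 * (24 * 2 ^ (l : ℕ))⁻¹) ^ m
      ≤ ∏ l : Fin (k + 1), Real.exp (1 / 2 * (1 / 2 : ℝ) ^ ((l : ℕ) + 1)) :=
        prod_le_prod (fun l _ => sum_nonneg fun _ _ => by positivity) fun l _ => h2 l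
    _ = Real.exp (1 / 2 * ∑ l : Fin (k + 1), (1 / 2 : ℝ) ^ ((l : ℕ) + 1)) := by
        rw [← Real.exp_sum, mul_sum]
    _ ≤ Real.exp (1 / 2) := by
        refine Real.exp_le_exp.2 ?_
        have := sum_half_le (k + 1)
        linarith
    _ ≤ 2 := by
        have h5 : Real.exp (1 / 2) * Real.exp (1 / 2) = Real.exp 1 := by
          rw [← Real.exp_add]; norm_num
        have h6 : Real.exp 1 ≤ 3 := by linarith [Real.exp_one_lt_d9]
        have h7 : 0 < Real.exp (1 / 2) := Real.exp_pos _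
        nlinarith

/-! ### the chain lemma -/

/-- transition weights -/
noncomputable def KK (ρ : ℕ → ℝ) (S : Finset α) (τ' τ : α → ℕ) : ℝ :=
  ∏ x, if x ∈ S then ρ (τ x) else if τ x = τ' x then 1 else 0

theorem KK_sum {k : ℕ} {ρ : ℕ → ℝ} (hρ1 : ∑ l ∈ range (k + 1), ρ l = 1) (S : Finset α)
    {τ' : α → ℕ} (hτ' : ∀ x, τ' x ≤ k) :
    ∑ τ ∈ Fintype.piFinset (fun _ : α => range (k + 1)), KK ρ S τ' τ = 1 := by
  unfold KK
  rw [← prod_univ_sum (fun _ : α => range (k + 1))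
    (fun x l => if x ∈ S then ρ l else if l = τ' x then 1 else 0)]
  refine prod_eq_one fun x _ => ?_
  by_cases hx : x ∈ S
  · simp only [hx, if_true]; exact hρ1
  · simp only [hx, if_false]
    rw [sum_ite_eq' (range (k + 1)) (τ' x) (fun _ => (1 : ℝ)), if_pos]
    rw [mem_range]
    exact Nat.lt_succ_of_le (hτ' x)

open Classical in
/-- **Chain lemma.** -/
theorem chain (F : Finset (Finset α)) (pre : Finset α → ℕ → Finset α)
    (hsub : ∀ H j, pre H j ⊆ H) (hmono : ∀ H, Monotone (pre H))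
    (hcard : ∀ H j, (pre H j).card ≤ j) (q : ℝ) (hq : 0 < q) (k : ℕ) (ρ : ℕ → ℝ)
    (hρ : ∀ l < k, ρ l = Cc l * q) (hρ0 : ∀ l, 0 ≤ ρ l)
    (hρ1 : ∑ l ∈ range (k + 1), ρ l = 1)
    (hnot : ∀ G : Finset (Finset α), (∀ H ∈ F, ∃ S ∈ G, S ⊆ H) →
      1 / 2 < ∑ S ∈ G, q ^ S.card) :
    1 / 4 ≤ ∑ τ ∈ (Fintype.piFinset fun _ : α => range (k + 1)).filter (Good F pre k),
      ∏ x, ρ (τ x) := by
  set Ω : Finset (α → ℕ) := Fintype.piFinset fun _ : α => range (k + 1) with hΩ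
  have hΩle : ∀ τ ∈ Ω, ∀ x, τ x ≤ k := by
    intro τ hτ x
    rw [hΩ, Fintype.mem_piFinset] at hτ
    exact Nat.le_of_lt_succ (mem_range.1 (hτ x))
  -- canonical witnesses
  let wit : (α → ℕ) → (Fin (k + 1) → ℕ) → Finset α := fun τ' u =>
    if h : ∃ H ∈ F, Val (pre H) k τ' (Uof k u) then h.choose else ∅
  have hwit : ∀ τ' u, (∃ H ∈ F, Val (pre H) k τ' (Uof k u)) →
      wit τ' u ∈ F ∧ Val (pre (wit τ' u)) k τ' (Uof k u) := by
    intro τ' u h
    simp only [wit, dif_pos h]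
    exact h.choose_spec
  let A : (α → ℕ) → (Fin (k + 1) → ℕ) → ℕ → Finset α := fun τ' u l =>
    pre (wit τ' u) (4 ^ (l + 1) * Uof k u l)
  have hA : ∀ τ' u l, (A τ' u l).card ≤ 4 ^ (l + 1) * Uof k u l := fun τ' u l => hcard _ _
  let ADM : (α → ℕ) → Finset (Finset α) := fun τ' =>
    (univ : Finset (Finset α)).filter fun T => ∀ x ∈ T, x ∈ A τ' (lc k τ' T) (τ' x)
  let P : (α → ℕ) → ℝ := fun τ => ∏ x, ρ (τ x)
  have hP0 : ∀ τ, 0 ≤ P τ := fun τ => prod_nonneg fun x _ => hρ0 _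
  have hP1 : ∑ τ ∈ Ω, P τ = 1 := by
    have h := prod_univ_sum (fun _ : α => range (k + 1)) (fun (_ : α) l => ρ l)
    rw [← h]
    exact prod_eq_one fun x _ => hρ1
  let W : (α → ℕ) → Finset α → ℝ := fun τ' S => ∏ x ∈ S, (Cc (τ' x))⁻¹
  have hW0 : ∀ τ' S, 0 ≤ W τ' S := fun τ' S => prod_nonneg fun x _ => (inv_pos.2 (Cc_pos _)).le
  have hK0 : ∀ (S : Finset α) (τ' τ : α → ℕ), 0 ≤ KK ρ S τ' τ := by
    intro S τ' τ
    refine prod_nonneg fun x _ => ?_
    split_ifs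
    · exact hρ0 _
    · exact zero_le_one
    · exact le_rfl
  -- the term
  let tm : (α → ℕ) → Finset α → (α → ℕ) → ℝ := fun τ S τ' =>
    if S ∈ ADM τ' then P τ' * W τ' S * KK ρ S τ' τ else 0
  have htm0 : ∀ τ S τ', 0 ≤ tm τ S τ' := by
    intro τ S τ'
    simp only [tm]
    split_ifs
    · exact mul_nonneg (mul_nonneg (hP0 _) (hW0 _ _)) (hK0 _ _ _)
    · exact le_rfl
  have hkey : ∀ τ ∈ Ω, ∃ G : Finset (Finset α), (∀ H ∈ F, ∃ S ∈ G, S ⊆ H) ∧
      ∀ S ∈ G, P τ * q ^ S.card ≤ ∑ τ' ∈ Ω.filter (Good F pre k), tm τ S τ' := by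
    intro τ hτ
    choose! m hm1 hm2 hm3 hm4 using fun H (hH : H ∈ F) => exists_max F pre hsub hmono k τ H hH
    refine ⟨F.image fun H => univ.filter fun x => m H x < τ x, ?_, ?_⟩
    · intro H hH
      refine ⟨_, mem_image_of_mem _ hH, ?_⟩
      intro x hx
      by_contra hxH
      have h1 := (mem_filter.1 hx).2
      have h2 := hm2 H hH x hxH
      omega
    · intro S hS
      obtain ⟨H, hH, rfl⟩ := mem_image.1 hS
      set S : Finset α := univ.filter fun x => m H x < τ x with hSdef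
      have hmk : ∀ x, m H x ≤ k := fun x => (hm1 H hH x).trans (hΩle τ hτ x)
      have hUU : UU (m H) S = Uof k (lc k (m H) S) := funext fun i => UU_eq hmk S i
      have hmΩ : m H ∈ Ω := by
        rw [hΩ, Fintype.mem_piFinset]
        intro x
        rw [mem_range]
        exact Nat.lt_succ_of_le (hmk x)
      have hgood : Good F pre k (m H) := by
        obtain ⟨H', hH', hV⟩ := hm3 H hH
        exact ⟨H', hH', fun i hi j => (hV i hi j).trans (Nat.sub_le _ _)⟩
      have hex : ∃ H' ∈ F, Val (pre H') k (m H) (Uof k (lc k (m H) S)) := by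
        rw [← hUU]; exact hm3 H hH
      have hadm : S ∈ ADM (m H) := by
        refine mem_filter.2 ⟨mem_univ _, ?_⟩
        intro x hx
        have h1 := hwit (m H) _ hex
        have h2 := h1.2
        rw [← hUU] at h2
        have h3 := hm4 H hH _ h1.1 h2 x (mem_filter.1 hx).2
        show x ∈ pre (wit (m H) (lc k (m H) S)) (4 ^ (m H x + 1) * Uof k (lc k (m H) S) (m H x))
        rw [← hUU]
        exact h3
      have heq : P τ * q ^ S.card = tm τ S (m H) := by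
        simp only [tm, if_pos hadm]
        have e1 : q ^ S.card = ∏ x : α, if x ∈ S then q else 1 := by
          rw [prod_ite_mem, univ_inter, prod_const]
        have e2 : W (m H) S = ∏ x : α, if x ∈ S then (Cc (m H x))⁻¹ else 1 := by
          rw [prod_ite_mem, univ_inter]
        rw [e1, e2]
        show (∏ x, ρ (τ x)) * _ = (∏ x, ρ (m H x)) * _ * KK ρ S (m H) τ
        unfold KK
        rw [← prod_mul_distrib, ← prod_mul_distrib, ← prod_mul_distrib]
        refine prod_congr rfl fun x _ => ?_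
        by_cases hx : x ∈ S
        · simp only [hx, if_true]
          have h1 : m H x < τ x := (mem_filter.1 hx).2
          have h2 : m H x < k := lt_of_lt_of_le h1 (hΩle τ hτ x)
          rw [hρ _ h2]
          have h3 := (Cc_pos (m H x)).ne'
          field_simp
        · simp only [hx, if_false]
          have h1 : ¬ m H x < τ x := fun h => hx (mem_filter.2 ⟨mem_univ _, h⟩)
          have h2 : τ x = m H x := le_antisymm (not_lt.1 h1) (hm1 H hH x)
          rw [if_pos h2, h2]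
          ring
      rw [heq]
      exact single_le_sum (f := fun τ' => tm τ S τ') (fun τ' _ => htm0 τ S τ')
        (mem_filter.2 ⟨hmΩ, hgood⟩)
  -- averaging
  have h1 : (1 / 2 : ℝ) ≤ ∑ τ ∈ Ω, ∑ S : Finset α, ∑ τ' ∈ Ω.filter (Good F pre k), tm τ S τ' := by
    have h2 : (1 / 2 : ℝ) = ∑ τ ∈ Ω, P τ * (1 / 2) := by rw [← sum_mul, hP1]; ring
    rw [h2]
    refine sum_le_sum fun τ hτ => ?_
    obtain ⟨G, hG1, hG2⟩ := hkey τ hτ
    calc P τ * (1 / 2) ≤ P τ * ∑ S ∈ G, q ^ S.card :=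
          mul_le_mul_of_nonneg_left (hnot G hG1).le (hP0 τ)
      _ = ∑ S ∈ G, P τ * q ^ S.card := mul_sum _ _ _
      _ ≤ ∑ S ∈ G, ∑ τ' ∈ Ω.filter (Good F pre k), tm τ S τ' := sum_le_sum hG2
      _ ≤ _ := sum_le_sum_of_subset_of_nonneg (subset_univ _)
          fun S _ _ => sum_nonneg fun τ' _ => htm0 τ S τ'
  have h2 : ∑ τ ∈ Ω, ∑ S : Finset α, ∑ τ' ∈ Ω.filter (Good F pre k), tm τ S τ' =
      ∑ τ' ∈ Ω.filter (Good F pre k), P τ' * ∑ S ∈ ADM τ', W τ' S := by
    rw [sum_comm]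
    simp_rw [sum_comm (s := Ω)]
    rw [sum_comm]
    refine sum_congr rfl fun τ' hτ' => ?_
    have hτ'Ω : τ' ∈ Ω := (mem_filter.1 hτ').1
    rw [mul_sum, ← sum_filter_add_sum_filter_not univ (fun S : Finset α => S ∈ ADM τ')]
    have e1 : ∑ S ∈ univ.filter (fun S : Finset α => ¬ S ∈ ADM τ'), ∑ τ ∈ Ω, tm τ S τ' = 0 := by
      refine sum_eq_zero fun S hS => sum_eq_zero fun τ _ => ?_
      simp only [tm, if_neg (mem_filter.1 hS).2]
    have e2 : univ.filter (fun S : Finset α => S ∈ ADM τ') = ADM τ' := by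
      ext S; simp
    rw [e1, add_zero, e2]
    refine sum_congr rfl fun S hS => ?_
    simp only [tm, if_pos hS]
    rw [← mul_sum, KK_sum hρ1 S (hΩle τ' hτ'Ω), mul_one]
  rw [h2] at h1
  have h3 : ∑ τ' ∈ Ω.filter (Good F pre k), P τ' * ∑ S ∈ ADM τ', W τ' S ≤
      ∑ τ' ∈ Ω.filter (Good F pre k), P τ' * 2 := by
    refine sum_le_sum fun τ' hτ' => mul_le_mul_of_nonneg_left ?_ (hP0 τ')
    exact count (hΩle τ' (mem_filter.1 hτ').1) (A τ') (hA τ')
  rw [← sum_mul] at h3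
  show 1 / 4 ≤ ∑ τ' ∈ Ω.filter (Good F pre k), P τ'
  linarith

end Crest.Agent.R052
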