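import Crest.Agent.R052.Setup

/-!
Row 52 (S0073), helper128: counting copies (densities, hubs, stars).
-/

set_option autoImplicit false

open Finset
open Crest.CombinatoricsR.RandomGraph

namespace Crest.Agent.R052.Setup

theorem card_image_le_of_factor {α β γ : Type*} [Fintype α] [DecidableEq β] [DecidableEq γ]
    (f : α → β) (g : α → γ) (h : ∀ a a', g a = g a' → f a = f a') :
    (Finset.univ.image f).card ≤ (Finset.univ.image g).card := by
  classical
  rcases isEmpty_or_nonempty α with hα | hα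
  · simp
  have hsel : ∀ b ∈ Finset.univ.image f, ∃ a, f a = b := fun b hb => by
    simpa using hb
  choose! s hs using hsel
  refine Finset.card_le_card_of_injOn (fun b => g (s b)) ?_ ?_
  · intro b _
    simp
  · intro b hb b' hb' hbb
    have := h _ _ hbb
    rw [hs b hb, hs b' hb'] at this
    exact this

theorem copies_card_le_of_code {W : Type*} [Fintype W] {n : ℕ} {J : Finset (Sym2 W)}
    {K : Type*} (code : (W ↪ Fin n) → K) (T : Finset K)
    (hT : ∀ f, code f ∈ T) (h : ∀ f f', code f = code f' → cs n J f = cs n J f') :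
    (copies n J).card ≤ T.card := by
  classical
  unfold copies
  refine (card_image_le_of_factor (fun f : W ↪ Fin n => cs n J f) code h).trans ?_
  apply Finset.card_le_card
  intro k hk
  rw [Finset.mem_image] at hk
  obtain ⟨f, -, rfl⟩ := hk
  exact hT f

theorem cs_congr {W : Type*} {n : ℕ} {J : Finset (Sym2 W)} {V : Finset W}
    (hV : ∀ e ∈ J, ∀ w ∈ e, w ∈ V) {f f' : W → Fin n} (h : ∀ w ∈ V, f w = f' w) :
    cs n J f = cs n J f' := by
  ext s
  rw [mem_cs, mem_cs]
  constructor
  · rintro ⟨e, he, hs⟩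
    refine ⟨e, he, ?_⟩
    rw [← hs]
    exact Sym2.map_congr (fun w hw => (h w (hV e he w hw)).symm)
  · rintro ⟨e, he, hs⟩
    refine ⟨e, he, ?_⟩
    rw [← hs]
    exact Sym2.map_congr (fun w hw => h w (hV e he w hw))

theorem card_copies_le_pow {W : Type*} [Fintype W] {n : ℕ} {J : Finset (Sym2 W)} {V : Finset W}
    (hV : ∀ e ∈ J, ∀ w ∈ e, w ∈ V) : ((copies n J).card : ℝ) ≤ (n : ℝ) ^ V.card := by
  classical
  have h1 : (copies n J).card ≤ (Finset.univ : Finset (V → Fin n)).card := by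
    refine copies_card_le_of_code (fun f : W ↪ Fin n => fun w : V => f w) _
      (fun f => Finset.mem_univ _) ?_
    intro f f' h
    apply cs_congr hV
    intro w hw
    exact congrFun h ⟨w, hw⟩
  rw [Finset.card_univ, Fintype.card_fun, Fintype.card_fin, Fintype.card_coe] at h1
  exact_mod_cast h1

/-- The density exponent. -/
noncomputable def DD (n : ℕ) (p : ℝ) : ℝ := Real.log n / Real.log (1 / p)

theorem DD_nonneg {n : ℕ} {p : ℝ} (hp0 : 0 < p) (hp1 : p ≤ 1) : 0 ≤ DD n p := by
  unfold DD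
  apply div_nonneg (Real.log_natCast_nonneg n)
  apply Real.log_nonneg
  rw [le_div_iff₀ hp0]; linarith

theorem Dense.density {W : Type*} [Fintype W] {n : ℕ} {H : SimpleGraph W} {p : ℝ}
    (hd : Dense n H p) (hn : 1 ≤ n) (hp : p ≤ 1 / 2) {J : Finset (Sym2 W)} {V : Finset W}
    (hJ : ∀ e ∈ J, e ∈ H.edgeSet) (hV : ∀ e ∈ J, ∀ w ∈ e, w ∈ V) :
    (J.card : ℝ) ≤ DD n p * V.card + 1 := by
  have hp0 := hd.pos
  have hD := DD_nonneg (n := n) hp0 hd.le_one
  rcases J.eq_empty_or_nonempty with rfl | hne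
  · simp only [Finset.card_empty, Nat.cast_zero]
    positivity
  have h1 := hd.half_le J hne hJ
  have h2 := card_copies_le_pow (n := n) hV
  have h3 : (1:ℝ) / 2 ≤ (n : ℝ) ^ V.card * p ^ J.card :=
    h1.trans (mul_le_mul_of_nonneg_right h2 (by positivity))
  have hn0 : (0:ℝ) < n := by exact_mod_cast hn
  have h4 : Real.log (1 / 2) ≤ V.card * Real.log n + J.card * Real.log p := by
    have := Real.log_le_log (by norm_num) h3
    rwa [Real.log_mul (by positivity) (by positivity), Real.log_pow, Real.log_pow] at this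
  have hl : Real.log (1 / p) = - Real.log p := by rw [one_div, Real.log_inv]
  have hl2 : Real.log (1 / 2) = - Real.log 2 := by rw [one_div, Real.log_inv]
  have hlp : Real.log 2 ≤ Real.log (1 / p) := by
    apply Real.log_le_log (by norm_num)
    rw [le_div_iff₀ hp0]; linarith
  have hlog2 : 0 < Real.log 2 := Real.log_pos (by norm_num)
  have hlpos : 0 < Real.log (1 / p) := by linarith
  have h5 : (J.card : ℝ) * Real.log (1 / p) ≤ V.card * Real.log n + Real.log (1 / p) := by
    rw [hl2] at h4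
    rw [hl] at hlp ⊢
    nlinarith [h4, hlp]
  unfold DD
  rw [div_mul_eq_mul_div, div_add_one (ne_of_gt hlpos), le_div_iff₀ hlpos]
  linarith

/-- All edges between `Z` and `T`. -/
noncomputable def biJ {W : Type*} (Z T : Finset W) : Finset (Sym2 W) := by
  classical
  exact (Z ×ˢ T).image (fun x => s(x.1, x.2))

theorem mem_biJ {W : Type*} {Z T : Finset W} {e : Sym2 W} :
    e ∈ biJ Z T ↔ ∃ a ∈ Z, ∃ b ∈ T, s(a, b) = e := by
  classical
  unfold biJ
  simp only [Finset.mem_image, Finset.mem_product, Prod.exists]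
  constructor
  · rintro ⟨a, b, ⟨ha, hb⟩, h⟩; exact ⟨a, ha, b, hb, h⟩
  · rintro ⟨a, ha, b, hb, h⟩; exact ⟨a, b, ⟨ha, hb⟩, h⟩

theorem card_biJ {W : Type*} {Z T : Finset W} (hZT : Disjoint Z T) :
    (biJ Z T).card = Z.card * T.card := by
  classical
  unfold biJ
  rw [Finset.card_image_of_injOn, Finset.card_product]
  rintro ⟨a, b⟩ hab ⟨a', b'⟩ hab' h
  simp only [Finset.coe_product, Set.mem_prod, Finset.mem_coe] at hab hab'
  simp only [Sym2.eq_iff] at h
  rcases h with ⟨rfl, rfl⟩ | ⟨h1, h2⟩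
  · rfl
  · exfalso
    exact Finset.disjoint_left.1 hZT hab.1 (h1 ▸ hab'.2)

theorem card_copies_biJ {W : Type*} [Fintype W] (n : ℕ) (Z T : Finset W) :
    (copies n (biJ Z T)).card ≤ n.choose Z.card * n.choose T.card := by
  classical
  have := copies_card_le_of_code (n := n) (J := biJ Z T)
    (fun f : W ↪ Fin n => (Z.map f, T.map f))
    ((Finset.univ : Finset (Fin n)).powersetCard Z.card ×ˢ
      (Finset.univ : Finset (Fin n)).powersetCard T.card)
    (fun f => by simp [Finset.mem_powersetCard]) ?_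
  · simpa [Finset.card_powersetCard] using this
  · intro f f' h
    simp only [Prod.mk.injEq] at h
    obtain ⟨h1, h2⟩ := h
    have key : ∀ g g' : W ↪ Fin n, Z.map g = Z.map g' → T.map g = T.map g' →
        cs n (biJ Z T) g ⊆ cs n (biJ Z T) g' := by
      intro g g' h1 h2 s hs
      rw [mem_cs] at hs ⊢
      obtain ⟨e, he, hs⟩ := hs
      rw [mem_biJ] at he
      obtain ⟨a, ha, b, hb, rfl⟩ := he
      have ha' : g a ∈ Z.map g' := by rw [← h1]; exact Finset.mem_map_of_mem g ha
      have hb' : g b ∈ T.map g' := by rw [← h2]; exact Finset.mem_map_of_mem g hb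
      rw [Finset.mem_map] at ha' hb'
      obtain ⟨a', ha', haa⟩ := ha'
      obtain ⟨b', hb', hbb⟩ := hb'
      refine ⟨s(a', b'), mem_biJ.2 ⟨a', ha', b', hb', rfl⟩, ?_⟩
      rw [← hs, Sym2.map_mk, Sym2.map_mk, haa, hbb]
    exact Finset.Subset.antisymm (key f f' h1 h2) (key f' f h1.symm h2.symm)

/-- `C(n,k) ≤ (e n / k)^k`. -/
theorem choose_le_exp (n k : ℕ) (hk : 1 ≤ k) :
    ((n.choose k : ℕ) : ℝ) ≤ (Real.exp 1 * n / k) ^ k := by
  have hk0 : (0:ℝ) < k := by exact_mod_cast hk
  have h1 : ((n.choose k : ℕ) : ℝ) ≤ (n : ℝ) ^ k / (k.factorial : ℝ) := by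
    have := Nat.choose_le_pow_div (α := ℝ) k n
    simpa using this
  have h2 : ((k:ℝ) / Real.exp 1) ^ k ≤ (k.factorial : ℝ) := by
    -- k^k/k! ≤ exp k
    have h3 : ((k:ℝ) ^ k) / (k.factorial : ℝ) ≤ Real.exp k :=
      Real.pow_div_factorial_le_exp (k:ℝ) hk0.le k
    have hf : (0:ℝ) < k.factorial := by exact_mod_cast Nat.factorial_pos k
    rw [div_pow, div_le_iff₀ (by positivity)]
    rw [div_le_iff₀ hf] at h3
    have h4 : Real.exp 1 ^ k = Real.exp k := by
      rw [← Real.exp_nat_mul]; simp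
    rw [h4, mul_comm]
    exact h3
  have hpos : (0:ℝ) < ((k:ℝ) / Real.exp 1) ^ k := by positivity
  calc ((n.choose k : ℕ) : ℝ) ≤ (n : ℝ) ^ k / (k.factorial : ℝ) := h1
    _ ≤ (n : ℝ) ^ k / ((k:ℝ) / Real.exp 1) ^ k := by
        apply div_le_div_of_nonneg_left (by positivity) hpos h2
    _ = (Real.exp 1 * n / k) ^ k := by
        rw [← div_pow]
        congr 1
        field_simp

end Crest.Agent.R052.Setup
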