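import Crest.Agent.R052.SetupI

/-!
Row 52 (S0073), helper128: the degeneracy order (interface statement `orient`).
-/

set_option autoImplicit false

open Finset
open Crest.CombinatoricsR.RandomGraph

namespace Crest.Agent.R052.Setup

open Crest.Agent.R052.Struct

/-- the graph `H` restricted to the vertex set `Y` -/
def inside {W : Type*} (H : SimpleGraph W) (Y : Finset W) : SimpleGraph W where
  Adj a b := H.Adj a b ∧ a ∈ Y ∧ b ∈ Y
  symm := ⟨fun _ _ h => ⟨h.1.symm, h.2.2, h.2.1⟩⟩
  loopless := ⟨fun _ h => h.1.ne rfl⟩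

theorem exists_low_degree {W : Type*} [Fintype W] (H : SimpleGraph W) (K : ℕ) (Y : Finset W)
    (hY : Y.Nonempty)
    (hK : ∀ J : Finset (Sym2 W), (∀ e ∈ J, e ∈ H.edgeSet) → (∀ e ∈ J, ∀ w ∈ e, w ∈ Y) →
      J.card ≤ K * Y.card) :
    ∃ v ∈ Y, Set.ncard {u | u ∈ Y ∧ H.Adj v u} ≤ 2 * K := by
  classical
  have h1 := (inside H Y).sum_degrees_eq_twice_card_edges
  have h2 : (inside H Y).edgeFinset.card ≤ K * Y.card := by
    apply hK
    · intro e he
      rw [SimpleGraph.mem_edgeFinset] at he
      induction e with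
      | _ a b => exact he.1
    · intro e he w hw
      rw [SimpleGraph.mem_edgeFinset] at he
      induction e with
      | _ a b =>
        rcases Sym2.mem_iff.1 hw with rfl | rfl
        · exact he.2.1
        · exact he.2.2
  have h3 : ∑ v ∈ Y, (inside H Y).degree v ≤ ∑ v ∈ Y, 2 * K := by
    calc ∑ v ∈ Y, (inside H Y).degree v ≤ ∑ v, (inside H Y).degree v :=
          Finset.sum_le_sum_of_subset (Finset.subset_univ _)
      _ = 2 * (inside H Y).edgeFinset.card := h1
      _ ≤ 2 * (K * Y.card) := Nat.mul_le_mul_left _ h2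
      _ = ∑ v ∈ Y, 2 * K := by rw [Finset.sum_const, smul_eq_mul]; ring
  obtain ⟨v, hv, hvd⟩ := Finset.exists_le_of_sum_le hY h3
  refine ⟨v, hv, ?_⟩
  have h4 : {u | u ∈ Y ∧ H.Adj v u} = (((inside H Y).neighborFinset v : Finset W) : Set W) := by
    ext u
    simp only [Set.mem_ofPred_eq, Finset.mem_coe, SimpleGraph.mem_neighborFinset]
    constructor
    · rintro ⟨h1, h2⟩; exact ⟨h2, hv, h1⟩
    · rintro ⟨h1, h2, h3⟩; exact ⟨h3, h1⟩
  rw [h4, Set.ncard_coe_finset]
  exact hvd

theorem exists_order_aux {W : Type*} [Fintype W] (H : SimpleGraph W) (K : ℕ)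
    (hK : ∀ Y : Finset W, Y.Nonempty → ∃ v ∈ Y, Set.ncard {u | u ∈ Y ∧ H.Adj v u} ≤ 2 * K) :
    ∀ (m : ℕ) (Y : Finset W), Y.card = m → ∃ ord : W → ℕ, Set.InjOn ord Y ∧
      (∀ v ∈ Y, ord v < m) ∧
      ∀ v ∈ Y, Set.ncard {u | u ∈ Y ∧ H.Adj v u ∧ ord u < ord v} ≤ 2 * K := by
  classical
  intro m
  induction m with
  | zero =>
    intro Y hY
    rw [Finset.card_eq_zero] at hY
    subst hY
    exact ⟨fun _ => 0, by simp, by simp, by simp⟩
  | succ m ih =>
    intro Y hY
    have hne : Y.Nonempty := by rw [← Finset.card_pos]; omega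
    obtain ⟨v0, hv0, hdeg⟩ := hK Y hne
    obtain ⟨ord, h1, h2, h3⟩ := ih (Y.erase v0) (by rw [Finset.card_erase_of_mem hv0]; omega)
    have hup : ∀ v, v ≠ v0 → Function.update ord v0 m v = ord v := fun v hv => by
      rw [Function.update_of_ne hv]
    have hup0 : Function.update ord v0 m v0 = m := by simp
    refine ⟨Function.update ord v0 m, ?_, ?_, ?_⟩
    · intro a ha b hb hab
      by_cases ha0 : a = v0
      · by_cases hb0 : b = v0
        · rw [ha0, hb0]
        · exfalso
          subst ha0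
          rw [hup0, hup b hb0] at hab
          have := h2 b (Finset.mem_erase.2 ⟨hb0, hb⟩)
          omega
      · by_cases hb0 : b = v0
        · exfalso
          subst hb0
          rw [hup0, hup a ha0] at hab
          have := h2 a (Finset.mem_erase.2 ⟨ha0, ha⟩)
          omega
        · rw [hup a ha0, hup b hb0] at hab
          exact h1 (Finset.mem_erase.2 ⟨ha0, ha⟩) (Finset.mem_erase.2 ⟨hb0, hb⟩) hab
    · intro v hv
      by_cases hv' : v = v0
      · rw [hv', hup0]; omega
      · rw [hup v hv']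
        have := h2 v (Finset.mem_erase.2 ⟨hv', hv⟩)
        omega
    · intro v hv
      by_cases hv' : v = v0
      · subst hv'
        refine le_trans (Set.ncard_le_ncard ?_ (Set.toFinite _)) hdeg
        rintro u ⟨hu1, hu2, -⟩
        exact ⟨hu1, hu2⟩
      · refine le_trans (Set.ncard_le_ncard ?_ (Set.toFinite _)) (h3 v (Finset.mem_erase.2 ⟨hv', hv⟩))
        rintro u ⟨hu1, hu2, hu3⟩
        have hvm := h2 v (Finset.mem_erase.2 ⟨hv', hv⟩)
        by_cases hu0 : u = v0
        · exfalso
          subst hu0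
          rw [hup0, hup v hv'] at hu3
          omega
        · rw [hup u hu0, hup v hv'] at hu3
          exact ⟨Finset.mem_erase.2 ⟨hu0, hu1⟩, hu2, hu3⟩

theorem orient (n : ℕ) (W : Type) [Fintype W] [DecidableEq W] (H : SimpleGraph W)
    (p : ℝ) (z : ℕ) (hp0 : 0 < p) (hp : p ≤ 1 / 2) (hcrit : Crit n p H)
    (hz : p ^ (64 * (z + 1)) * n < 1) :
    ∃ ord : W → ℕ, Function.Injective ord ∧
      ∀ v, Set.ncard {u | H.Adj v u ∧ ord u < ord v} ≤ 128 * (z + 1) := by
  classical
  have hd := dense_of_crit hp0 (by linarith) hcrit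
  have key : ∀ Y : Finset W, Y.Nonempty →
      ∃ v ∈ Y, Set.ncard {u | u ∈ Y ∧ H.Adj v u} ≤ 2 * (64 * (z + 1)) := by
    intro Y hY
    apply exists_low_degree H _ Y hY
    intro J hJH hJV
    rcases J.eq_empty_or_nonempty with rfl | hJne
    · simp
    -- n ≥ 1
    have hn1 : 1 ≤ n := by
      by_contra hcon
      have hn0 : n = 0 := by omega
      have h1 := hd.half_le J hJne hJH
      have h2 : (copies n J).card = 0 := by
        rw [Finset.card_eq_zero, Finset.eq_empty_iff_forall_notMem]
        intro S hS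
        obtain ⟨f, -⟩ := mem_copies.1 hS
        obtain ⟨v, -⟩ := hY
        have := (f v).2
        omega
      rw [h2] at h1
      norm_num at h1
    have hden := hd.density hn1 hp hJH hJV
    have hn0 : (0:ℝ) < n := by exact_mod_cast hn1
    have hlog2 : 0 < Real.log (1 / p) := by
      apply Real.log_pos
      rw [lt_div_iff₀ hp0]; linarith
    have hD : DD n p < 64 * (z + 1) := by
      unfold DD
      rw [div_lt_iff₀ hlog2]
      have h1 : Real.log (p ^ (64 * (z + 1)) * n) < 0 := Real.log_neg (by positivity) hz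
      rw [Real.log_mul (by positivity) (by positivity), Real.log_pow] at h1
      rw [one_div, Real.log_inv]
      push_cast at h1
      linarith
    have hYc : (1:ℝ) ≤ Y.card := by exact_mod_cast Finset.card_pos.2 hY
    have h2 : (J.card : ℝ) < 64 * (z + 1) * Y.card + 1 := by
      have : DD n p * Y.card < 64 * (z + 1) * Y.card :=
        mul_lt_mul_of_pos_right hD (by linarith)
      linarith
    have h3 : J.card < 64 * (z + 1) * Y.card + 1 := by exact_mod_cast h2
    omega
  obtain ⟨ord, h1, -, h3⟩ := exists_order_aux H (64 * (z + 1)) key _ Finset.univ rfl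
  refine ⟨ord, ?_, ?_⟩
  · intro a b hab
    exact h1 (by simp) (by simp) hab
  · intro v
    have := h3 v (Finset.mem_univ v)
    have e : {u | u ∈ (Finset.univ : Finset W) ∧ H.Adj v u ∧ ord u < ord v} =
        {u | H.Adj v u ∧ ord u < ord v} := by
      ext u; simp
    rw [e] at this
    omega

end Crest.Agent.R052.Setup
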