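import Crest.Agent.R052.Final

/-!
Row 52, S0073: the dense case.
-/

set_option autoImplicit false
set_option maxHeartbeats 1000000

open Finset
open Crest.CombinatoricsR.RandomGraph

namespace Crest.Agent.R052.Final

open Crest.Agent.R052.Struct

/-- the dense case -/
theorem dense (hhub : HubLemma) (hlow : LowLemma) (hsmall : SmallLemma) (hor : OrientLemma)
    (hcom : CommonLemma) :
    ∃ n0 : ℕ, ∃ L : ℝ, ∃ k : ℕ, 2 ≤ L ∧ ∀ n ≥ n0, ∀ (W : Type) [Fintype W] [DecidableEq W]
    (H : SimpleGraph W) (p : ℝ) (z : ℕ), Fintype.card W ≤ n → 0 < p → L * p ≤ 1 → Crit n p H →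
    1 ≤ z → 1 ≤ p ^ (64 * z) * n → p ^ (64 * (z + 1)) * n < 1 → Splits n (L * p) H k := by
  obtain ⟨nh, L, hL, hhub⟩ := hhub
  obtain ⟨nl, hlow⟩ := hlow
  obtain ⟨ns, hsmall⟩ := hsmall
  obtain ⟨nc, hcom⟩ := hcom
  refine ⟨max (max (max nh nl) (max ns nc)) (1280 ^ 32), L + 1,
    Fintype.card ((Fin 256 × Fin 128 × Fin 128) ⊕ (Fin 256 ⊕ (Fin 256 × Fin 128))) * 2,
    by linarith, ?_⟩
  intro n hn W _ _ H p z hW hp0 hLp hcrit hz1 hz2 hz3
  classical
  have hnh : nh ≤ n := ((le_max_left _ _).trans (le_max_left _ _)).trans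
    ((le_max_left _ _).trans hn)
  have hnl : nl ≤ n := ((le_max_right _ _).trans (le_max_left _ _)).trans
    ((le_max_left _ _).trans hn)
  have hns : ns ≤ n := ((le_max_left _ _).trans (le_max_right _ _)).trans
    ((le_max_left _ _).trans hn)
  have hnc : nc ≤ n := ((le_max_right _ _).trans (le_max_right _ _)).trans
    ((le_max_left _ _).trans hn)
  have hnb : 1280 ^ 32 ≤ n := (le_max_right _ _).trans hn
  have hn1 : 128 ≤ n := le_trans (by norm_num) hnb
  have hp2 : p ≤ 1 / 2 := by nlinarith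
  have hLp' : L * p ≤ 1 := by nlinarith
  have hpL : p ≤ (L + 1) * p := by nlinarith
  have hL0 : 0 ≤ L * p := by nlinarith
  have hLL : L * p ≤ (L + 1) * p := by nlinarith
  have hL1 : 0 ≤ (L + 1) * p := by nlinarith
  obtain ⟨ord, hord, hdeg⟩ := hor n W H p z hp0 hp2 hcrit hz3
  have hdeg' : ∀ v, Set.ncard {u | H.Adj v u ∧ ord u < ord v} ≤ 256 * z :=
    fun v => (hdeg v).trans (by omega)
  obtain ⟨part, hpart⟩ := exists_parts n hn1 W hW
  -- the degree bound `D`
  obtain ⟨D, hD1, hD2⟩ : ∃ D : ℕ, D ^ 16 ≤ n ∧ n < (D + 1) ^ 16 := by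
    refine ⟨Nat.findGreatest (fun D => D ^ 16 ≤ n) n, ?_, ?_⟩
    · exact Nat.findGreatest_spec (P := fun D => D ^ 16 ≤ n) (m := 0) (Nat.zero_le _) (by simp)
    · by_contra hcon
      push Not at hcon
      have h1 : Nat.findGreatest (fun D => D ^ 16 ≤ n) n + 1 ≤ n := by
        refine le_trans ?_ hcon
        exact Nat.le_self_pow (by norm_num) _
      have h2 := Nat.le_findGreatest (P := fun D => D ^ 16 ≤ n) h1 hcon
      omega
  set B0 : Finset W := univ.filter fun u => D < Set.ncard {v | H.Adj v u ∧ ord u < ord v}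
    with hB0
  have hB0c : B0.card * (D + 1) ≤ n * (256 * z) := by
    refine (hubs_card H ord (256 * z) D hdeg' B0 ?_).trans (Nat.mul_le_mul_right _ hW)
    intro u hu
    rw [hB0] at hu
    simpa using hu
  obtain ⟨hB1, hB2⟩ := hubs_small n z D B0.card hnb (z_small n hnb p z hp0 hp2 hz2) hD2 hB0c
  -- the classes
  let Rl : ℕ → W → W → Prop := fun γ v u =>
    (H.Adj v u ∧ ord u < ord v) ∧ idx H ord v u / z = γ
  have hRz : ∀ γ v (s : Finset W), (∀ u ∈ s, Rl γ v u) → s.card ≤ z :=
    fun γ v s hs => group_card H ord hord z hz1 v γ s hs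
  let R0 : Fin 256 × Fin 128 × Fin 128 → W → W → Prop := fun t v u =>
    Rl t.1 v u ∧ part v = t.2.1 ∧ part u = t.2.2 ∧ u ∉ B0
  let R1 : Fin 256 → W → W → Prop := fun t v u => Rl t v u ∧ u ∈ B0 ∧ v ∈ B0
  let A2 : Fin 256 × Fin 128 → Finset W := fun t => univ.filter fun v => part v = t.2 ∧ v ∉ B0
  let S2 : Fin 256 × Fin 128 → W → Finset W := fun t v => B0.filter fun u => Rl t.1 v u
  let R2 : Fin 256 × Fin 128 → W → W → Prop := fun t v u => v ∈ A2 t ∧ u ∈ S2 t v
  have hncard : ∀ (Q : W → Prop) (m : ℕ), (∀ s : Finset W, (∀ u ∈ s, Q u) → s.card ≤ m) →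
      Set.ncard {u | Q u} ≤ m := by
    intro Q m h
    rw [Set.ncard_eq_toFinset_card']
    apply h
    intro u hu
    simpa using hu
  have key0 : ∀ t, Splits n ((L + 1) * p) (SimpleGraph.fromRel (R0 t)) 2 := by
    intro t
    refine Splits.mono_k hL1 hLp hW (show 1 ≤ 2 by norm_num) ?_
    refine Splits.mono_p hp0.le hpL hLp (splits_one hp0.le (by linarith) ?_)
    have hR : ∀ v u, R0 t v u → ord u < ord v := fun v u h => h.1.1.2
    refine hlow n hnl W _ ord ((univ.filter fun v => part v = t.2.1) ∪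
      (univ.filter fun v => part v = t.2.2)) p z D hW hp0 hp2 hord ?_ ?_ hz2 hD1 ?_ ?_
    · intro u v huv
      rw [SimpleGraph.fromRel_adj] at huv
      rcases huv.2 with h | h
      · exact Finset.mem_union_left _ (by simpa using h.2.1)
      · exact Finset.mem_union_right _ (by simpa using h.2.2.1)
    · have h1 := hpart t.2.1
      have h2 := hpart t.2.2
      have h3 := Finset.card_union_le (univ.filter fun v => part v = t.2.1)
        (univ.filter fun v => part v = t.2.2)
      omega
    · intro v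
      apply hncard
      intro s hs
      apply hRz t.1 v s
      intro u hu
      exact ((fromRel_adj_earlier ord (R0 t) hR v u).1 (hs u hu)).1
    · intro u
      apply hncard
      intro s hs
      rcases s.eq_empty_or_nonempty with rfl | ⟨v, hv⟩
      · simp
      · have h1 := ((fromRel_adj_earlier ord (R0 t) hR v u).1 (hs v hv)).2.2.2
        rw [hB0] at h1
        simp only [mem_filter, mem_univ, true_and, not_lt] at h1
        refine le_trans ?_ h1
        rw [Set.ncard_eq_toFinset_card']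
        apply Finset.card_le_card
        intro v' hv'
        have h2 := ((fromRel_adj_earlier ord (R0 t) hR v' u).1 (hs v' hv')).1.1
        simpa using h2
  have key1 : ∀ t, Splits n ((L + 1) * p) (SimpleGraph.fromRel (R1 t)) 2 := by
    intro t
    refine Splits.mono_k hL1 hLp hW (show 1 ≤ 2 by norm_num) ?_
    refine Splits.mono_p hp0.le hpL hLp (splits_one hp0.le (by linarith) ?_)
    have hR : ∀ v u, R1 t v u → ord u < ord v := fun v u h => h.1.1.2
    refine hsmall n hns W _ ord B0 p z hW hp0 hp2 hord ?_ hB1 hz2 ?_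
    · intro u v huv
      rw [SimpleGraph.fromRel_adj] at huv
      rcases huv.2 with h | h
      · exact h.2.2
      · exact h.2.1
    · intro v
      apply hncard
      intro s hs
      apply hRz t v s
      intro u hu
      exact ((fromRel_adj_earlier ord (R1 t) hR v u).1 (hs u hu)).1
  have key2 : ∀ t, Splits n ((L + 1) * p) (SimpleGraph.fromRel (R2 t)) 2 := by
    intro t
    refine Splits.mono_p hL0 hLL hLp
      (hhub n hnh W (A2 t) B0 (S2 t) p z hW ?_ ?_ hB2 hp0 hLp' hz2 ?_ ?_ ?_)
    · rw [Finset.disjoint_left]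
      intro v hv
      simp only [A2, mem_filter, mem_univ, true_and] at hv
      exact hv.2
    · refine le_trans ?_ (hpart t.2)
      apply Nat.mul_le_mul_left
      apply Finset.card_le_card
      intro v hv
      simp only [A2, mem_filter, mem_univ, true_and] at hv ⊢
      exact hv.1
    · intro v _
      exact Finset.filter_subset _ _
    · intro v _
      apply hRz t.1 v
      intro u hu
      simp only [S2, mem_filter] at hu
      exact hu.2
    · intro Z hZ hZz
      refine le_trans ?_ (hcom n hnc W H p z hp0 hp2 hcrit hz2 Z hZ hZz)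
      rw [Set.ncard_eq_toFinset_card']
      norm_cast
      apply Finset.card_le_card
      intro v hv
      simp only [mem_filter] at hv
      simp only [Set.mem_toFinset, Set.mem_ofPred_eq]
      intro u hu
      have := hv.2 hu
      simp only [S2, mem_filter] at this
      exact this.2.1.1
  let Fs : (Fin 256 × Fin 128 × Fin 128) ⊕ (Fin 256 ⊕ (Fin 256 × Fin 128)) → SimpleGraph W :=
    Sum.elim (fun t => SimpleGraph.fromRel (R0 t))
      (Sum.elim (fun t => SimpleGraph.fromRel (R1 t)) (fun t => SimpleGraph.fromRel (R2 t)))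
  refine Splits.cover hL1 hLp Fs ?_ ?_
  · have hcov : ∀ v u, H.Adj v u → ord u < ord v → ∃ j, (Fs j).Adj v u := by
      intro v u hvu hlt
      have h1 : idx H ord v u < 256 * z := idx_lt H ord _ v u (hdeg' v) ⟨hvu, hlt⟩
      have h2 : idx H ord v u / z < 256 := by
        rw [Nat.div_lt_iff_lt_mul (by omega)]
        exact h1
      by_cases hu : u ∈ B0
      · by_cases hv : v ∈ B0
        · refine ⟨Sum.inr (Sum.inl ⟨idx H ord v u / z, h2⟩), ?_⟩
          change (SimpleGraph.fromRel (R1 ⟨idx H ord v u / z, h2⟩)).Adj v u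
          rw [SimpleGraph.fromRel_adj]
          exact ⟨hvu.ne, Or.inl ⟨⟨⟨hvu, hlt⟩, rfl⟩, hu, hv⟩⟩
        · refine ⟨Sum.inr (Sum.inr (⟨idx H ord v u / z, h2⟩, part v)), ?_⟩
          change (SimpleGraph.fromRel (R2 (⟨idx H ord v u / z, h2⟩, part v))).Adj v u
          rw [SimpleGraph.fromRel_adj]
          refine ⟨hvu.ne, Or.inl ⟨?_, ?_⟩⟩
          · simp only [A2, mem_filter, mem_univ, true_and]
            exact hv
          · simp only [S2, mem_filter]
            exact ⟨hu, ⟨hvu, hlt⟩, rfl⟩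
      · refine ⟨Sum.inl (⟨idx H ord v u / z, h2⟩, part v, part u), ?_⟩
        change (SimpleGraph.fromRel (R0 (⟨idx H ord v u / z, h2⟩, part v, part u))).Adj v u
        rw [SimpleGraph.fromRel_adj]
        exact ⟨hvu.ne, Or.inl ⟨⟨⟨hvu, hlt⟩, rfl⟩, rfl, rfl, hu⟩⟩
    intro u v huv
    rcases lt_trichotomy (ord u) (ord v) with h | h | h
    · obtain ⟨j, hj⟩ := hcov v u huv.symm h
      exact ⟨j, hj.symm⟩
    · exact absurd (hord h) huv.ne
    · exact hcov u v huv h
  · rintro (t | t | t)
    · exact key0 t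
    · exact key1 t
    · exact key2 t

end Crest.Agent.R052.Final
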