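import Mathlib
import Crest.Prelude.Def_CopyThreshold

/-!
# Generic lemmas on `bernoulliProb` / `gnpProb`

Everything is a finite sum.  `Ex p f = ∑ ω, bernoulliWeight p ω * f ω`.
-/

set_option autoImplicit false
set_option linter.unusedSectionVars false

open Finset
open Crest.FinProb Crest.CombinatoricsR.RandomGraph

namespace Crest.Agent.R052.Tr

variable {I : Type*} [Fintype I] [DecidableEq I]

theorem weight_nonneg {ι : Type*} [Fintype ι] {p : ℝ} (hp0 : 0 ≤ p) (hp1 : p ≤ 1)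
    (ω : ι → Bool) : 0 ≤ bernoulliWeight p ω := by
  unfold bernoulliWeight
  refine Finset.prod_nonneg fun i _ => ?_
  split_ifs
  · exact hp0
  · linarith

/-- expectation -/
noncomputable def Ex {ι : Type*} [Fintype ι] [DecidableEq ι] (p : ℝ) (f : (ι → Bool) → ℝ) : ℝ :=
  ∑ ω : ι → Bool, bernoulliWeight p ω * f ω

theorem prob_eq_Ex {ι : Type*} [Fintype ι] [DecidableEq ι] (p : ℝ) (E : Set (ι → Bool))
    [DecidablePred (· ∈ E)] :
    bernoulliProb p E = Ex p (fun ω => if ω ∈ E then 1 else 0) := by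
  unfold bernoulliProb Ex
  rw [Finset.sum_filter]
  refine Finset.sum_congr rfl fun ω _ => ?_
  by_cases h : ω ∈ E <;> simp [h]

theorem prob_setOf_eq_Ex {ι : Type*} [Fintype ι] [DecidableEq ι] (p : ℝ) (Q : (ι → Bool) → Prop)
    [DecidablePred Q] :
    bernoulliProb p {ω | Q ω} = Ex p (fun ω => if Q ω then 1 else 0) := by
  classical
  rw [prob_eq_Ex]
  unfold Ex
  refine Finset.sum_congr rfl fun ω _ => ?_
  by_cases h : Q ω <;> simp [h]

theorem Ex_mono {ι : Type*} [Fintype ι] [DecidableEq ι] {p : ℝ} (hp0 : 0 ≤ p) (hp1 : p ≤ 1)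
    {f g : (ι → Bool) → ℝ} (h : ∀ ω, f ω ≤ g ω) : Ex p f ≤ Ex p g :=
  Finset.sum_le_sum fun ω _ => mul_le_mul_of_nonneg_left (h ω) (weight_nonneg hp0 hp1 ω)

theorem Ex_nonneg {ι : Type*} [Fintype ι] [DecidableEq ι] {p : ℝ} (hp0 : 0 ≤ p) (hp1 : p ≤ 1)
    {f : (ι → Bool) → ℝ} (h : ∀ ω, 0 ≤ f ω) : 0 ≤ Ex p f :=
  Finset.sum_nonneg fun ω _ => mul_nonneg (weight_nonneg hp0 hp1 ω) (h ω)

theorem Ex_add {ι : Type*} [Fintype ι] [DecidableEq ι] (p : ℝ) (f g : (ι → Bool) → ℝ) :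
    Ex p (fun ω => f ω + g ω) = Ex p f + Ex p g := by
  unfold Ex
  rw [← Finset.sum_add_distrib]
  exact Finset.sum_congr rfl fun ω _ => by ring

theorem Ex_sum {ι κ : Type*} [Fintype ι] [DecidableEq ι] (p : ℝ) (s : Finset κ)
    (f : κ → (ι → Bool) → ℝ) :
    Ex p (fun ω => ∑ k ∈ s, f k ω) = ∑ k ∈ s, Ex p (f k) := by
  unfold Ex
  rw [Finset.sum_comm]
  exact Finset.sum_congr rfl fun ω _ => by rw [Finset.mul_sum]

theorem Ex_smul {ι : Type*} [Fintype ι] [DecidableEq ι] (p a : ℝ) (f : (ι → Bool) → ℝ) :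
    Ex p (fun ω => a * f ω) = a * Ex p f := by
  unfold Ex
  rw [Finset.mul_sum]
  exact Finset.sum_congr rfl fun ω _ => by ring

/-- `∑_ω ∏_i F i (ω i) = ∏_i (F i true + F i false)` -/
theorem sum_prod_bool {ι : Type*} [Fintype ι] [DecidableEq ι] (F : ι → Bool → ℝ) :
    ∑ ω : ι → Bool, ∏ i, F i (ω i) = ∏ i, (F i true + F i false) := by
  have h2 := Finset.prod_univ_sum (fun _ : ι => (Finset.univ : Finset Bool)) F
  rw [Fintype.piFinset_univ] at h2
  rw [← h2]
  exact Finset.prod_congr rfl fun i _ => by simp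

/-- product functions -/
theorem Ex_prod {ι : Type*} [Fintype ι] [DecidableEq ι] (p : ℝ) (F : ι → Bool → ℝ) :
    Ex p (fun ω => ∏ i, F i (ω i)) = ∏ i, (p * F i true + (1 - p) * F i false) := by
  unfold Ex bernoulliWeight
  have h := sum_prod_bool (fun i b => (if b then p else 1 - p) * F i b)
  have h2 : ∏ i, (p * F i true + (1 - p) * F i false) =
      ∏ i, ((if (true : Bool) then p else 1 - p) * F i true +
        (if (false : Bool) then p else 1 - p) * F i false) :=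
    Finset.prod_congr rfl fun i _ => by simp
  rw [h2, ← h]
  refine Finset.sum_congr rfl fun ω _ => ?_
  rw [Finset.prod_mul_distrib]

theorem sum_weight {ι : Type*} [Fintype ι] [DecidableEq ι] (p : ℝ) :
    ∑ ω : ι → Bool, bernoulliWeight p ω = 1 := by
  unfold bernoulliWeight
  rw [sum_prod_bool (fun _ b => if b then p else 1 - p)]
  simp

theorem Ex_const {ι : Type*} [Fintype ι] [DecidableEq ι] (p a : ℝ) :
    Ex p (fun _ : ι → Bool => a) = a := by
  unfold Ex
  rw [← Finset.sum_mul, sum_weight, one_mul]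

theorem prob_mono {ι : Type*} [Fintype ι] [DecidableEq ι] {p : ℝ} (hp0 : 0 ≤ p) (hp1 : p ≤ 1)
    {E F : Set (ι → Bool)} (h : E ⊆ F) : bernoulliProb p E ≤ bernoulliProb p F := by
  classical
  rw [prob_eq_Ex, prob_eq_Ex]
  refine Ex_mono hp0 hp1 fun ω => ?_
  by_cases h1 : ω ∈ E
  · simp [h1, h h1]
  · simp only [h1, if_false]; split_ifs <;> norm_num

theorem prob_nonneg {ι : Type*} [Fintype ι] [DecidableEq ι] {p : ℝ} (hp0 : 0 ≤ p) (hp1 : p ≤ 1)
    (E : Set (ι → Bool)) : 0 ≤ bernoulliProb p E := by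
  classical
  rw [prob_eq_Ex]
  exact Ex_nonneg hp0 hp1 fun ω => by split_ifs <;> norm_num

theorem prob_univ {ι : Type*} [Fintype ι] [DecidableEq ι] (p : ℝ) :
    bernoulliProb p (Set.univ : Set (ι → Bool)) = 1 := by
  classical
  rw [prob_eq_Ex]
  simpa using Ex_const p 1

theorem prob_le_one {ι : Type*} [Fintype ι] [DecidableEq ι] {p : ℝ} (hp0 : 0 ≤ p) (hp1 : p ≤ 1)
    (E : Set (ι → Bool)) : bernoulliProb p E ≤ 1 := by
  rw [← prob_univ (ι := ι) p]
  exact prob_mono hp0 hp1 (Set.subset_univ E)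

theorem prob_compl {ι : Type*} [Fintype ι] [DecidableEq ι] (p : ℝ) (E : Set (ι → Bool)) :
    bernoulliProb p Eᶜ = 1 - bernoulliProb p E := by
  classical
  rw [prob_eq_Ex, prob_eq_Ex]
  have h := Ex_const (ι := ι) p 1
  have h2 : (fun _ : ι → Bool => (1 : ℝ)) =
      fun ω => (if ω ∈ Eᶜ then (1 : ℝ) else 0) + (if ω ∈ E then (1 : ℝ) else 0) := by
    funext ω
    by_cases h : ω ∈ E <;> simp [h]
  rw [h2, Ex_add] at h
  linarith

theorem prob_union_le {ι : Type*} [Fintype ι] [DecidableEq ι] {p : ℝ} (hp0 : 0 ≤ p) (hp1 : p ≤ 1)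
    (E F : Set (ι → Bool)) :
    bernoulliProb p (E ∪ F) ≤ bernoulliProb p E + bernoulliProb p F := by
  classical
  rw [prob_eq_Ex, prob_eq_Ex, prob_eq_Ex, ← Ex_add]
  refine Ex_mono hp0 hp1 fun ω => ?_
  by_cases h1 : ω ∈ E <;> by_cases h2 : ω ∈ F <;> simp [h1, h2]

/-- union bound -/
theorem prob_le_sum {ι κ : Type*} [Fintype ι] [DecidableEq ι] {p : ℝ} (hp0 : 0 ≤ p) (hp1 : p ≤ 1)
    (E : Set (ι → Bool)) (s : Finset κ) (F : κ → Set (ι → Bool))
    (h : ∀ ω ∈ E, ∃ k ∈ s, ω ∈ F k) :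
    bernoulliProb p E ≤ ∑ k ∈ s, bernoulliProb p (F k) := by
  classical
  rw [prob_eq_Ex]
  simp_rw [fun k => prob_eq_Ex p (F k)]
  rw [← Ex_sum]
  refine Ex_mono hp0 hp1 fun ω => ?_
  by_cases h1 : ω ∈ E
  · obtain ⟨k, hk, hω⟩ := h ω h1
    rw [if_pos h1]
    refine le_trans ?_ (Finset.single_le_sum (f := fun k => if ω ∈ F k then (1 : ℝ) else 0)
      (fun k _ => by split_ifs <;> norm_num) hk)
    simp [hω]
  · rw [if_neg h1]
    exact Finset.sum_nonneg fun k _ => by split_ifs <;> norm_num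

/-- lower bound from a union bound on the complement -/
theorem one_sub_sum_le {ι κ : Type*} [Fintype ι] [DecidableEq ι] {p : ℝ} (hp0 : 0 ≤ p)
    (hp1 : p ≤ 1) (E : Set (ι → Bool)) (s : Finset κ) (F : κ → Set (ι → Bool))
    (h : ∀ ω, ω ∉ E → ∃ k ∈ s, ω ∈ F k) :
    1 - ∑ k ∈ s, bernoulliProb p (F k) ≤ bernoulliProb p E := by
  have h1 := prob_le_sum hp0 hp1 Eᶜ s F (fun ω hω => h ω hω)
  rw [prob_compl] at h1
  linarith

/-- Markov inequality -/
theorem prob_le_Ex {ι : Type*} [Fintype ι] [DecidableEq ι] {p : ℝ} (hp0 : 0 ≤ p) (hp1 : p ≤ 1)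
    (E : Set (ι → Bool)) (f : (ι → Bool) → ℝ) (hf : ∀ ω, 0 ≤ f ω) (h : ∀ ω ∈ E, 1 ≤ f ω) :
    bernoulliProb p E ≤ Ex p f := by
  classical
  rw [prob_eq_Ex]
  refine Ex_mono hp0 hp1 fun ω => ?_
  by_cases h1 : ω ∈ E
  · rw [if_pos h1]; exact h ω h1
  · rw [if_neg h1]; exact hf ω

/-! ### Reindexing and marginals -/

theorem weight_equiv {ι κ : Type*} [Fintype ι] [Fintype κ] (e : κ ≃ ι) (p : ℝ) (ω : ι → Bool) :
    bernoulliWeight p (ω ∘ e) = bernoulliWeight p ω := by
  unfold bernoulliWeight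
  exact Equiv.prod_comp e (fun i => if ω i then p else 1 - p)

theorem Ex_equiv {ι κ : Type*} [Fintype ι] [DecidableEq ι] [Fintype κ] [DecidableEq κ]
    (e : κ ≃ ι) (p : ℝ) (f : (κ → Bool) → ℝ) :
    Ex p (fun ω : ι → Bool => f (ω ∘ e)) = Ex p f := by
  unfold Ex
  rw [← Equiv.sum_comp (e.arrowCongr (Equiv.refl Bool)).symm]
  refine Finset.sum_congr rfl fun ω _ => ?_
  rw [← weight_equiv e]
  rfl

theorem Ex_sumType {ι κ : Type*} [Fintype ι] [DecidableEq ι] [Fintype κ] [DecidableEq κ]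
    (p : ℝ) (f : (ι ⊕ κ → Bool) → ℝ) :
    Ex p f = Ex p (fun a : ι → Bool => Ex p (fun b : κ → Bool => f (Sum.elim a b))) := by
  unfold Ex
  rw [← Equiv.sum_comp (Equiv.sumArrowEquivProdArrow ι κ Bool).symm, Fintype.sum_prod_type]
  refine Finset.sum_congr rfl fun a _ => ?_
  rw [Finset.mul_sum]
  refine Finset.sum_congr rfl fun b _ => ?_
  have : bernoulliWeight p ((Equiv.sumArrowEquivProdArrow ι κ Bool).symm (a, b)) =
      bernoulliWeight p a * bernoulliWeight p b := by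
    unfold bernoulliWeight
    rw [Fintype.prod_sum_type]
    rfl
  rw [this]
  have h2 : (Equiv.sumArrowEquivProdArrow ι κ Bool).symm (a, b) = Sum.elim a b := rfl
  rw [h2]
  ring

/-- A function of the coordinates in the range of an injection has the same expectation. -/
theorem Ex_marginal {ι κ : Type*} [Fintype ι] [DecidableEq ι] [Fintype κ] [DecidableEq κ]
    (e : κ → ι) (he : Function.Injective e) (p : ℝ) (f : (κ → Bool) → ℝ) :
    Ex p (fun ω : ι → Bool => f (ω ∘ e)) = Ex p f := by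
  classical
  let e1 : κ ⊕ {i // i ∉ Set.range e} ≃ ι :=
    (Equiv.sumCongr (Equiv.ofInjective e he) (Equiv.refl _)).trans
      (Equiv.Set.sumCompl (Set.range e))
  have h1 : ∀ k, e1 (Sum.inl k) = e k := fun k => rfl
  rw [← Ex_equiv e1.symm p (fun ω => f (ω ∘ e))]
  rw [Ex_sumType]
  have h2 : ∀ (a : κ → Bool) (b : {i // i ∉ Set.range e} → Bool),
      ((Sum.elim a b) ∘ e1.symm) ∘ e = a := by
    intro a b
    funext k
    simp only [Function.comp]
    rw [← h1 k, Equiv.symm_apply_apply]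
    rfl
  simp_rw [h2, Ex_const]

/-- Marginal of an event. -/
theorem prob_marginal {ι κ : Type*} [Fintype ι] [DecidableEq ι] [Fintype κ] [DecidableEq κ]
    (e : κ → ι) (he : Function.Injective e) (p : ℝ) (Q : (κ → Bool) → Prop) :
    bernoulliProb p {ω : ι → Bool | Q (ω ∘ e)} = bernoulliProb p {η | Q η} := by
  classical
  rw [prob_setOf_eq_Ex, prob_setOf_eq_Ex]
  exact Ex_marginal e he p (fun η => if Q η then 1 else 0)

/-- currying: the coordinates `(x, b)` with `x` fixed are independent blocks -/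
theorem sum_curry {ι κ : Type*} [Fintype ι] [DecidableEq ι] [Fintype κ] [DecidableEq κ]
    (f : (ι × κ → Bool) → ℝ) :
    ∑ ω : ι × κ → Bool, f ω = ∑ N : ι → κ → Bool, f (fun x => N x.1 x.2) := by
  rw [← Equiv.sum_comp (Equiv.curry ι κ Bool).symm]
  rfl

theorem weight_curry {ι κ : Type*} [Fintype ι] [Fintype κ] (p : ℝ) (N : ι → κ → Bool) :
    bernoulliWeight p (fun x : ι × κ => N x.1 x.2) = ∏ x, bernoulliWeight p (N x) := by
  unfold bernoulliWeight
  rw [Fintype.prod_prod_type]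

/-- Expectation of a product of functions of the independent blocks. -/
theorem Ex_prod_blocks {ι κ : Type*} [Fintype ι] [DecidableEq ι] [Fintype κ] [DecidableEq κ]
    (p : ℝ) (g : ι → (κ → Bool) → ℝ) :
    Ex p (fun ω : ι × κ → Bool => ∏ x, g x (fun b => ω (x, b))) = ∏ x, Ex p (g x) := by
  unfold Ex
  rw [sum_curry]
  have h := Finset.prod_univ_sum (fun _ : ι => (Finset.univ : Finset (κ → Bool)))
    (fun x N => bernoulliWeight p N * g x N)
  rw [Fintype.piFinset_univ] at h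
  rw [h]
  refine Finset.sum_congr rfl fun N _ => ?_
  rw [weight_curry, ← Finset.prod_mul_distrib]

/-! ### Sprinkling and monotonicity in `p` -/

theorem sum_sum_prod {ι : Type*} [Fintype ι] [DecidableEq ι] (F : ι → Bool → Bool → ℝ) :
    ∑ ω : ι → Bool, ∑ η : ι → Bool, ∏ i, F i (ω i) (η i) =
      ∏ i, (F i true true + F i true false + (F i false true + F i false false)) := by
  have h1 : ∀ ω : ι → Bool, ∑ η : ι → Bool, ∏ i, F i (ω i) (η i) =
      ∏ i, (F i (ω i) true + F i (ω i) false) := fun ω => sum_prod_bool (fun i b => F i (ω i) b)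
  rw [Finset.sum_congr rfl fun ω _ => h1 ω]
  rw [sum_prod_bool (fun i a => F i a true + F i a false)]

/-- The union of two independent Bernoulli sets of densities `p`, `r` is Bernoulli of density
`1 - (1-p)(1-r)`. -/
theorem Ex_sprinkle {ι : Type*} [Fintype ι] [DecidableEq ι] (p r : ℝ) (f : (ι → Bool) → ℝ) :
    Ex p (fun ω => Ex r (fun η => f (fun i => ω i || η i))) = Ex (1 - (1 - p) * (1 - r)) f := by
  classical
  unfold Ex
  have h1 : ∀ ω η : ι → Bool, f (fun i => ω i || η i) =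
      ∑ ζ : ι → Bool, (∏ i, if (ω i || η i) = ζ i then (1 : ℝ) else 0) * f ζ := by
    intro ω η
    rw [Finset.sum_eq_single (fun i => ω i || η i)]
    · simp
    · intro ζ _ hζ
      have : ∃ i, ¬ (ω i || η i) = ζ i := by
        by_contra h
        push Not at h
        exact hζ (funext fun i => (h i).symm)
      obtain ⟨i, hi⟩ := this
      rw [Finset.prod_eq_zero (mem_univ i) (if_neg hi), zero_mul]
    · intro h; exact absurd (mem_univ _) h
  have h2 : ∀ ω : ι → Bool, bernoulliWeight p ω * ∑ η : ι → Bool, bernoulliWeight r η *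
      f (fun i => ω i || η i) = ∑ η : ι → Bool, ∑ ζ : ι → Bool, (∏ i,
        ((if ω i then p else 1 - p) * (if η i then r else 1 - r) *
          (if (ω i || η i) = ζ i then (1 : ℝ) else 0))) * f ζ := by
    intro ω
    rw [Finset.mul_sum]
    refine Finset.sum_congr rfl fun η _ => ?_
    rw [h1 ω η, Finset.mul_sum, Finset.mul_sum]
    refine Finset.sum_congr rfl fun ζ _ => ?_
    rw [Finset.prod_mul_distrib, Finset.prod_mul_distrib]
    unfold bernoulliWeight
    ring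
  rw [Finset.sum_congr rfl fun ω _ => h2 ω]
  have h3 : ∑ ω : ι → Bool, ∑ η : ι → Bool, ∑ ζ : ι → Bool, (∏ i,
        ((if ω i then p else 1 - p) * (if η i then r else 1 - r) *
          (if (ω i || η i) = ζ i then (1 : ℝ) else 0))) * f ζ =
      ∑ ζ : ι → Bool, (∑ ω : ι → Bool, ∑ η : ι → Bool, ∏ i,
        ((if ω i then p else 1 - p) * (if η i then r else 1 - r) *
          (if (ω i || η i) = ζ i then (1 : ℝ) else 0))) * f ζ := by
    rw [Finset.sum_congr rfl fun ω _ => Finset.sum_comm, Finset.sum_comm]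
    refine Finset.sum_congr rfl fun ζ _ => ?_
    rw [Finset.sum_mul]
    exact Finset.sum_congr rfl fun ω _ => by rw [Finset.sum_mul]
  rw [h3]
  refine Finset.sum_congr rfl fun ζ _ => ?_
  rw [sum_sum_prod (fun i a b => (if a then p else 1 - p) * (if b then r else 1 - r) *
          (if (a || b) = ζ i then (1 : ℝ) else 0))]
  congr 1
  unfold bernoulliWeight
  refine Finset.prod_congr rfl fun i _ => ?_
  cases h : ζ i <;> simp <;> ring

theorem prob_sprinkle {ι : Type*} [Fintype ι] [DecidableEq ι] (p r : ℝ)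
    (Q : (ι → Bool) → Prop) :
    Ex p (fun ω => bernoulliProb r {η | Q (fun i => ω i || η i)}) =
      bernoulliProb (1 - (1 - p) * (1 - r)) {ζ | Q ζ} := by
  classical
  rw [prob_setOf_eq_Ex]
  simp_rw [prob_setOf_eq_Ex]
  exact Ex_sprinkle p r (fun ζ => if Q ζ then 1 else 0)

/-- Monotonicity in `p` of increasing functions. -/
theorem Ex_mono_p {ι : Type*} [Fintype ι] [DecidableEq ι] {p q : ℝ} (hp0 : 0 ≤ p) (hpq : p ≤ q)
    (hq1 : q ≤ 1) (f : (ι → Bool) → ℝ)
    (hf : ∀ ω ω' : ι → Bool, (∀ i, ω i = true → ω' i = true) → f ω ≤ f ω') :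
    Ex p f ≤ Ex q f := by
  rcases eq_or_lt_of_le (hpq.trans hq1) with h1 | h1
  · have : p = q := by linarith
    rw [this]
  · set r : ℝ := (q - p) / (1 - p) with hr
    have hr0 : 0 ≤ r := div_nonneg (by linarith) (by linarith)
    have hr1 : r ≤ 1 := by
      rw [hr, div_le_one (by linarith)]; linarith
    have hq : 1 - (1 - p) * (1 - r) = q := by
      rw [hr]
      have : (1 - p) ≠ 0 := by linarith
      field_simp
      ring
    rw [← hq, ← Ex_sprinkle p r f]
    refine Ex_mono hp0 h1.le fun ω => ?_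
    rw [← Ex_const (ι := ι) r (f ω)]
    refine Ex_mono hr0 hr1 fun η => ?_
    exact hf _ _ fun i hi => by simp [hi]

theorem prob_mono_p {ι : Type*} [Fintype ι] [DecidableEq ι] {p q : ℝ} (hp0 : 0 ≤ p) (hpq : p ≤ q)
    (hq1 : q ≤ 1) (E : Set (ι → Bool))
    (hE : ∀ ω ω' : ι → Bool, (∀ i, ω i = true → ω' i = true) → ω ∈ E → ω' ∈ E) :
    bernoulliProb p E ≤ bernoulliProb q E := by
  classical
  rw [prob_eq_Ex, prob_eq_Ex]
  refine Ex_mono_p hp0 hpq hq1 _ fun ω ω' h => ?_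
  by_cases h1 : ω ∈ E
  · simp [h1, hE ω ω' h h1]
  · simp only [h1, if_false]; split_ifs <;> norm_num

/-- all coins of `B` show heads -/
theorem prob_all {ι : Type*} [Fintype ι] [DecidableEq ι] (p : ℝ) (B : Finset ι) :
    bernoulliProb p {ω : ι → Bool | ∀ i ∈ B, ω i = true} = p ^ B.card := by
  classical
  rw [prob_setOf_eq_Ex]
  have h1 : ∀ ω : ι → Bool, (if ∀ i ∈ B, ω i = true then (1 : ℝ) else 0) =
      ∏ i, (if i ∈ B then (if ω i then 1 else 0) else 1) := by
    intro ω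
    by_cases h : ∀ e ∈ B, ω e = true
    · rw [if_pos h]
      symm
      refine Finset.prod_eq_one fun i _ => ?_
      by_cases hi : i ∈ B
      · simp [hi, h i hi]
      · simp [hi]
    · rw [if_neg h]
      symm
      push Not at h
      obtain ⟨i, hi, hω⟩ := h
      exact Finset.prod_eq_zero (Finset.mem_univ i) (by simp [hi, hω])
  simp_rw [h1]
  rw [Ex_prod p (fun i b => if i ∈ B then (if b then 1 else 0) else 1)]
  have h3 : ∀ i ∈ (univ : Finset ι),
      (p * (if i ∈ B then (if (true : Bool) then (1 : ℝ) else 0) else 1) +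
      (1 - p) * (if i ∈ B then (if (false : Bool) then (1 : ℝ) else 0) else 1)) =
        if i ∈ B then p else 1 := by
    intro i _
    by_cases hi : i ∈ B <;> simp [hi]
  rw [Finset.prod_congr rfl h3]
  rw [Finset.prod_ite_mem, Finset.univ_inter, Finset.prod_const]

/-- Two events depending on disjoint sets of coordinates are independent. -/
theorem prob_inter_eq_mul {ι : Type*} [Fintype ι] [DecidableEq ι] (p : ℝ) (s t : Finset ι)
    (hst : Disjoint s t) (E F : Set (ι → Bool))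
    (hE : ∀ ω ω' : ι → Bool, (∀ i ∈ s, ω i = ω' i) → ω ∈ E → ω' ∈ E)
    (hF : ∀ ω ω' : ι → Bool, (∀ i ∈ t, ω i = ω' i) → ω ∈ F → ω' ∈ F) :
    bernoulliProb p (E ∩ F) = bernoulliProb p E * bernoulliProb p F := by
  classical
  let e : {i // i ∈ s} ⊕ {i // i ∉ s} ≃ ι := Equiv.sumCompl (fun i => i ∈ s)
  have hEx : ∀ f : (ι → Bool) → ℝ, Ex p f =
      Ex p (fun a : {i // i ∈ s} → Bool => Ex p (fun b : {i // i ∉ s} → Bool =>
        f ((Sum.elim a b) ∘ e.symm))) := by
    intro f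
    rw [← Ex_equiv e.symm p f, Ex_sumType]
  have hs : ∀ (a : {i // i ∈ s} → Bool) (b : {i // i ∉ s} → Bool) (i : ι) (hi : i ∈ s),
      ((Sum.elim a b) ∘ e.symm) i = a ⟨i, hi⟩ := by
    intro a b i hi
    have : e.symm i = Sum.inl ⟨i, hi⟩ := by
      rw [Equiv.symm_apply_eq]; rfl
    simp [this]
  have ht : ∀ (a : {i // i ∈ s} → Bool) (b : {i // i ∉ s} → Bool) (i : ι) (hi : i ∉ s),
      ((Sum.elim a b) ∘ e.symm) i = b ⟨i, hi⟩ := by
    intro a b i hi
    have : e.symm i = Sum.inr ⟨i, hi⟩ := by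
      rw [Equiv.symm_apply_eq]; rfl
    simp [this]
  let a0 : {i // i ∈ s} → Bool := fun _ => false
  let b0 : {i // i ∉ s} → Bool := fun _ => false
  have hE' : ∀ a b, (((Sum.elim a b) ∘ e.symm) ∈ E ↔ ((Sum.elim a b0) ∘ e.symm) ∈ E) := by
    intro a b
    constructor
    · exact hE _ _ fun i hi => by rw [hs a b i hi, hs a b0 i hi]
    · exact hE _ _ fun i hi => by rw [hs a b i hi, hs a b0 i hi]
  have hF' : ∀ a b, (((Sum.elim a b) ∘ e.symm) ∈ F ↔ ((Sum.elim a0 b) ∘ e.symm) ∈ F) := by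
    intro a b
    have hit : ∀ i ∈ t, i ∉ s := fun i hi his => (Finset.disjoint_left.mp hst) his hi
    constructor
    · exact hF _ _ fun i hi => by rw [ht a b i (hit i hi), ht a0 b i (hit i hi)]
    · exact hF _ _ fun i hi => by rw [ht a b i (hit i hi), ht a0 b i (hit i hi)]
  rw [prob_eq_Ex, prob_eq_Ex, prob_eq_Ex, hEx, hEx (fun ω => if ω ∈ E then 1 else 0),
    hEx (fun ω => if ω ∈ F then 1 else 0)]
  have h1 : ∀ a b, (if ((Sum.elim a b) ∘ e.symm) ∈ E ∩ F then (1 : ℝ) else 0) =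
      (if ((Sum.elim a b0) ∘ e.symm) ∈ E then (1 : ℝ) else 0) *
        (if ((Sum.elim a0 b) ∘ e.symm) ∈ F then (1 : ℝ) else 0) := by
    intro a b
    have h3 := hE' a b
    have h4 := hF' a b
    by_cases h1 : ((Sum.elim a b0) ∘ e.symm) ∈ E
    · by_cases h2 : ((Sum.elim a0 b) ∘ e.symm) ∈ F
      · rw [if_pos h1, if_pos h2, if_pos ⟨h3.mpr h1, h4.mpr h2⟩, one_mul]
      · rw [if_neg h2, if_neg (fun h => h2 (h4.mp h.2)), mul_zero]
    · rw [if_neg h1, if_neg (fun h => h1 (h3.mp h.1)), zero_mul]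
  have h5 : ∀ a b, (if ((Sum.elim a b) ∘ e.symm) ∈ E then (1 : ℝ) else 0) =
      (if ((Sum.elim a b0) ∘ e.symm) ∈ E then (1 : ℝ) else 0) := by
    intro a b
    have h3 := hE' a b
    by_cases h1 : ((Sum.elim a b0) ∘ e.symm) ∈ E
    · rw [if_pos h1, if_pos (h3.mpr h1)]
    · rw [if_neg h1, if_neg (fun h => h1 (h3.mp h))]
  have h6 : ∀ a b, (if ((Sum.elim a b) ∘ e.symm) ∈ F then (1 : ℝ) else 0) =
      (if ((Sum.elim a0 b) ∘ e.symm) ∈ F then (1 : ℝ) else 0) := by
    intro a b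
    have h3 := hF' a b
    by_cases h1 : ((Sum.elim a0 b) ∘ e.symm) ∈ F
    · rw [if_pos h1, if_pos (h3.mpr h1)]
    · rw [if_neg h1, if_neg (fun h => h1 (h3.mp h))]
  simp_rw [h1, h5, h6, Ex_smul, Ex_const]
  unfold Ex
  rw [Finset.sum_mul]
  exact Finset.sum_congr rfl fun ω _ => by ring

end Crest.Agent.R052.Tr
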