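import Crest.Agent.R052.Struct2
import Crest.Agent.R052.Graph

/-!
Row 52, S0073: assembly of the class lemmas.
-/

set_option autoImplicit false

open Finset
open Crest.CombinatoricsR.RandomGraph

namespace Crest.Agent.R052.Final

open Crest.Agent.R052.Struct

theorem Splits.mono_p {n : ℕ} {p q : ℝ} (hp : 0 ≤ p) (hpq : p ≤ q) (hq : q ≤ 1) {W : Type}
    {F : SimpleGraph W} {k : ℕ} (h : Splits n p F k) : Splits n q F k := by
  obtain ⟨c, hc⟩ := h
  exact ⟨c, fun i => (hc i).trans (Gr.gnp_contained_mono _ hp hpq hq)⟩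

theorem splits_one_prob {n : ℕ} {W : Type} [Fintype W] (hW : Fintype.card W ≤ n)
    (F : SimpleGraph W) : Splits n 1 F 1 := by
  apply splits_one zero_le_one le_rfl
  rw [Gr.gnp_one hW]
  norm_num

section numeric

/-- `z` is at most logarithmic -/
theorem z_small (n : ℕ) (hn : 1280 ^ 32 ≤ n) (p : ℝ) (z : ℕ) (hp0 : 0 < p) (hp : p ≤ 1 / 2)
    (hz : 1 ≤ p ^ (64 * z) * n) : (256 * z) ^ 32 ≤ n := by
  have h1 : (1 : ℝ) ≤ (1 / 2) ^ (64 * z) * n := by
    refine hz.trans ?_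
    apply mul_le_mul_of_nonneg_right _ (Nat.cast_nonneg n)
    exact pow_le_pow_left₀ hp0.le hp _
  have h2 : (2 : ℝ) ^ (64 * z) ≤ n := by
    rw [one_div, inv_pow] at h1
    have h3 : (0 : ℝ) < 2 ^ (64 * z) := by positivity
    calc (2 : ℝ) ^ (64 * z) = 2 ^ (64 * z) * 1 := by ring
      _ ≤ 2 ^ (64 * z) * ((2 ^ (64 * z))⁻¹ * n) := by gcongr
      _ = n := by field_simp
  have h4 : 2 ^ (64 * z) ≤ n := by exact_mod_cast h2
  rcases Nat.lt_or_ge z 6 with hz6 | hz6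
  · refine le_trans ?_ hn
    apply Nat.pow_le_pow_left
    omega
  · refine le_trans ?_ h4
    have h5 : ∀ m : ℕ, 6 ≤ m → 256 * m ≤ 2 ^ (2 * m) := by
      intro m hm
      induction m, hm using Nat.le_induction with
      | base => norm_num
      | succ m hm ih =>
        have : 2 ^ (2 * (m + 1)) = 4 * 2 ^ (2 * m) := by ring
        rw [this]
        omega
    calc (256 * z) ^ 32 ≤ (2 ^ (2 * z)) ^ 32 := Nat.pow_le_pow_left (h5 z hz6) 32
      _ = 2 ^ (64 * z) := by rw [← pow_mul]; ring_nf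

/-- the number of hubs is small -/
theorem hubs_small (n z D b : ℕ) (hn : 1280 ^ 32 ≤ n) (hz : (256 * z) ^ 32 ≤ n)
    (hD : n < (D + 1) ^ 16) (hb : b * (D + 1) ≤ n * (256 * z)) : b ^ 32 ≤ n ^ 31 ∧ 4 * b ≤ n := by
  have hn0 : 0 < n := lt_of_lt_of_le (by positivity) hn
  have h1 : b ^ 32 * n ^ 2 ≤ n ^ 31 * n ^ 2 := by
    calc b ^ 32 * n ^ 2 ≤ b ^ 32 * ((D + 1) ^ 16) ^ 2 := by gcongr
      _ = (b * (D + 1)) ^ 32 := by rw [mul_pow, ← pow_mul]
      _ ≤ (n * (256 * z)) ^ 32 := Nat.pow_le_pow_left hb 32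
      _ = n ^ 32 * (256 * z) ^ 32 := by rw [mul_pow]
      _ ≤ n ^ 32 * n := by gcongr
      _ = n ^ 31 * n ^ 2 := by ring
  have h2 : b ^ 32 ≤ n ^ 31 := Nat.le_of_mul_le_mul_right h1 (by positivity)
  refine ⟨h2, ?_⟩
  have h3 : (4 * b) ^ 32 ≤ n ^ 32 := by
    calc (4 * b) ^ 32 = 4 ^ 32 * b ^ 32 := by rw [mul_pow]
      _ ≤ 4 ^ 32 * n ^ 31 := by gcongr
      _ ≤ n * n ^ 31 := by
        apply Nat.mul_le_mul_right
        refine le_trans ?_ hn
        norm_num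
      _ = n ^ 32 := by ring
  exact (Nat.pow_le_pow_iff_left (by norm_num)).1 h3

end numeric

section relgraph

variable {W : Type}

/-- class graphs: given by a relation `R v u` (`u` earlier than `v`) -/
theorem fromRel_le (H : SimpleGraph W) (R : W → W → Prop) (h : ∀ v u, R v u → H.Adj v u) :
    SimpleGraph.fromRel R ≤ H := by
  intro a b hab
  rw [SimpleGraph.fromRel_adj] at hab
  rcases hab.2 with h1 | h1
  · exact h _ _ h1
  · exact (h _ _ h1).symm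

theorem fromRel_adj_earlier (ord : W → ℕ) (R : W → W → Prop) (h : ∀ v u, R v u → ord u < ord v)
    (v u : W) : ((SimpleGraph.fromRel R).Adj v u ∧ ord u < ord v) ↔ R v u := by
  rw [SimpleGraph.fromRel_adj]
  constructor
  · rintro ⟨⟨_, h1 | h1⟩, h2⟩
    · exact h1
    · exact absurd (h _ _ h1) (by omega)
  · intro h1
    have h2 := h _ _ h1
    exact ⟨⟨fun h3 => by subst h3; omega, Or.inl h1⟩, h2⟩

end relgraph

/-- The star class lemma in the form used by the assembly. -/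
def StarLemma : Prop :=
  ∃ n0 : ℕ, ∃ L : ℝ, ∃ k : ℕ, 1 ≤ L ∧ ∀ n ≥ n0, ∀ (W : Type) [Fintype W] [DecidableEq W]
    (H : SimpleGraph W) (p : ℝ), Fintype.card W ≤ n → 0 < p → L * p ≤ 1 → Crit n p H →
    ∀ (A : Finset W) (f : W → W), 64 * A.card ≤ n → (∀ v ∈ A, H.Adj v (f v)) →
    (∀ v ∈ A, f v ∉ A) →
    Splits n (L * p) (SimpleGraph.fromRel fun v b => v ∈ A ∧ f v = b) k

/-- The setup lemma. -/
def SetupLemma : Prop :=
  ∀ (n : ℕ) (_ : 2 ≤ n) (W : Type) [Fintype W] [DecidableEq W] (H : SimpleGraph W)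
    (_ : Fintype.card W ≤ n) (_ : H ≠ ⊥),
    ∃ p : ℝ, 1 / (n : ℝ) ^ 2 ≤ p ∧ p ≤ 1 ∧
      (∃ C : Finset (Finset (EdgeSlot n)),
        (∀ A : Finset (EdgeSlot n), H.IsContained (edgeGraph A) → ∃ S ∈ C, S ⊆ A) ∧
        ∑ S ∈ C, p ^ S.card ≤ 1 / 2) ∧
      Crit n p H

/-- The degenerate order. -/
def OrientLemma : Prop :=
  ∀ (n : ℕ) (W : Type) [Fintype W] [DecidableEq W] (H : SimpleGraph W)
    (p : ℝ) (z : ℕ), 0 < p → p ≤ 1 / 2 → Crit n p H → p ^ (64 * (z + 1)) * n < 1 →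
    ∃ ord : W → ℕ, Function.Injective ord ∧
      ∀ v, Set.ncard {u | H.Adj v u ∧ ord u < ord v} ≤ 128 * (z + 1)

/-- Few common neighbours. -/
def CommonLemma : Prop :=
  ∃ n0 : ℕ, ∀ n ≥ n0, ∀ (W : Type) [Fintype W] [DecidableEq W]
    (H : SimpleGraph W) (p : ℝ) (z : ℕ), 0 < p → p ≤ 1 / 2 → Crit n p H →
    1 ≤ p ^ (64 * z) * n →
    ∀ Z : Finset W, Z.Nonempty → Z.card ≤ z →
      (Set.ncard {v | ∀ u ∈ Z, H.Adj v u} : ℝ) ≤ 30 * n * p ^ Z.card

/-- The hub class lemma. -/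
def HubLemma : Prop :=
  ∃ n0 : ℕ, ∃ L : ℝ, 1 ≤ L ∧ ∀ n ≥ n0, ∀ (W : Type) [Fintype W] [DecidableEq W]
    (A B : Finset W) (S : W → Finset W) (p : ℝ) (z : ℕ),
    Fintype.card W ≤ n → Disjoint A B → 64 * A.card ≤ n → 4 * B.card ≤ n →
    0 < p → L * p ≤ 1 → 1 ≤ p ^ (64 * z) * n →
    (∀ v ∈ A, S v ⊆ B) → (∀ v ∈ A, (S v).card ≤ z) →
    (∀ Z : Finset W, Z.Nonempty → Z.card ≤ z →
      ((A.filter fun v => Z ⊆ S v).card : ℝ) ≤ 30 * n * p ^ Z.card) →
    Splits n (L * p) (SimpleGraph.fromRel fun v b => v ∈ A ∧ b ∈ S v) 2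

/-- The low class lemma. -/
def LowLemma : Prop :=
  ∃ n0 : ℕ, ∀ n ≥ n0, ∀ (W : Type) [Fintype W] [DecidableEq W]
    (F : SimpleGraph W) (ord : W → ℕ) (A : Finset W) (p : ℝ) (z D : ℕ),
    Fintype.card W ≤ n → 0 < p → p ≤ 1 / 2 → Function.Injective ord →
    (∀ u v, F.Adj u v → u ∈ A) → 2 * A.card ≤ n → 1 ≤ p ^ (64 * z) * n → D ^ 16 ≤ n →
    (∀ v, Set.ncard {u | F.Adj v u ∧ ord u < ord v} ≤ z) →
    (∀ u, Set.ncard {v | F.Adj v u ∧ ord u < ord v} ≤ D) →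
    1 / 2 ≤ gnpProb n p {G | F.IsContained G}

/-- The small class lemma. -/
def SmallLemma : Prop :=
  ∃ n0 : ℕ, ∀ n ≥ n0, ∀ (W : Type) [Fintype W] [DecidableEq W]
    (F : SimpleGraph W) (ord : W → ℕ) (A : Finset W) (p : ℝ) (z : ℕ),
    Fintype.card W ≤ n → 0 < p → p ≤ 1 / 2 → Function.Injective ord →
    (∀ u v, F.Adj u v → u ∈ A) → A.card ^ 32 ≤ n ^ 31 → 1 ≤ p ^ (64 * z) * n →
    (∀ v, Set.ncard {u | F.Adj v u ∧ ord u < ord v} ≤ z) →
    1 / 2 ≤ gnpProb n p {G | F.IsContained G}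

/-- the sparse case -/
theorem sparse (hstar : StarLemma) (hor : OrientLemma) :
    ∃ n0 : ℕ, ∃ L : ℝ, ∃ k : ℕ, 2 ≤ L ∧ ∀ n ≥ n0, ∀ (W : Type) [Fintype W] [DecidableEq W]
    (H : SimpleGraph W) (p : ℝ), Fintype.card W ≤ n → 0 < p → L * p ≤ 1 → Crit n p H →
    p ^ 64 * n < 1 → Splits n (L * p) H k := by
  obtain ⟨n0, L, k, hL, hst⟩ := hstar
  refine ⟨max n0 128, L + 1, Fintype.card (Fin 128 × Fin 129 × Fin 129 × Fin 128) * k,
    by linarith, ?_⟩
  intro n hn W _ _ H p hW hp0 hLp hcrit hz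
  classical
  have hn0 : n0 ≤ n := (le_max_left _ _).trans hn
  have hn1 : 128 ≤ n := (le_max_right _ _).trans hn
  have hp2 : p ≤ 1 / 2 := by nlinarith
  obtain ⟨ord, hord, hdeg⟩ := hor n W H p 0 hp0 hp2 hcrit (by simpa using hz)
  simp only [zero_add, mul_one] at hdeg
  obtain ⟨part, hpart⟩ := exists_parts n hn1 W hW
  obtain ⟨χ, hχ⟩ := exists_coloring H ord hord 128 hdeg
  have hLp' : L * p ≤ 1 := by nlinarith
  -- the neighbour function
  have hf : ∀ (j : ℕ) (v : W), ∃ u, (∃ u', (H.Adj v u' ∧ ord u' < ord v) ∧ idx H ord v u' = j) →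
      (H.Adj v u ∧ ord u < ord v) ∧ idx H ord v u = j := by
    intro j v
    by_cases h : ∃ u', (H.Adj v u' ∧ ord u' < ord v) ∧ idx H ord v u' = j
    · obtain ⟨u, hu⟩ := h
      exact ⟨u, fun _ => hu⟩
    · exact ⟨v, fun h' => absurd h' h⟩
  choose f hf using hf
  have key : ∀ t : Fin 128 × Fin 129 × Fin 129 × Fin 128,
      Splits n ((L + 1) * p) (SimpleGraph.fromRel fun v b =>
        (v ∈ univ.filter fun v => (part v = t.2.2.2 ∧ χ v = t.2.1 ∧ t.2.1 ≠ t.2.2.1 ∧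
          χ (f t.1 v) = t.2.2.1 ∧ (H.Adj v (f t.1 v) ∧ ord (f t.1 v) < ord v))) ∧
        f t.1 v = b) k := by
    intro t
    refine Splits.mono_p (by positivity) (by nlinarith) hLp
      (hst n hn0 W H p hW hp0 hLp' hcrit _ (f t.1) ?_ ?_ ?_)
    · refine le_trans ?_ (hpart t.2.2.2)
      apply Nat.mul_le_mul_left
      apply Finset.card_le_card
      intro v hv
      simp only [mem_filter, mem_univ, true_and] at hv ⊢
      exact hv.1
    · intro v hv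
      simp only [mem_filter, mem_univ, true_and] at hv
      exact hv.2.2.2.2.1
    · intro v hv hv'
      simp only [mem_filter, mem_univ, true_and] at hv hv'
      apply hv.2.2.1
      rw [← hv'.2.1, hv.2.2.2.1]
  refine Splits.cover (by positivity) hLp _ ?_ key
  -- covering
  have hcov : ∀ v u, H.Adj v u → ord u < ord v → ∃ t : Fin 128 × Fin 129 × Fin 129 × Fin 128,
      (v ∈ univ.filter fun v => (part v = t.2.2.2 ∧ χ v = t.2.1 ∧ t.2.1 ≠ t.2.2.1 ∧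
          χ (f t.1 v) = t.2.2.1 ∧ (H.Adj v (f t.1 v) ∧ ord (f t.1 v) < ord v))) ∧
        f t.1 v = u := by
    intro v u hvu hlt
    have hj : idx H ord v u < 128 := idx_lt H ord 128 v u (hdeg v) ⟨hvu, hlt⟩
    have h1 := hf (idx H ord v u) v ⟨u, ⟨hvu, hlt⟩, rfl⟩
    have h2 : f (idx H ord v u) v = u := idx_inj H ord hord v _ _ h1.1 ⟨hvu, hlt⟩ h1.2
    refine ⟨(⟨idx H ord v u, hj⟩, χ v, χ u, part v), ?_, h2⟩
    simp only [mem_filter, mem_univ, true_and]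
    rw [h2]
    exact ⟨hχ v u hvu, rfl, hvu, hlt⟩
  intro u v huv
  rcases lt_trichotomy (ord u) (ord v) with h | h | h
  · obtain ⟨t, ht⟩ := hcov v u huv.symm h
    refine ⟨t, ?_⟩
    rw [SimpleGraph.fromRel_adj]
    exact ⟨huv.ne, Or.inr ht⟩
  · exact absurd (hord h) huv.ne
  · obtain ⟨t, ht⟩ := hcov u v huv h
    refine ⟨t, ?_⟩
    rw [SimpleGraph.fromRel_adj]
    exact ⟨huv.ne, Or.inl ht⟩

theorem case_split {n : ℕ} (hn : 2 ≤ n) (L1 L2 : ℝ) (hL1 : 2 ≤ L1) (hL2 : 2 ≤ L2)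
    (n1 n2 k1 k2 : ℕ)
    (W : Type) [Fintype W] (H : SimpleGraph W) (hW : Fintype.card W ≤ n)
    (p : ℝ) (hpn : 1 / (n : ℝ) ^ 2 ≤ p)
    (h1 : n1 ≤ n → 0 < p → L1 * p ≤ 1 → p ^ 64 * n < 1 → Splits n (L1 * p) H k1)
    (h2 : ∀ z : ℕ, n2 ≤ n → 0 < p → L2 * p ≤ 1 → 1 ≤ z → 1 ≤ p ^ (64 * z) * n →
      p ^ (64 * (z + 1)) * n < 1 → Splits n (L2 * p) H k2) :
    Splits n (min 1 (max (max L1 L2) (((max n1 n2 : ℕ) : ℝ) ^ 2) * p)) H (max (max k1 k2) 2) := by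
  have hn2 : (2 : ℝ) ≤ n := by exact_mod_cast hn
  have hn0 : (0 : ℝ) < n := by linarith
  have hp0 : 0 < p := lt_of_lt_of_le (by positivity) hpn
  set L := max (max L1 L2) (((max n1 n2 : ℕ) : ℝ) ^ 2) with hL
  have hLL1 : L1 ≤ L := (le_max_left _ _).trans (le_max_left _ _)
  have hLL2 : L2 ≤ L := (le_max_right _ _).trans (le_max_left _ _)
  have hLN : ((max n1 n2 : ℕ) : ℝ) ^ 2 ≤ L := le_max_right _ _
  rcases le_or_gt 1 (L * p) with hLp | hLp
  · rw [min_eq_left hLp]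
    exact Splits.mono_k zero_le_one le_rfl hW
      (le_trans (by norm_num) (le_max_right _ _)) (splits_one_prob hW H)
  · rw [min_eq_right hLp.le]
    have hLp0 : 0 ≤ L * p := by nlinarith
    have hnN : max n1 n2 ≤ n := by
      have h3 : ((max n1 n2 : ℕ) : ℝ) ^ 2 < (n : ℝ) ^ 2 := by
        have h4 : ((max n1 n2 : ℕ) : ℝ) ^ 2 * p < 1 := by
          refine lt_of_le_of_lt ?_ hLp
          exact mul_le_mul_of_nonneg_right hLN hp0.le
        have h5 : ((max n1 n2 : ℕ) : ℝ) ^ 2 * (1 / (n : ℝ) ^ 2) < 1 := by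
          refine lt_of_le_of_lt ?_ h4
          exact mul_le_mul_of_nonneg_left hpn (by positivity)
        rw [mul_one_div, div_lt_one (by positivity)] at h5
        exact h5
      have h6 := lt_of_pow_lt_pow_left₀ 2 hn0.le h3
      exact_mod_cast h6.le
    have hn1 : n1 ≤ n := (le_max_left _ _).trans hnN
    have hn2 : n2 ≤ n := (le_max_right _ _).trans hnN
    have hL1p : L1 * p ≤ 1 := (mul_le_mul_of_nonneg_right hLL1 hp0.le).trans hLp.le
    have hL2p : L2 * p ≤ 1 := (mul_le_mul_of_nonneg_right hLL2 hp0.le).trans hLp.le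
    have hp1 : p ≤ 1 / 2 := by nlinarith
    have hex : ∃ z : ℕ, p ^ (64 * z) * n < 1 := by
      obtain ⟨m, hm⟩ := exists_pow_lt_of_lt_one (show (0 : ℝ) < 1 / n by positivity)
        (show p < 1 by linarith)
      refine ⟨m, ?_⟩
      have h3 : p ^ (64 * m) ≤ p ^ m := by
        apply pow_le_pow_of_le_one hp0.le (by linarith)
        omega
      have h4 : p ^ (64 * m) < 1 / n := lt_of_le_of_lt h3 hm
      rwa [lt_div_iff₀ hn0] at h4
    classical
    obtain ⟨z, hz1, hz2⟩ : ∃ z : ℕ, 1 ≤ p ^ (64 * z) * n ∧ p ^ (64 * (z + 1)) * n < 1 := by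
      have h3 := Nat.find_spec hex
      have h4 : Nat.find hex ≠ 0 := by
        intro h5
        rw [h5] at h3
        simp at h3
        linarith
      obtain ⟨z, hz⟩ := Nat.exists_eq_succ_of_ne_zero h4
      refine ⟨z, ?_, ?_⟩
      · have h5 := Nat.find_min hex (m := z) (by omega)
        exact not_lt.1 h5
      · rw [hz] at h3
        exact h3
    rcases Nat.eq_zero_or_pos z with rfl | hz
    · have h3 := h1 hn1 hp0 hL1p (by simpa using hz2)
      exact Splits.mono_k hLp0 hLp.le hW ((le_max_left _ _).trans (le_max_left _ _))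
        (Splits.mono_p (by positivity) (mul_le_mul_of_nonneg_right hLL1 hp0.le) hLp.le h3)
    · have h3 := h2 z hn2 hp0 hL2p hz hz1 hz2
      exact Splits.mono_k hLp0 hLp.le hW ((le_max_right _ _).trans (le_max_left _ _))
        (Splits.mono_p (by positivity) (mul_le_mul_of_nonneg_right hLL2 hp0.le) hLp.le h3)

theorem of_splits {n : ℕ} {P : ℝ} {W : Type} {H : SimpleGraph W} {k : ℕ} (h : Splits n P H k) :
    ∃ c : H.edgeSet → Fin k, ∀ i : Fin k,
      1 / 2 ≤ gnpProb n P {G | (pieceGraph H c i).IsContained G} := by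
  obtain ⟨c, hc⟩ := h
  refine ⟨fun e => c e.1, fun i => ?_⟩
  have : pieceGraph H (fun e => c e.1) i = SimpleGraph.fromEdgeSet {e | e ∈ H.edgeSet ∧ c e = i} := by
    unfold pieceGraph
    congr 1
    ext e
    simp
  rw [this]
  exact hc i
end Crest.Agent.R052.Final
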