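import Crest.Agent.R052.Union
import Crest.Prelude.Def_FinProb

/-!
# Domination of random halves (module W1 of S0073)

`A` leaves, `S v ⊆ α` the pattern of the leaf `v`, `#{v | Z ⊆ S v} ≤ M * w ^ |Z|` for all `Z`.
Then the random halves of the patterns are dominated by the product measure of density
`w / (1 + w)`: for every up-closed `U`,
`∑ v, 2^{-|S v|} #{T ⊆ S v | T ∈ U} ≤ M * mu_{w/(1+w)}(U)`.
-/

set_option autoImplicit false

namespace Crest.Agent.R052.Half

open Finset Crest.Agent.R052.Odds Crest.Agent.R052.Union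

variable {A : Type*} [Fintype A] {α : Type} [Fintype α] [DecidableEq α]

theorem mu_half (S R : Finset α) :
    mu (fun x => if x ∈ S then (1 / 2 : ℝ) else 0) R =
      if R ⊆ S then (1 / 2 : ℝ) ^ S.card else 0 := by
  unfold mu
  by_cases h : R ⊆ S
  · rw [if_pos h]
    rw [← Finset.prod_const, prod_subset_ite S]
    refine Finset.prod_congr rfl fun x _ => ?_
    by_cases h1 : x ∈ S
    · by_cases h2 : x ∈ R <;> simp [h1, h2]; norm_num
    · have h2 : x ∉ R := fun h2 => h1 (h h2)
      simp [h1, h2]
  · rw [if_neg h]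
    obtain ⟨x, hx, hxS⟩ := Finset.not_subset.1 h
    refine Finset.prod_eq_zero (Finset.mem_univ x) ?_
    simp [hx, hxS]

theorem sum_mu_half (S : Finset α) (U : Finset (Finset α)) :
    ∑ R ∈ U, mu (fun x => if x ∈ S then (1 / 2 : ℝ) else 0) R =
      (1 / 2 : ℝ) ^ S.card * ((S.powerset.filter fun T => T ∈ U).card : ℝ) := by
  rw [Finset.sum_congr rfl fun R _ => mu_half S R, ← Finset.sum_filter, Finset.sum_const,
    nsmul_eq_mul, mul_comm]
  congr 3
  ext T
  simp [and_comm]

/-- **Domination of random halves.** -/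
theorem half_dom (S : A → Finset α) (M w : ℝ) (hw : 0 ≤ w)
    (ht : ∀ Z : Finset α, ((univ.filter fun v => Z ⊆ S v).card : ℝ) ≤ M * w ^ Z.card)
    (U : Finset (Finset α)) (hU : ∀ X ∈ U, ∀ Y : Finset α, X ⊆ Y → Y ∈ U) :
    ∑ v, (1 / 2 : ℝ) ^ (S v).card * (((S v).powerset.filter fun T => T ∈ U).card : ℝ) ≤
      M * ∑ R ∈ U, mu (fun _ : α => w / (1 + w)) R := by
  have hw1 : (0 : ℝ) < 1 + w := by linarith
  have hr1 : w / (1 + w) < 1 := by rw [div_lt_one hw1]; linarith
  have hodds : w / (1 + w) / (1 - w / (1 + w)) = w := by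
    field_simp
    ring
  set r : α → ℝ := fun _ : α => w / (1 + w) with hr
  have h1 : ∀ v, (1 / 2 : ℝ) ^ (S v).card * (((S v).powerset.filter fun T => T ∈ U).card : ℝ) ≤
      ∑ Z, (if Z ⊆ S v then 1 else 0) * phi r U Z ^ 2 := by
    intro v
    rw [← sum_mu_half]
    refine (cert_odds _ r (fun x => ?_) (fun x => ?_) U hU).trans (le_of_eq ?_)
    · by_cases h : x ∈ S v <;> simp [h]
    · by_cases h : x ∈ S v <;> simp [h]; norm_num
    · refine Finset.sum_congr rfl fun Z _ => ?_
      congr 1
      by_cases h : Z ⊆ S v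
      · rw [if_pos h]
        refine Finset.prod_eq_one fun x hx => ?_
        rw [if_pos (h hx)]
        norm_num
      · rw [if_neg h]
        obtain ⟨x, hx, hxS⟩ := Finset.not_subset.1 h
        refine Finset.prod_eq_zero hx ?_
        simp [hxS]
  have h2 : ∑ R ∈ U, mu r R = ∑ Z, w ^ Z.card * phi r U Z ^ 2 := by
    rw [← cert_odds_eq r (fun _ => hr1) U]
    refine Finset.sum_congr rfl fun Z _ => ?_
    rw [hr]
    simp only [hodds, Finset.prod_const]
  rw [h2, Finset.mul_sum]
  refine (Finset.sum_le_sum fun v _ => h1 v).trans ?_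
  rw [Finset.sum_comm]
  refine Finset.sum_le_sum fun Z _ => ?_
  rw [← Finset.sum_mul, ← mul_assoc]
  refine mul_le_mul_of_nonneg_right ?_ (sq_nonneg _)
  rw [Finset.sum_boole]
  exact ht Z

/-- `bernoulliProb` of an event given by the set of successes. -/
theorem bernoulliProb_eq (p : ℝ) (U : Finset (Finset α)) :
    Crest.FinProb.bernoulliProb p {ω : α → Bool | (univ.filter fun x => ω x = true) ∈ U} =
      ∑ R ∈ U, mu (fun _ : α => p) R := by
  classical
  unfold Crest.FinProb.bernoulliProb
  refine Finset.sum_bij' (fun ω _ => univ.filter fun x => ω x = true)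
    (fun R _ x => decide (x ∈ R)) ?_ ?_ ?_ ?_ ?_
  · intro ω hω
    simpa using hω
  · intro R hR
    simp only [mem_filter, mem_univ, true_and, Set.mem_setOf_eq, decide_eq_true_eq]
    convert hR
    ext x
    simp
  · intro ω _
    funext x
    simp
  · intro R _
    ext x
    simp
  · intro ω _
    unfold Crest.FinProb.bernoulliWeight mu
    refine Finset.prod_congr rfl fun x _ => ?_
    by_cases h : ω x = true <;> simp [h]

/-- domination of random halves, `bernoulliProb` form, for a monotone predicate -/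
theorem half_dom_bernoulli (S : A → Finset α) (M w : ℝ) (hw : 0 ≤ w)
    (ht : ∀ Z : Finset α, ((univ.filter fun v => Z ⊆ S v).card : ℝ) ≤ M * w ^ Z.card)
    (Q : Finset α → Prop) [DecidablePred Q] (hQ : ∀ X Y : Finset α, X ⊆ Y → Q X → Q Y) :
    ∑ v, (1 / 2 : ℝ) ^ (S v).card * (((S v).powerset.filter fun T => Q T).card : ℝ) ≤
      M * Crest.FinProb.bernoulliProb (w / (1 + w))
        {ω : α → Bool | Q (univ.filter fun x => ω x = true)} := by
  have h := half_dom S M w hw ht (univ.filter fun T => Q T)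
    (fun X hX Y hXY => by
      simp only [mem_filter, mem_univ, true_and] at hX ⊢
      exact hQ X Y hXY hX)
  have h2 := bernoulliProb_eq (α := α) (w / (1 + w)) (univ.filter fun T => Q T)
  simp only [mem_filter, mem_univ, true_and] at h h2
  rw [h2]
  exact h

end Crest.Agent.R052.Half
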