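import Crest.Agent.R052.HubAux

/-!
# R052.Hub (helper646): the hub lemma (few generators + exponential moments + Hall)
-/

set_option autoImplicit false

open Finset

namespace Crest.Agent.R052.Hub

open Crest.FinProb

section Hit

variable {B : Type*} [Fintype B] [DecidableEq B]

/-- some member of `G` is contained in the random set `ω` -/
def hit (G : Finset (Finset B)) (ω : B → Bool) : Prop := ∃ s ∈ G, ∀ b ∈ s, ω b = true

instance (G : Finset (Finset B)) (ω : B → Bool) : Decidable (hit G ω) :=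
  inferInstanceAs (Decidable (∃ s ∈ G, ∀ b ∈ s, ω b = true))

/-- probability that the random set contains a member of `G` -/
noncomputable def muG (q : ℝ) (G : Finset (Finset B)) : ℝ :=
  ∑ ω : B → Bool, bernoulliWeight q ω * (if hit G ω then 1 else 0)

/-- probability that the random set together with `s` contains a member of `G` -/
noncomputable def fG (P : ℝ) (G : Finset (Finset B)) (s : Finset B) : ℝ :=
  ∑ ω : B → Bool, bernoulliWeight P ω * (if hit G (fun b => ω b || decide (b ∈ s)) then 1 else 0)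

theorem muG_nonneg {q : ℝ} (h0 : 0 ≤ q) (h1 : q ≤ 1) (G : Finset (Finset B)) : 0 ≤ muG q G :=
  Finset.sum_nonneg fun ω _ => mul_nonneg (bw_nonneg h0 h1 ω) (by split_ifs <;> norm_num)

theorem muG_le_one {q : ℝ} (h0 : 0 ≤ q) (h1 : q ≤ 1) (G : Finset (Finset B)) : muG q G ≤ 1 := by
  rw [← sum_bw (B := B) q]
  refine Finset.sum_le_sum fun ω _ => ?_
  have := bw_nonneg (B := B) h0 h1 ω
  split_ifs <;> linarith

theorem fG_nonneg {P : ℝ} (h0 : 0 ≤ P) (h1 : P ≤ 1) (G : Finset (Finset B)) (s : Finset B) :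
    0 ≤ fG P G s :=
  Finset.sum_nonneg fun ω _ => mul_nonneg (bw_nonneg h0 h1 ω) (by split_ifs <;> norm_num)

theorem fG_le_one {P : ℝ} (h0 : 0 ≤ P) (h1 : P ≤ 1) (G : Finset (Finset B)) (s : Finset B) :
    fG P G s ≤ 1 := by
  rw [← sum_bw (B := B) P]
  refine Finset.sum_le_sum fun ω _ => ?_
  have := bw_nonneg (B := B) h0 h1 ω
  split_ifs <;> linarith

theorem muG_ge {q : ℝ} (h0 : 0 ≤ q) (h1 : q ≤ 1) {G : Finset (Finset B)} {s : Finset B}
    (hs : s ∈ G) : q ^ s.card ≤ muG q G := by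
  have h := sum_insert q s (fun _ => (1 : ℝ))
  simp only [mul_one, sum_bw] at h
  rw [h]
  refine Finset.sum_le_sum fun ω _ => mul_le_mul_of_nonneg_left ?_ (bw_nonneg h0 h1 ω)
  by_cases hω : ∀ b ∈ s, ω b = true
  · rw [if_pos hω, if_pos ⟨s, hs, hω⟩]
  · rw [if_neg hω]; split_ifs <;> norm_num

/-- Few generators. -/
theorem exists_few {P : ℝ} (hP0 : 0 < P) (hP1 : P ≤ 1) (Γ : Finset (Finset B)) (z : ℕ)
    (hz : ∀ s ∈ Γ, s.card ≤ z) :
    ∃ G ⊆ Γ, (G.card : ℝ) * P ^ z ≤ 2 ∧ ∀ s ∈ Γ, 1 / 2 ≤ fG P G s := by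
  obtain ⟨G, hG, hmax⟩ := Finset.exists_max_image Γ.powerset
    (fun G => muG P G - (P ^ z / 2) * (G.card : ℝ)) ⟨∅, Finset.empty_mem_powerset _⟩
  have hGΓ : G ⊆ Γ := Finset.mem_powerset.1 hG
  have hPz : 0 < P ^ z := pow_pos hP0 z
  refine ⟨G, hGΓ, ?_, ?_⟩
  · have h1 := hmax ∅ (Finset.empty_mem_powerset _)
    have h2 := muG_le_one hP0.le hP1 G
    have h3 : muG P (∅ : Finset (Finset B)) = 0 := by
      unfold muG
      refine Finset.sum_eq_zero fun ω _ => ?_
      rw [if_neg]; · simp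
      rintro ⟨s, hs, -⟩
      simp at hs
    rw [h3] at h1
    simp only [Finset.card_empty, Nat.cast_zero, mul_zero, sub_zero] at h1
    nlinarith
  · intro s hs
    have h1 := hmax (insert s G) (Finset.mem_powerset.2 (Finset.insert_subset hs hGΓ))
    have hcard : ((insert s G).card : ℝ) ≤ G.card + 1 := by
      exact_mod_cast Finset.card_insert_le s G
    have h2 : muG P (insert s G) - muG P G ≤ P ^ z / 2 := by
      have : (P ^ z / 2) * ((insert s G).card : ℝ) ≤ (P ^ z / 2) * (G.card + 1) := by gcongr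
      linarith
    have h3 : P ^ s.card * (1 - fG P G s) ≤ muG P (insert s G) - muG P G := by
      have e1 : 1 - fG P G s = ∑ ω : B → Bool, bernoulliWeight P ω *
          (fun ω => if hit G ω then (0 : ℝ) else 1) (fun b => ω b || decide (b ∈ s)) := by
        have e0 : (1 : ℝ) - fG P G s = (∑ ω : B → Bool, bernoulliWeight P ω) - fG P G s := by
          rw [sum_bw]
        rw [e0]
        unfold fG
        rw [← Finset.sum_sub_distrib]
        refine Finset.sum_congr rfl fun ω _ => ?_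
        simp only
        split_ifs <;> ring
      rw [e1, sum_insert P s (fun ω => if hit G ω then (0 : ℝ) else 1)]
      unfold muG
      rw [← Finset.sum_sub_distrib]
      refine Finset.sum_le_sum fun ω _ => ?_
      rw [← mul_sub]
      refine mul_le_mul_of_nonneg_left ?_ (bw_nonneg hP0.le hP1 ω)
      by_cases hω : ∀ b ∈ s, ω b = true
      · rw [if_pos hω, if_pos (show hit (insert s G) ω from ⟨s, Finset.mem_insert_self _ _, hω⟩)]
        split_ifs <;> norm_num
      · rw [if_neg hω]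
        by_cases hh : hit G ω
        · have : hit (insert s G) ω := by
            obtain ⟨t, ht, htω⟩ := hh
            exact ⟨t, Finset.mem_insert_of_mem ht, htω⟩
          rw [if_pos this, if_pos hh]; norm_num
        · rw [if_neg hh]; split_ifs <;> norm_num
    have h4 : P ^ z ≤ P ^ s.card := pow_le_pow_of_le_one hP0.le hP1 (hz s hs)
    have h5 : 0 < P ^ s.card := pow_pos hP0 _
    have h6 : P ^ s.card * (1 - fG P G s) ≤ P ^ s.card * (1 / 2) := by linarith
    have := le_of_mul_le_mul_left h6 h5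
    linarith

end Hit

/-- number of subsets with at most `m` elements -/
theorem card_small_subsets {α : Type*} [DecidableEq α] (Pat : Finset α) (m : ℕ) :
    ((Pat.powerset.filter (fun G => G.card ≤ m)).card : ℝ) ≤ ((Pat.card : ℝ) + 1) ^ m := by
  classical
  have h : Pat.powerset.filter (fun G => G.card ≤ m) ⊆
      (Finset.univ : Finset (Fin m → Option Pat)).image
        (fun g => Finset.univ.biUnion (fun i => ((g i).map Subtype.val).toFinset)) := by
    intro G hG
    rw [Finset.mem_filter, Finset.mem_powerset] at hG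
    rw [Finset.mem_image]
    let e := G.equivFin
    refine ⟨fun i => if h : (i : ℕ) < G.card then some ⟨(e.symm ⟨i, h⟩ : α), hG.1 (e.symm ⟨i, h⟩).2⟩
      else none, Finset.mem_univ _, ?_⟩
    ext x
    simp only [Finset.mem_biUnion, Finset.mem_univ, true_and]
    constructor
    · rintro ⟨i, hi⟩
      by_cases h : (i : ℕ) < G.card
      · simp only [h, dite_true, Option.map_some, Option.mem_toFinset, Option.mem_def,
          Option.some.injEq] at hi
        rw [← hi]; exact (e.symm ⟨i, h⟩).2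
      · simp [h] at hi
    · intro hx
      refine ⟨⟨(e ⟨x, hx⟩ : Fin _), lt_of_lt_of_le (e ⟨x, hx⟩).2 hG.2⟩, ?_⟩
      simp
  have h2 := Finset.card_le_card h
  have h3 : ((Finset.univ : Finset (Fin m → Option Pat)).image
        (fun g => Finset.univ.biUnion (fun i => ((g i).map Subtype.val).toFinset))).card
        ≤ (Pat.card + 1) ^ m := by
    refine Finset.card_image_le.trans ?_
    simp
  exact_mod_cast h2.trans h3


section Colour

variable {A B : Type*} [Fintype A] [DecidableEq A] [Fintype B] [DecidableEq B]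

/-- `exp y ≤ 1 + (e - 1) y` on `[0,1]`. -/
theorem exp_le_line {y : ℝ} (h0 : 0 ≤ y) (h1 : y ≤ 1) :
    Real.exp y ≤ 1 + (Real.exp 1 - 1) * y := by
  have h := convexOn_exp.2 (Set.mem_univ (0 : ℝ)) (Set.mem_univ (1 : ℝ)) (sub_nonneg.2 h1) h0
    (by ring)
  simp only [smul_eq_mul, mul_zero, mul_one, zero_add, Real.exp_zero] at h
  linarith

/-- the hypothesis of domination: the random halves of the `S v` are dominated. -/
def Dom (S : A → Finset B) (M P : ℝ) : Prop :=
  ∀ U : Finset B → Prop, (∀ T T' : Finset B, T ⊆ T' → U T → U T') →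
    haveI := Classical.decPred U
    ∑ v, (1 / 2 : ℝ) ^ (S v).card * (((S v).powerset.filter U).card : ℝ) ≤
      M * ∑ ω : B → Bool, bernoulliWeight P ω *
        (if U (Finset.univ.filter (fun b => ω b = true)) then 1 else 0)

omit [DecidableEq A] in
theorem mean_le {S : A → Finset B} {M P : ℝ} (hP0 : 0 ≤ P) (hP1 : P ≤ 1)
    (hdom : Dom S M P) (G : Finset (Finset B)) :
    ∑ v, (1 / 2 : ℝ) ^ (S v).card * ∑ T ∈ (S v).powerset, fG P G T
      ≤ M * muG (2 * P - P ^ 2) G := by
  classical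
  have key : ∀ ω : B → Bool,
      ∑ v, (1 / 2 : ℝ) ^ (S v).card * ∑ T ∈ (S v).powerset,
        (if hit G (fun b => ω b || decide (b ∈ T)) then (1 : ℝ) else 0)
      ≤ M * ∑ ω' : B → Bool, bernoulliWeight P ω' *
        (if hit G (fun b => ω b || ω' b) then 1 else 0) := by
    intro ω
    have h := hdom (fun T => hit G (fun b => ω b || decide (b ∈ T))) (by
      rintro T T' hT ⟨s, hs, hsω⟩
      refine ⟨s, hs, fun b hb => ?_⟩
      have := hsω b hb
      simp only [Bool.or_eq_true, decide_eq_true_eq] at this ⊢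
      rcases this with h | h
      · exact Or.inl h
      · exact Or.inr (hT h))
    simp only [Finset.mem_filter, Finset.mem_univ, true_and, Bool.decide_eq_true] at h
    refine le_trans (le_of_eq ?_) h
    refine Finset.sum_congr rfl fun v _ => ?_
    congr 1
    rw [Finset.card_filter]
    push_cast
    refine Finset.sum_congr rfl fun T _ => ?_
    split_ifs <;> rfl
  have h2 : ∑ v, (1 / 2 : ℝ) ^ (S v).card * ∑ T ∈ (S v).powerset, fG P G T
      = ∑ ω : B → Bool, bernoulliWeight P ω *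
        ∑ v, (1 / 2 : ℝ) ^ (S v).card * ∑ T ∈ (S v).powerset,
          (if hit G (fun b => ω b || decide (b ∈ T)) then (1 : ℝ) else 0) := by
    have h3 : ∀ v, (1 / 2 : ℝ) ^ (S v).card * ∑ T ∈ (S v).powerset, fG P G T
        = ∑ ω : B → Bool, bernoulliWeight P ω * ((1 / 2 : ℝ) ^ (S v).card *
          ∑ T ∈ (S v).powerset,
          (if hit G (fun b => ω b || decide (b ∈ T)) then (1 : ℝ) else 0)) := by
      intro v
      simp only [fG]
      rw [Finset.sum_comm, Finset.mul_sum]
      refine Finset.sum_congr rfl fun ω _ => ?_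
      rw [← Finset.mul_sum]; ring
    rw [Finset.sum_congr rfl fun v _ => h3 v, Finset.sum_comm]
    refine Finset.sum_congr rfl fun ω _ => ?_
    rw [Finset.mul_sum]
  rw [h2]
  calc ∑ ω : B → Bool, bernoulliWeight P ω *
        ∑ v, (1 / 2 : ℝ) ^ (S v).card * ∑ T ∈ (S v).powerset,
          (if hit G (fun b => ω b || decide (b ∈ T)) then (1 : ℝ) else 0)
      ≤ ∑ ω : B → Bool, bernoulliWeight P ω * (M * ∑ ω' : B → Bool, bernoulliWeight P ω' *
        (if hit G (fun b => ω b || ω' b) then 1 else 0)) :=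
        Finset.sum_le_sum fun ω _ => mul_le_mul_of_nonneg_left (key ω) (bw_nonneg hP0 hP1 ω)
    _ = M * muG (2 * P - P ^ 2) G := by
        unfold muG
        rw [← sum_union P (fun ω => if hit G ω then (1 : ℝ) else 0), Finset.mul_sum]
        refine Finset.sum_congr rfl fun ω _ => ?_
        rw [← Finset.mul_sum]
        ring

omit [DecidableEq A] in
/-- exponential moment of the sum over the leaves, over all colourings -/
theorem exp_moment {S : A → Finset B} {M P : ℝ} (hP0 : 0 ≤ P) (hP1 : P ≤ 1)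
    (hdom : Dom S M P) (G : Finset (Finset B)) :
    ∏ v, ∑ T ∈ (S v).powerset, Real.exp (fG P G T)
      ≤ (∏ v, ((S v).powerset.card : ℝ)) *
        Real.exp ((Real.exp 1 - 1) * (M * muG (2 * P - P ^ 2) G)) := by
  have he : 0 ≤ Real.exp 1 - 1 := by linarith [Real.add_one_le_exp (1 : ℝ)]
  have h1 : ∀ v, ∑ T ∈ (S v).powerset, Real.exp (fG P G T)
      ≤ ((S v).powerset.card : ℝ) * Real.exp ((Real.exp 1 - 1) *
        ((1 / 2 : ℝ) ^ (S v).card * ∑ T ∈ (S v).powerset, fG P G T)) := by
    intro v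
    have hc : ((S v).powerset.card : ℝ) = 2 ^ (S v).card := by
      rw [Finset.card_powerset]; push_cast; rfl
    have hc' : ((S v).powerset.card : ℝ) * (1 / 2 : ℝ) ^ (S v).card = 1 := by
      rw [hc, ← mul_pow]; norm_num
    calc ∑ T ∈ (S v).powerset, Real.exp (fG P G T)
        ≤ ∑ T ∈ (S v).powerset, (1 + (Real.exp 1 - 1) * fG P G T) :=
          Finset.sum_le_sum fun T _ => exp_le_line (fG_nonneg hP0 hP1 G T) (fG_le_one hP0 hP1 G T)
      _ = ((S v).powerset.card : ℝ) * (1 + (Real.exp 1 - 1) *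
        ((1 / 2 : ℝ) ^ (S v).card * ∑ T ∈ (S v).powerset, fG P G T)) := by
          rw [Finset.sum_add_distrib, ← Finset.mul_sum, Finset.sum_const, nsmul_eq_mul, mul_one,
            mul_add, mul_one]
          congr 1
          calc (Real.exp 1 - 1) * ∑ T ∈ (S v).powerset, fG P G T
              = (((S v).powerset.card : ℝ) * (1 / 2 : ℝ) ^ (S v).card) *
                ((Real.exp 1 - 1) * ∑ T ∈ (S v).powerset, fG P G T) := by rw [hc', one_mul]
            _ = _ := by ring
      _ ≤ _ := by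
          refine mul_le_mul_of_nonneg_left ?_ (Nat.cast_nonneg _)
          have := Real.add_one_le_exp ((Real.exp 1 - 1) *
            ((1 / 2 : ℝ) ^ (S v).card * ∑ T ∈ (S v).powerset, fG P G T))
          linarith
  calc ∏ v, ∑ T ∈ (S v).powerset, Real.exp (fG P G T)
      ≤ ∏ v, ((S v).powerset.card : ℝ) * Real.exp ((Real.exp 1 - 1) *
        ((1 / 2 : ℝ) ^ (S v).card * ∑ T ∈ (S v).powerset, fG P G T)) :=
        Finset.prod_le_prod (fun v _ => Finset.sum_nonneg fun T _ => (Real.exp_pos _).le)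
          (fun v _ => h1 v)
    _ = (∏ v, ((S v).powerset.card : ℝ)) * Real.exp ((Real.exp 1 - 1) *
        ∑ v, ((1 / 2 : ℝ) ^ (S v).card * ∑ T ∈ (S v).powerset, fG P G T)) := by
        rw [Finset.prod_mul_distrib, ← Real.exp_sum, ← Finset.mul_sum]
    _ ≤ _ := by
        refine mul_le_mul_of_nonneg_left ?_ (Finset.prod_nonneg fun v _ => Nat.cast_nonneg _)
        exact Real.exp_le_exp.2 (mul_le_mul_of_nonneg_left (mean_le hP0 hP1 hdom G) he)

/-- the colouring -/
theorem exists_colouring {S : A → Finset B} {M P : ℝ} (hP0 : 0 ≤ P) (hP1 : P ≤ 1)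
    (hdom : Dom S M P) (hM : 0 ≤ M) (FF : Finset (Finset (Finset B))) {r : ℝ}
    (hr : ∀ G ∈ FF, r ≤ muG (2 * P - P ^ 2) G)
    (hsize : 2 * (FF.card : ℝ) * Real.exp (-(M * r / 4)) < 1) :
    ∃ T : A → Finset B, (∀ v, T v ⊆ S v) ∧ ∀ G ∈ FF,
      ∑ v, fG P G (T v) ≤ 2 * M * muG (2 * P - P ^ 2) G ∧
      ∑ v, fG P G (S v \ T v) ≤ 2 * M * muG (2 * P - P ^ 2) G := by
  classical
  set pi := Fintype.piFinset (fun v => (S v).powerset) with hpi
  set mu : Finset (Finset B) → ℝ := fun G => muG (2 * P - P ^ 2) G with hmu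
  have hpicard : (∏ v, ((S v).powerset.card : ℝ)) = (pi.card : ℝ) := by
    rw [hpi, Fintype.card_piFinset]; push_cast; rfl
  have hpipos : 0 < (pi.card : ℝ) := by
    rw [← hpicard]
    refine Finset.prod_pos fun v _ => ?_
    rw [Finset.card_powerset]; positivity
  have hmom : ∀ G ∈ FF, ∑ T ∈ pi, Real.exp (∑ v, fG P G (T v) - 2 * M * mu G)
      ≤ pi.card * Real.exp (-(M * r / 4)) := by
    intro G hG
    have h1 : ∑ T ∈ pi, Real.exp (∑ v, fG P G (T v) - 2 * M * mu G)
        = (∏ v, ∑ T ∈ (S v).powerset, Real.exp (fG P G T)) * Real.exp (-(2 * M * mu G)) := by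
      rw [Finset.prod_univ_sum, Finset.sum_mul]
      refine Finset.sum_congr rfl fun T _ => ?_
      rw [← Real.exp_sum, ← Real.exp_add]; rfl
    rw [h1]
    have h2 := exp_moment hP0 hP1 hdom G
    have h3 : M * r ≤ M * mu G := mul_le_mul_of_nonneg_left (hr G hG) hM
    have he : Real.exp 1 < 2.7182818286 := Real.exp_one_lt_d9
    have hMmu : 0 ≤ M * mu G := by
      rcases lt_or_ge r 0 with hneg | hpos
      · refine mul_nonneg hM ?_
        rw [hmu]
        exact muG_nonneg (by nlinarith) (by nlinarith) G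
      · exact (mul_nonneg hM hpos).trans h3
    calc (∏ v, ∑ T ∈ (S v).powerset, Real.exp (fG P G T)) * Real.exp (-(2 * M * mu G))
        ≤ ((∏ v, ((S v).powerset.card : ℝ)) * Real.exp ((Real.exp 1 - 1) * (M * mu G))) *
          Real.exp (-(2 * M * mu G)) := by gcongr
      _ = pi.card * Real.exp ((Real.exp 1 - 1) * (M * mu G) - 2 * M * mu G) := by
          rw [hpicard, mul_assoc, ← Real.exp_add]
          congr 2
      _ ≤ pi.card * Real.exp (-(M * r / 4)) := by
          refine mul_le_mul_of_nonneg_left (Real.exp_le_exp.2 ?_) (Nat.cast_nonneg _)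
          nlinarith
  have hmom' : ∀ G ∈ FF, ∑ T ∈ pi, Real.exp (∑ v, fG P G (S v \ T v) - 2 * M * mu G)
      ≤ pi.card * Real.exp (-(M * r / 4)) := by
    intro G hG
    refine le_trans (le_of_eq ?_) (hmom G hG)
    refine Finset.sum_bij' (fun T _ => fun v => S v \ T v) (fun T _ => fun v => S v \ T v)
      ?_ ?_ ?_ ?_ ?_
    · intro T _
      rw [hpi, Fintype.mem_piFinset]
      intro v; exact Finset.mem_powerset.2 Finset.sdiff_subset
    · intro T _
      rw [hpi, Fintype.mem_piFinset]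
      intro v; exact Finset.mem_powerset.2 Finset.sdiff_subset
    · intro T hT
      rw [hpi, Fintype.mem_piFinset] at hT
      funext v
      exact Finset.sdiff_sdiff_eq_self (Finset.mem_powerset.1 (hT v))
    · intro T hT
      rw [hpi, Fintype.mem_piFinset] at hT
      funext v
      exact Finset.sdiff_sdiff_eq_self (Finset.mem_powerset.1 (hT v))
    · intro T _; rfl
  have hsum : ∑ T ∈ pi, ∑ G ∈ FF, (Real.exp (∑ v, fG P G (T v) - 2 * M * mu G) +
      Real.exp (∑ v, fG P G (S v \ T v) - 2 * M * mu G)) < ∑ _T ∈ pi, (1 : ℝ) := by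
    rw [Finset.sum_comm]
    calc ∑ G ∈ FF, ∑ T ∈ pi, (Real.exp (∑ v, fG P G (T v) - 2 * M * mu G) +
          Real.exp (∑ v, fG P G (S v \ T v) - 2 * M * mu G))
        ≤ ∑ _G ∈ FF, (pi.card * Real.exp (-(M * r / 4)) + pi.card * Real.exp (-(M * r / 4))) := by
          refine Finset.sum_le_sum fun G hG => ?_
          rw [Finset.sum_add_distrib]
          exact add_le_add (hmom G hG) (hmom' G hG)
      _ = pi.card * (2 * (FF.card : ℝ) * Real.exp (-(M * r / 4))) := by
          rw [Finset.sum_const, nsmul_eq_mul]; ring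
      _ < pi.card * 1 := by gcongr
      _ = ∑ _T ∈ pi, (1 : ℝ) := by rw [Finset.sum_const, nsmul_eq_mul]
  obtain ⟨T, hT, hlt⟩ := Finset.exists_lt_of_sum_lt hsum
  rw [hpi, Fintype.mem_piFinset] at hT
  refine ⟨T, fun v => Finset.mem_powerset.1 (hT v), fun G hG => ?_⟩
  have hone : Real.exp (∑ v, fG P G (T v) - 2 * M * mu G) +
      Real.exp (∑ v, fG P G (S v \ T v) - 2 * M * mu G) < 1 :=
    lt_of_le_of_lt (Finset.single_le_sum (f := fun G => Real.exp (∑ v, fG P G (T v) - 2 * M * mu G)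
      + Real.exp (∑ v, fG P G (S v \ T v) - 2 * M * mu G))
      (fun G _ => (add_pos (Real.exp_pos _) (Real.exp_pos _)).le) hG) hlt
  have hp1 := Real.exp_pos (∑ v, fG P G (T v) - 2 * M * mu G)
  have hp2 := Real.exp_pos (∑ v, fG P G (S v \ T v) - 2 * M * mu G)
  constructor
  · have : Real.exp (∑ v, fG P G (T v) - 2 * M * mu G) < 1 := by linarith
    rw [Real.exp_lt_one_iff] at this
    linarith
  · have : Real.exp (∑ v, fG P G (S v \ T v) - 2 * M * mu G) < 1 := by linarith
    rw [Real.exp_lt_one_iff] at this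
    linarith

end Colour


section Graph

variable {B V : Type*} [Fintype B] [DecidableEq B] [Fintype V] [DecidableEq V]

/-- `exp (-1) ≤ 3/8`. -/
theorem exp_neg_one_le : Real.exp (-1) ≤ 3 / 8 := by
  have h := Real.exp_one_gt_d9
  rw [Real.exp_neg]
  rw [inv_le_comm₀ (Real.exp_pos _) (by norm_num)]
  linarith

/-- number of `x` whose neighbourhood is hit -/
noncomputable def cnt (G : Finset (Finset B)) (ω : V → B → Bool) : ℝ :=
  ∑ x, if hit G (ω x) then (1 : ℝ) else 0

/-- lower tail, exponential moment form -/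
theorem lower_tail {q : ℝ} (h0 : 0 ≤ q) (h1 : q ≤ 1) (G : Finset (Finset B)) :
    ∑ ω : V → B → Bool, (∏ x, bernoulliWeight q (ω x)) *
      (if cnt G ω < Fintype.card V * muG q G / 2 then 1 else 0)
      ≤ Real.exp (-(Fintype.card V * muG q G / 8)) := by
  set m : ℝ := ((Fintype.card V : ℕ) : ℝ) with hm
  set mu : ℝ := muG q G with hmu
  have hmu0 : 0 ≤ mu := muG_nonneg h0 h1 G
  have step : ∀ ω : V → B → Bool, (∏ x, bernoulliWeight q (ω x)) *
      (if cnt G ω < m * mu / 2 then (1 : ℝ) else 0)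
      ≤ Real.exp (m * mu / 2) * ∏ x, (bernoulliWeight q (ω x) *
          Real.exp (-(if hit G (ω x) then (1 : ℝ) else 0))) := by
    intro ω
    have hw : 0 ≤ ∏ x, bernoulliWeight q (ω x) := Finset.prod_nonneg fun x _ => bw_nonneg h0 h1 _
    rw [Finset.prod_mul_distrib, ← Real.exp_sum, Finset.sum_neg_distrib, mul_left_comm,
      ← Real.exp_add]
    refine mul_le_mul_of_nonneg_left ?_ hw
    split_ifs with hlt
    · refine Real.one_le_exp ?_
      unfold cnt at hlt; linarith
    · exact (Real.exp_pos _).le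
  refine (Finset.sum_le_sum fun ω _ => step ω).trans ?_
  rw [← Finset.mul_sum, sum_prod_fun (fun (_ : V) (η : B → Bool) =>
    bernoulliWeight q η * Real.exp (-(if hit G η then (1 : ℝ) else 0))), Finset.prod_const,
    Finset.card_univ]
  have hone : ∑ η : B → Bool, bernoulliWeight q η *
      Real.exp (-(if hit G η then (1 : ℝ) else 0)) ≤ Real.exp (-(5 / 8) * mu) := by
    have e1 : ∀ η : B → Bool, bernoulliWeight q η *
        Real.exp (-(if hit G η then (1 : ℝ) else 0))
        ≤ bernoulliWeight q η - (5 / 8) * (bernoulliWeight q η * (if hit G η then 1 else 0)) := by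
      intro η
      have hw := bw_nonneg h0 h1 η
      have := exp_neg_one_le
      split_ifs
      · nlinarith
      · simp
    calc ∑ η : B → Bool, bernoulliWeight q η * Real.exp (-(if hit G η then (1 : ℝ) else 0))
        ≤ ∑ η : B → Bool, (bernoulliWeight q η -
          (5 / 8) * (bernoulliWeight q η * (if hit G η then 1 else 0))) :=
          Finset.sum_le_sum fun η _ => e1 η
      _ = 1 - (5 / 8) * mu := by
          rw [Finset.sum_sub_distrib, sum_bw, ← Finset.mul_sum]; rfl
      _ ≤ Real.exp (-(5 / 8) * mu) := by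
          have := Real.add_one_le_exp (-(5 / 8) * mu)
          linarith
  have hnn : 0 ≤ ∑ η : B → Bool, bernoulliWeight q η *
      Real.exp (-(if hit G η then (1 : ℝ) else 0)) :=
    Finset.sum_nonneg fun η _ => mul_nonneg (bw_nonneg h0 h1 η) (Real.exp_pos _).le
  calc Real.exp (m * mu / 2) * (∑ η : B → Bool, bernoulliWeight q η *
      Real.exp (-(if hit G η then (1 : ℝ) else 0))) ^ Fintype.card V
      ≤ Real.exp (m * mu / 2) * (Real.exp (-(5 / 8) * mu)) ^ Fintype.card V := by gcongr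
    _ = Real.exp (-(m * mu / 8)) := by
        rw [← Real.exp_nat_mul, ← Real.exp_add]
        congr 1
        rw [← hm]; ring

/-- with high probability every generated up-set is hit often -/
theorem graph_event {q r : ℝ} (h0 : 0 ≤ q) (h1 : q ≤ 1) (FF : Finset (Finset (Finset B)))
    (hr : ∀ G ∈ FF, r ≤ muG q G)
    (hsize : (FF.card : ℝ) * Real.exp (-(Fintype.card V * r / 8)) ≤ 1 / 4) :
    3 / 4 ≤ ∑ ω : V → B → Bool, (∏ x, bernoulliWeight q (ω x)) *
      (if ∀ G ∈ FF, Fintype.card V * muG q G / 2 ≤ cnt G ω then 1 else 0) := by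
  have htot : ∑ ω : V → B → Bool, (∏ x, bernoulliWeight q (ω x)) = 1 := by
    rw [sum_prod_fun (fun (_ : V) (η : B → Bool) => bernoulliWeight q η)]
    simp [sum_bw]
  have hle : ∀ ω : V → B → Bool, (∏ x, bernoulliWeight q (ω x)) ≤
      (∏ x, bernoulliWeight q (ω x)) *
        (if ∀ G ∈ FF, Fintype.card V * muG q G / 2 ≤ cnt G ω then 1 else 0) +
      ∑ G ∈ FF, (∏ x, bernoulliWeight q (ω x)) *
        (if cnt G ω < Fintype.card V * muG q G / 2 then 1 else 0) := by
    intro ω
    have hw : 0 ≤ ∏ x, bernoulliWeight q (ω x) := Finset.prod_nonneg fun x _ => bw_nonneg h0 h1 _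
    have hnn : ∀ G ∈ FF, 0 ≤ (∏ x, bernoulliWeight q (ω x)) *
        (if cnt G ω < Fintype.card V * muG q G / 2 then (1 : ℝ) else 0) := fun G _ =>
      mul_nonneg hw (by split_ifs <;> norm_num)
    by_cases hall : ∀ G ∈ FF, Fintype.card V * muG q G / 2 ≤ cnt G ω
    · rw [if_pos hall, mul_one]
      have := Finset.sum_nonneg hnn
      linarith
    · rw [if_neg hall, mul_zero, zero_add]
      push Not at hall
      obtain ⟨G, hG, hlt⟩ := hall
      refine le_trans ?_ (Finset.single_le_sum hnn hG)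
      rw [if_pos hlt, mul_one]
  have h2 : ∑ ω : V → B → Bool, ∑ G ∈ FF, (∏ x, bernoulliWeight q (ω x)) *
        (if cnt G ω < Fintype.card V * muG q G / 2 then (1 : ℝ) else 0) ≤ 1 / 4 := by
    rw [Finset.sum_comm]
    calc ∑ G ∈ FF, ∑ ω : V → B → Bool, (∏ x, bernoulliWeight q (ω x)) *
        (if cnt G ω < Fintype.card V * muG q G / 2 then (1 : ℝ) else 0)
        ≤ ∑ _G ∈ FF, Real.exp (-(Fintype.card V * r / 8)) := by
          refine Finset.sum_le_sum fun G hG => (lower_tail h0 h1 G).trans ?_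
          refine Real.exp_le_exp.2 ?_
          have := mul_le_mul_of_nonneg_left (hr G hG) (Nat.cast_nonneg (α := ℝ) (Fintype.card V))
          linarith
      _ = (FF.card : ℝ) * Real.exp (-(Fintype.card V * r / 8)) := by
          rw [Finset.sum_const, nsmul_eq_mul]
      _ ≤ 1 / 4 := hsize
  have h3 := Finset.sum_le_sum (s := (Finset.univ : Finset (V → B → Bool))) fun ω _ => hle ω
  rw [htot, Finset.sum_add_distrib] at h3
  linarith

end Graph


section Core

variable {A B V : Type*} [Fintype A] [DecidableEq A] [Fintype B] [DecidableEq B]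
  [Fintype V] [DecidableEq V]

omit [DecidableEq A] in
/-- Deterministic part: Hall's theorem. -/
theorem hall_step (s : A → Finset B) (z m : ℕ) (hz : ∀ v, (s v).card ≤ z) {M P : ℝ}
    (hP0 : 0 < P) (hP1 : P ≤ 1) (hV : 8 * M ≤ Fintype.card V) (hm : 2 ≤ m * P ^ z)
    (FF : Finset (Finset (Finset B)))
    (hFF : ∀ G : Finset (Finset B), G.Nonempty → G.card ≤ m → (∀ t ∈ G, ∃ v, t = s v) → G ∈ FF)
    (hcol : ∀ G ∈ FF, ∑ v, fG P G (s v) ≤ 2 * M * muG (2 * P - P ^ 2) G)
    (ω : V → B → Bool)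
    (hω : ∀ G ∈ FF, Fintype.card V * muG (2 * P - P ^ 2) G / 2 ≤ cnt G ω) :
    ∃ g : A → V, Function.Injective g ∧ ∀ v, ∀ b ∈ s v, ω (g v) b = true := by
  classical
  have hall := (Finset.all_card_le_biUnion_card_iff_exists_injective
    (fun v : A => Finset.univ.filter (fun x : V => ∀ b ∈ s v, ω x b = true))).1 ?_
  · obtain ⟨g, hg, hgm⟩ := hall
    exact ⟨g, hg, fun v => (Finset.mem_filter.1 (hgm v)).2⟩
  intro Γ
  rcases Γ.eq_empty_or_nonempty with rfl | hΓ
  · simp
  have hPz : 0 < P ^ z := pow_pos hP0 z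
  obtain ⟨G, hGΓ, hGcard, hGf⟩ := exists_few hP0 hP1 (Γ.image s) z (by
    intro t ht
    obtain ⟨v, -, rfl⟩ := Finset.mem_image.1 ht
    exact hz v)
  have hGne : G.Nonempty := by
    by_contra hne
    rw [Finset.not_nonempty_iff_eq_empty] at hne
    obtain ⟨v, hv⟩ := hΓ
    have h1 := hGf (s v) (Finset.mem_image_of_mem _ hv)
    have h2 : fG P G (s v) = 0 := by
      unfold fG
      refine Finset.sum_eq_zero fun ω _ => ?_
      rw [if_neg]; · simp
      rintro ⟨t, ht, -⟩
      rw [hne] at ht; simp at ht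
    rw [h2] at h1; norm_num at h1
  have hGm : G.card ≤ m := by
    have : (G.card : ℝ) ≤ m := by
      by_contra hlt
      push Not at hlt
      have := mul_lt_mul_of_pos_right hlt hPz
      linarith
    exact_mod_cast this
  have hGFF : G ∈ FF := hFF G hGne hGm (fun t ht => by
    obtain ⟨v, -, hv⟩ := Finset.mem_image.1 (hGΓ ht)
    exact ⟨v, hv.symm⟩)
  have q0 : 0 ≤ 2 * P - P ^ 2 := by nlinarith
  have q1 : 2 * P - P ^ 2 ≤ 1 := by nlinarith [sq_nonneg (1 - P)]
  have hmu := muG_nonneg q0 q1 G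
  have h1 : (Γ.card : ℝ) ≤ 2 * ∑ v, fG P G (s v) := by
    calc (Γ.card : ℝ) = ∑ _v ∈ Γ, (1 : ℝ) := by simp
      _ ≤ ∑ v ∈ Γ, 2 * fG P G (s v) := by
          refine Finset.sum_le_sum fun v hv => ?_
          have := hGf (s v) (Finset.mem_image_of_mem _ hv)
          linarith
      _ ≤ ∑ v, 2 * fG P G (s v) :=
          Finset.sum_le_sum_of_subset_of_nonneg (Finset.subset_univ _) fun v _ _ =>
            mul_nonneg (by norm_num) (fG_nonneg hP0.le hP1 G _)
      _ = 2 * ∑ v, fG P G (s v) := by rw [Finset.mul_sum]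
  have h2 := hcol G hGFF
  have h3 := hω G hGFF
  have h4 : 8 * M * muG (2 * P - P ^ 2) G ≤ Fintype.card V * muG (2 * P - P ^ 2) G :=
    mul_le_mul_of_nonneg_right hV hmu
  have h5 : cnt G ω ≤ ((Γ.biUnion
      (fun v : A => Finset.univ.filter (fun x : V => ∀ b ∈ s v, ω x b = true))).card : ℝ) := by
    unfold cnt
    rw [← Finset.sum_filter, Finset.sum_const, nsmul_eq_mul, mul_one]
    have : (Finset.univ.filter (fun x : V => hit G (ω x))).card ≤ (Γ.biUnion
      (fun v : A => Finset.univ.filter (fun x : V => ∀ b ∈ s v, ω x b = true))).card := by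
      refine Finset.card_le_card fun x hx => ?_
      obtain ⟨t, ht, htω⟩ := (Finset.mem_filter.1 hx).2
      obtain ⟨v, hv, rfl⟩ := Finset.mem_image.1 (hGΓ ht)
      exact Finset.mem_biUnion.2 ⟨v, hv, Finset.mem_filter.2 ⟨Finset.mem_univ _, htω⟩⟩
    exact_mod_cast this
  have h6 : (Γ.card : ℝ) ≤ ((Γ.biUnion
      (fun v : A => Finset.univ.filter (fun x : V => ∀ b ∈ s v, ω x b = true))).card : ℝ) := by
    linarith
  exact_mod_cast h6

/-- sum over the product space in curried form -/
theorem bernoulliProb_curry (q : ℝ) (E : Set (V × B → Bool)) [DecidablePred (· ∈ E)] :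
    bernoulliProb q E = ∑ ω : V → B → Bool, (∏ x, bernoulliWeight q (ω x)) *
      (if (fun xb : V × B => ω xb.1 xb.2) ∈ E then 1 else 0) := by
  unfold bernoulliProb
  rw [Finset.sum_filter, ← (Equiv.curry V B Bool).symm.sum_comp]
  refine Finset.sum_congr rfl fun ω _ => ?_
  have e1 : bernoulliWeight q ((Equiv.curry V B Bool).symm ω) = ∏ x, bernoulliWeight q (ω x) := by
    unfold bernoulliWeight
    rw [Fintype.prod_prod_type]
    rfl
  rw [e1]
  have e2 : (Equiv.curry V B Bool).symm ω = fun xb : V × B => ω xb.1 xb.2 := by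
    funext xb; rfl
  rw [e2]
  split_ifs with h1
  · rw [mul_one]
  · rw [mul_zero]

/-- **Hub lemma**, abstract form. -/
theorem hub_core (S : A → Finset B) (z m : ℕ) (hz : ∀ v, (S v).card ≤ z) {M P : ℝ}
    (hP0 : 0 < P) (hP1 : P ≤ 1) (hM : 0 ≤ M) (hdom : Dom S M P) (hV : 8 * M ≤ Fintype.card V)
    (hm : 2 ≤ m * P ^ z)
    (hs1 : 2 * (Fintype.card A * 2 ^ z + 1 : ℝ) ^ m * Real.exp (-(M * P ^ z / 4)) < 1)
    (hs2 : (Fintype.card A * 2 ^ z + 1 : ℝ) ^ m * Real.exp (-(Fintype.card V * P ^ z / 8)) ≤ 1 / 4) :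
    ∃ c : A → Finset B, ∀ i : Bool, 3 / 4 ≤ bernoulliProb (2 * P - P ^ 2)
      {ω : V × B → Bool | ∃ g : A → V, Function.Injective g ∧ ∀ v, ∀ b ∈ S v,
        (decide (b ∈ c v) = i) → ω (g v, b) = true} := by
  classical
  set Pat : Finset (Finset B) := Finset.univ.biUnion (fun v => (S v).powerset) with hPat
  have hPatcard : (Pat.card : ℝ) ≤ Fintype.card A * 2 ^ z := by
    have h1 : Pat.card ≤ Fintype.card A * 2 ^ z := by
      calc Pat.card ≤ ∑ v : A, ((S v).powerset).card := Finset.card_biUnion_le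
        _ ≤ ∑ _v : A, 2 ^ z := by
            refine Finset.sum_le_sum fun v _ => ?_
            rw [Finset.card_powerset]
            exact Nat.pow_le_pow_right (by norm_num) (hz v)
        _ = Fintype.card A * 2 ^ z := by simp
    exact_mod_cast h1
  set FF : Finset (Finset (Finset B)) :=
    (Pat.powerset.filter (fun G => G.card ≤ m)).filter (fun G => G.Nonempty) with hFFdef
  have hFFcard : (FF.card : ℝ) ≤ (Fintype.card A * 2 ^ z + 1 : ℝ) ^ m := by
    have h1 : (FF.card : ℝ) ≤ ((Pat.powerset.filter (fun G => G.card ≤ m)).card : ℝ) := by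
      exact_mod_cast Finset.card_le_card (Finset.filter_subset _ _)
    refine h1.trans ((card_small_subsets Pat m).trans ?_)
    gcongr
  have hPz : 0 < P ^ z := pow_pos hP0 z
  have q0 : 0 ≤ 2 * P - P ^ 2 := by nlinarith
  have q1 : 2 * P - P ^ 2 ≤ 1 := by nlinarith [sq_nonneg (1 - P)]
  have hPq : P ≤ 2 * P - P ^ 2 := by nlinarith
  have hPatz : ∀ t ∈ Pat, t.card ≤ z := by
    intro t ht
    obtain ⟨v, -, htv⟩ := Finset.mem_biUnion.1 ht
    exact (Finset.card_le_card (Finset.mem_powerset.1 htv)).trans (hz v)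
  have hr : ∀ G ∈ FF, P ^ z ≤ muG (2 * P - P ^ 2) G := by
    intro G hG
    rw [hFFdef, Finset.mem_filter, Finset.mem_filter, Finset.mem_powerset] at hG
    obtain ⟨⟨hGP, -⟩, ⟨t, ht⟩⟩ := hG
    calc P ^ z ≤ P ^ t.card := pow_le_pow_of_le_one hP0.le hP1 (hPatz t (hGP ht))
      _ ≤ (2 * P - P ^ 2) ^ t.card := pow_le_pow_left₀ hP0.le hPq _
      _ ≤ muG (2 * P - P ^ 2) G := muG_ge q0 q1 ht
  obtain ⟨T, hTS, hT⟩ := exists_colouring hP0.le hP1 hdom hM FF hr (by
    refine lt_of_le_of_lt ?_ hs1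
    gcongr)
  have hgraph := graph_event (V := V) q0 q1 FF hr (by
    refine le_trans ?_ hs2
    gcongr)
  have hFFmem : ∀ (s : A → Finset B), (∀ v, s v ⊆ S v) → ∀ G : Finset (Finset B), G.Nonempty →
      G.card ≤ m → (∀ t ∈ G, ∃ v, t = s v) → G ∈ FF := by
    intro s hs G hne hcard hmem
    rw [hFFdef, Finset.mem_filter, Finset.mem_filter, Finset.mem_powerset]
    refine ⟨⟨fun t ht => ?_, hcard⟩, hne⟩
    obtain ⟨v, rfl⟩ := hmem t ht
    exact Finset.mem_biUnion.2 ⟨v, Finset.mem_univ _, Finset.mem_powerset.2 (hs v)⟩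
  refine ⟨T, fun i => ?_⟩
  rw [bernoulliProb_curry]
  refine hgraph.trans (Finset.sum_le_sum fun ω _ => ?_)
  refine mul_le_mul_of_nonneg_left ?_ (Finset.prod_nonneg fun x _ => bw_nonneg q0 q1 _)
  by_cases hω : ∀ G ∈ FF, Fintype.card V * muG (2 * P - P ^ 2) G / 2 ≤ cnt G ω
  · rw [if_pos hω, if_pos]
    cases i with
    | true =>
      obtain ⟨g, hg, hgω⟩ := hall_step T z m (fun v => (Finset.card_le_card (hTS v)).trans (hz v))
        hP0 hP1 hV hm FF (hFFmem T hTS) (fun G hG => (hT G hG).1) ω hω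
      refine ⟨g, hg, fun v b hb hbi => ?_⟩
      exact hgω v b (by simpa using hbi)
    | false =>
      obtain ⟨g, hg, hgω⟩ := hall_step (fun v => S v \ T v) z m
        (fun v => (Finset.card_le_card Finset.sdiff_subset).trans (hz v))
        hP0 hP1 hV hm FF (hFFmem (fun v => S v \ T v) (fun v => Finset.sdiff_subset))
        (fun G hG => (hT G hG).2) ω hω
      refine ⟨g, hg, fun v b hb hbi => ?_⟩
      exact hgω v b (Finset.mem_sdiff.2 ⟨hb, by simpa using hbi⟩)
  · rw [if_neg hω]
    split_ifs <;> norm_num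

end Core

end Crest.Agent.R052.Hub
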