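import Mathlib
import Crest.Prelude.Def_FinProb

/-!
# R052.HubAux (helper646): finite product measures, pushforwards, exponential moments
-/

set_option autoImplicit false

open Finset

namespace Crest.Agent.R052.Hub

open Crest.FinProb

section Push

variable {B : Type*} [Fintype B] [DecidableEq B]

theorem sum_prod_fun {Ω : Type*} [Fintype Ω] (F : B → Ω → ℝ) :
    ∑ ω : B → Ω, ∏ b, F b (ω b) = ∏ b, ∑ x, F b x := by
  rw [Finset.prod_univ_sum]
  simp

/-- pushforward of a product weight under a coordinatewise map -/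
theorem push {Ω Ω' : Type*} [Fintype Ω] [Fintype Ω'] [DecidableEq Ω'] (w : B → Ω → ℝ)
    (h : B → Ω → Ω') (w' : B → Ω' → ℝ)
    (hw : ∀ b y, ∑ x, (if h b x = y then w b x else 0) = w' b y) (f : (B → Ω') → ℝ) :
    ∑ ω : B → Ω, (∏ b, w b (ω b)) * f (fun b => h b (ω b))
      = ∑ τ : B → Ω', (∏ b, w' b (τ b)) * f τ := by
  have h1 : ∀ τ : B → Ω', ∏ b, w' b (τ b)
      = ∑ ω : B → Ω, if (fun b => h b (ω b)) = τ then ∏ b, w b (ω b) else 0 := by
    intro τ
    have : ∏ b, w' b (τ b) = ∏ b, ∑ x, (if h b x = τ b then w b x else 0) :=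
      Finset.prod_congr rfl fun b _ => (hw b (τ b)).symm
    rw [this, ← sum_prod_fun (fun b x => if h b x = τ b then w b x else 0)]
    refine Finset.sum_congr rfl fun ω _ => ?_
    by_cases hτ : (fun b => h b (ω b)) = τ
    · rw [if_pos hτ]
      refine Finset.prod_congr rfl fun b _ => ?_
      rw [if_pos (congrFun hτ b)]
    · rw [if_neg hτ]
      obtain ⟨b, hb⟩ : ∃ b, ¬ h b (ω b) = τ b := by
        by_contra hne
        push Not at hne
        exact hτ (funext hne)
      exact Finset.prod_eq_zero (Finset.mem_univ b) (if_neg hb)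
  simp only [h1]
  rw [Finset.sum_congr rfl (fun τ _ => Finset.sum_mul _ _ _), Finset.sum_comm]
  refine Finset.sum_congr rfl fun ω _ => ?_
  simp only [ite_mul, zero_mul]
  rw [Finset.sum_ite_eq]
  simp

omit [DecidableEq B] in
theorem bw_eq (p : ℝ) (ω : B → Bool) :
    bernoulliWeight p ω = ∏ b, (fun x : Bool => if x then p else 1 - p) (ω b) := rfl

omit [DecidableEq B] in
theorem bw_nonneg {p : ℝ} (h0 : 0 ≤ p) (h1 : p ≤ 1) (ω : B → Bool) : 0 ≤ bernoulliWeight p ω := by
  unfold bernoulliWeight
  refine Finset.prod_nonneg fun b _ => ?_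
  split_ifs <;> linarith

theorem sum_bw (p : ℝ) : ∑ ω : B → Bool, bernoulliWeight p ω = 1 := by
  simp only [bw_eq]
  rw [sum_prod_fun (fun (_ : B) (x : Bool) => if x then p else 1 - p)]
  simp

/-- union of two independent Bernoulli sets -/
theorem sum_union (p : ℝ) (f : (B → Bool) → ℝ) :
    ∑ ω : B → Bool, ∑ ω' : B → Bool,
      bernoulliWeight p ω * (bernoulliWeight p ω' * f (fun b => ω b || ω' b))
      = ∑ τ : B → Bool, bernoulliWeight (2 * p - p ^ 2) τ * f τ := by
  have h := push (B := B) (Ω := Bool × Bool) (Ω' := Bool)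
    (fun _ x => (if x.1 then p else 1 - p) * (if x.2 then p else 1 - p))
    (fun _ x => x.1 || x.2)
    (fun _ y => if y then 2 * p - p ^ 2 else 1 - (2 * p - p ^ 2))
    (by
      intro b y
      rw [Fintype.sum_prod_type]
      cases y <;> simp <;> ring) f
  have h2 : ∑ τ : B → Bool, bernoulliWeight (2 * p - p ^ 2) τ * f τ
      = ∑ τ : B → Bool, (∏ b, (fun (_ : B) (y : Bool) =>
          if y then 2 * p - p ^ 2 else 1 - (2 * p - p ^ 2)) b (τ b)) * f τ := rfl
  rw [h2, ← h, ← (Equiv.arrowProdEquivProdArrow B (fun _ => Bool) (fun _ => Bool)).symm.sum_comp,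
    Fintype.sum_prod_type]
  refine Finset.sum_congr rfl fun ω _ => Finset.sum_congr rfl fun ω' _ => ?_
  simp only [Equiv.arrowProdEquivProdArrow, Equiv.coe_fn_symm_mk, Finset.prod_mul_distrib]
  unfold bernoulliWeight
  rw [mul_assoc]
  rfl

/-- conditioning on containing `s` -/
theorem sum_insert (p : ℝ) (s : Finset B) (f : (B → Bool) → ℝ) :
    p ^ s.card * ∑ ω : B → Bool, bernoulliWeight p ω * f (fun b => ω b || decide (b ∈ s))
      = ∑ ω : B → Bool, bernoulliWeight p ω * (if ∀ b ∈ s, ω b = true then f ω else 0) := by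
  have h := push (B := B) (Ω := Bool) (Ω' := Bool)
    (fun _ x => if x then p else 1 - p)
    (fun b x => x || decide (b ∈ s))
    (fun b y => if b ∈ s then (if y then 1 else 0) else (if y then p else 1 - p))
    (by
      intro b y
      by_cases hb : b ∈ s <;> cases y <;> simp [hb]) f
  have h1 : ∑ ω : B → Bool, bernoulliWeight p ω * f (fun b => ω b || decide (b ∈ s))
      = ∑ ω : B → Bool, (∏ b, (fun (_ : B) (x : Bool) => if x then p else 1 - p) b (ω b)) *
        f (fun b => (fun (b : B) (x : Bool) => x || decide (b ∈ s)) b (ω b)) := rfl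
  rw [h1, h, Finset.mul_sum]
  refine Finset.sum_congr rfl fun τ _ => ?_
  by_cases hτ : ∀ b ∈ s, τ b = true
  · rw [if_pos hτ, ← mul_assoc]
    congr 1
    rw [← Finset.prod_const, ← Finset.prod_filter_mul_prod_filter_not Finset.univ (· ∈ s)
      (fun b => if b ∈ s then (if τ b then (1 : ℝ) else 0) else (if τ b then p else 1 - p))]
    unfold bernoulliWeight
    rw [← Finset.prod_filter_mul_prod_filter_not Finset.univ (· ∈ s)
      (fun b => if τ b then p else 1 - p)]
    have e1 : ∏ b ∈ Finset.univ.filter (· ∈ s),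
        (if b ∈ s then (if τ b then (1 : ℝ) else 0) else (if τ b then p else 1 - p)) = 1 := by
      refine Finset.prod_eq_one fun b hb => ?_
      have hb' : b ∈ s := (Finset.mem_filter.1 hb).2
      rw [if_pos hb', hτ b hb']; simp
    have e2 : ∏ b ∈ Finset.univ.filter (fun b => ¬ b ∈ s),
        (if b ∈ s then (if τ b then (1 : ℝ) else 0) else (if τ b then p else 1 - p))
        = ∏ b ∈ Finset.univ.filter (fun b => ¬ b ∈ s), (if τ b then p else 1 - p) := by
      refine Finset.prod_congr rfl fun b hb => ?_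
      rw [if_neg (Finset.mem_filter.1 hb).2]
    have e3 : ∏ b ∈ Finset.univ.filter (· ∈ s), (if τ b then p else 1 - p)
        = ∏ _b ∈ s, p := by
      have : Finset.univ.filter (· ∈ s) = s := by ext; simp
      rw [this]
      refine Finset.prod_congr rfl fun b hb => ?_
      rw [hτ b hb]; simp
    rw [e1, e2, e3]
    ring
  · rw [if_neg hτ, mul_zero]
    push Not at hτ
    obtain ⟨b, hb, hb'⟩ := hτ
    have : ∏ b, (if b ∈ s then (if τ b then (1 : ℝ) else 0) else (if τ b then p else 1 - p)) = 0 := by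
      refine Finset.prod_eq_zero (Finset.mem_univ b) ?_
      rw [if_pos hb]; simp [hb']
    rw [this]; ring

end Push

end Crest.Agent.R052.Hub
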