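import Mathlib

/-!
# Domination of mixtures of product measures (odds form)

For a finite type `α`, `p : α → ℝ`, `mu p S = ∏_{x ∈ S} p x · ∏_{x ∉ S} (1 - p x)`.
For an up-closed family `U` and `r : α → ℝ` there is an explicit nonnegative function
`(phi r U S)^2` with
`(∑_{R ∈ U} mu p R) * mu p ∅ ≤ ∑_S mu p S * (phi r U S)^2` for every `p ∈ [0,1]^α`, with equality at
`p = r`.  (The left side is the squared distance, in `L²(mu p)`, of the indicator of `∅` to the span of
`{1[T ⊆ ·] : T ∉ U}`.)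
-/

set_option autoImplicit false

namespace Crest.Agent.R052.Odds

open Finset

variable {α : Type*} [Fintype α] [DecidableEq α]

/-- product weight -/
noncomputable def mu (p : α → ℝ) (S : Finset α) : ℝ := ∏ x, if x ∈ S then p x else 1 - p x

/-- centred monomial -/
noncomputable def chi (r : α → ℝ) (R S : Finset α) : ℝ :=
  ∏ x ∈ R, ((if x ∈ S then 1 else 0) - r x)

/-- the residual of the indicator of `∅` -/
noncomputable def phi (r : α → ℝ) (U : Finset (Finset α)) (S : Finset α) : ℝ :=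
  ∑ R ∈ U, (-1 : ℝ) ^ R.card * (∏ x ∈ univ \ R, (1 - r x)) * chi r R S

theorem sum_prod_ite (a b : α → ℝ) :
    ∑ S : Finset α, ∏ x, (if x ∈ S then a x else b x) = ∏ x, (a x + b x) := by
  rw [Finset.prod_add]
  rw [Finset.powerset_univ]
  refine Finset.sum_congr rfl fun S _ => ?_
  rw [← Finset.prod_sdiff (Finset.subset_univ S), mul_comm]
  congr 1
  · exact Finset.prod_congr rfl fun x hx => by simp [hx]
  · exact Finset.prod_congr rfl fun x hx => by
      simp only [mem_sdiff, mem_univ, true_and] at hx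
      simp [hx]

theorem prod_subset_ite (R : Finset α) (f : α → ℝ) :
    ∏ x ∈ R, f x = ∏ x, if x ∈ R then f x else 1 := by
  rw [Finset.prod_ite_mem]
  simp

theorem mu_mul_chi_chi (p r t : α → ℝ) (R T S : Finset α) :
    mu p S * chi r R S * chi t T S =
      ∏ x, (if x ∈ S then p x * (if x ∈ R then 1 - r x else 1) * (if x ∈ T then 1 - t x else 1)
        else (1 - p x) * (if x ∈ R then - r x else 1) * (if x ∈ T then - t x else 1)) := by
  unfold mu chi
  rw [prod_subset_ite R, prod_subset_ite T, ← prod_mul_distrib, ← prod_mul_distrib]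
  refine Finset.prod_congr rfl fun x _ => ?_
  by_cases h1 : x ∈ S <;> by_cases h2 : x ∈ R <;> by_cases h3 : x ∈ T <;> simp [h1, h2, h3]

theorem sum_mu_chi_chi (p r t : α → ℝ) (R T : Finset α) :
    ∑ S, mu p S * chi r R S * chi t T S =
      ∏ x, (p x * (if x ∈ R then 1 - r x else 1) * (if x ∈ T then 1 - t x else 1)
        + (1 - p x) * (if x ∈ R then - r x else 1) * (if x ∈ T then - t x else 1)) := by
  rw [← sum_prod_ite]
  exact Finset.sum_congr rfl fun S _ => mu_mul_chi_chi p r t R T S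

/-- orthogonality: `chi p T` is orthogonal to `chi r R` unless `T ⊆ R` -/
theorem sum_mu_chi_chi_eq_zero (p r : α → ℝ) (R T : Finset α) (h : ¬ T ⊆ R) :
    ∑ S, mu p S * chi r R S * chi p T S = 0 := by
  rw [sum_mu_chi_chi]
  obtain ⟨x, hxT, hxR⟩ := Finset.not_subset.mp h
  refine Finset.prod_eq_zero (mem_univ x) ?_
  simp only [hxT, hxR, if_true, if_false]
  ring

theorem sum_mu_chi_sq (p : α → ℝ) (R : Finset α) :
    ∑ S, mu p S * chi p R S * chi p R S = ∏ x ∈ R, (p x * (1 - p x)) := by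
  rw [sum_mu_chi_chi, prod_subset_ite R (fun x => p x * (1 - p x))]
  refine Finset.prod_congr rfl fun x _ => ?_
  by_cases h : x ∈ R
  · simp only [h, if_true]; ring
  · simp only [h, if_false]; ring

theorem sum_all (r : α → ℝ) (S : Finset α) :
    ∑ R : Finset α, (-1 : ℝ) ^ R.card * (∏ x ∈ univ \ R, (1 - r x)) * chi r R S =
      if S = ∅ then 1 else 0 := by
  have h1 : ∀ R : Finset α, (-1 : ℝ) ^ R.card * (∏ x ∈ univ \ R, (1 - r x)) * chi r R S
      = ∏ x, (if x ∈ R then - ((if x ∈ S then 1 else 0) - r x) else 1 - r x) := by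
    intro R
    unfold chi
    rw [← Finset.prod_sdiff (Finset.subset_univ R) (f := fun x =>
      (if x ∈ R then - ((if x ∈ S then (1 : ℝ) else 0) - r x) else 1 - r x))]
    have h2 : ∏ x ∈ R, (if x ∈ R then - ((if x ∈ S then (1 : ℝ) else 0) - r x) else 1 - r x)
        = (-1) ^ R.card * ∏ x ∈ R, ((if x ∈ S then (1 : ℝ) else 0) - r x) := by
      rw [← Finset.prod_const, ← Finset.prod_mul_distrib]
      refine Finset.prod_congr rfl fun x hx => ?_
      rw [if_pos hx]; ring
    have h3 : ∏ x ∈ univ \ R, (if x ∈ R then - ((if x ∈ S then (1 : ℝ) else 0) - r x) else 1 - r x)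
        = ∏ x ∈ univ \ R, (1 - r x) := by
      refine Finset.prod_congr rfl fun x hx => ?_
      simp only [mem_sdiff, mem_univ, true_and] at hx
      rw [if_neg hx]
    rw [h2, h3]; ring
  rw [Finset.sum_congr rfl fun R _ => h1 R, sum_prod_ite]
  by_cases hS : S = ∅
  · subst hS
    simp
  · rw [if_neg hS]
    obtain ⟨x, hx⟩ := Finset.nonempty_iff_ne_empty.mpr hS
    refine Finset.prod_eq_zero (mem_univ x) ?_
    rw [if_pos hx]; ring

theorem phi_compl (r : α → ℝ) (U : Finset (Finset α)) (S : Finset α) :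
    phi r U S = (if S = ∅ then 1 else 0) - phi r Uᶜ S := by
  rw [← sum_all r S]
  unfold phi
  rw [← Finset.sum_add_sum_compl U]
  ring

theorem mu_empty (p : α → ℝ) : mu p ∅ = ∏ x, (1 - p x) := by
  unfold mu; simp

theorem mu_mul_mu_empty (p : α → ℝ) (R : Finset α) :
    mu p R * mu p ∅ = (∏ x ∈ univ \ R, (1 - p x)) ^ 2 * ∏ x ∈ R, (p x * (1 - p x)) := by
  unfold mu
  rw [← prod_mul_distrib, ← Finset.prod_sdiff (Finset.subset_univ R), ← Finset.prod_pow]
  congr 1
  · refine Finset.prod_congr rfl fun x hx => ?_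
    simp only [mem_sdiff, mem_univ, true_and] at hx
    simp [hx]; ring
  · refine Finset.prod_congr rfl fun x hx => ?_
    simp [hx]

theorem phi_empty (p : α → ℝ) (U : Finset (Finset α)) :
    phi p U ∅ = ∑ R ∈ U, mu p R := by
  unfold phi
  refine Finset.sum_congr rfl fun R _ => ?_
  unfold chi mu
  rw [← Finset.prod_sdiff (Finset.subset_univ R) (f := fun x => if x ∈ R then p x else 1 - p x)]
  have h2 : ∏ x ∈ R, (if x ∈ R then p x else 1 - p x)
      = (-1) ^ R.card * ∏ x ∈ R, ((if x ∈ (∅ : Finset α) then (1 : ℝ) else 0) - p x) := by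
    rw [← Finset.prod_const, ← Finset.prod_mul_distrib]
    refine Finset.prod_congr rfl fun x hx => ?_
    rw [if_pos hx]; simp
  have h3 : ∏ x ∈ univ \ R, (if x ∈ R then p x else 1 - p x) = ∏ x ∈ univ \ R, (1 - p x) := by
    refine Finset.prod_congr rfl fun x hx => ?_
    simp only [mem_sdiff, mem_univ, true_and] at hx
    rw [if_neg hx]
  rw [h2, h3]; ring

/-- second moment of the residual -/
theorem sum_mu_phi_sq (p : α → ℝ) (U : Finset (Finset α)) :
    ∑ S, mu p S * phi p U S ^ 2 = (∑ R ∈ U, mu p R) * mu p ∅ := by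
  have h1 : ∀ S, mu p S * phi p U S ^ 2 = ∑ R ∈ U, ∑ T ∈ U,
      ((-1 : ℝ) ^ R.card * (∏ x ∈ univ \ R, (1 - p x))) *
        ((-1 : ℝ) ^ T.card * (∏ x ∈ univ \ T, (1 - p x))) *
        (mu p S * chi p R S * chi p T S) := by
    intro S
    unfold phi
    rw [sq, Finset.sum_mul_sum, Finset.mul_sum]
    refine Finset.sum_congr rfl fun R _ => ?_
    rw [Finset.mul_sum]
    refine Finset.sum_congr rfl fun T _ => ?_
    ring
  rw [Finset.sum_congr rfl fun S _ => h1 S, Finset.sum_comm, Finset.sum_mul]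
  refine Finset.sum_congr rfl fun R hR => ?_
  rw [Finset.sum_comm, mu_mul_mu_empty]
  rw [Finset.sum_eq_single R]
  · rw [← Finset.mul_sum, sum_mu_chi_sq]
    have : ((-1 : ℝ) ^ R.card) * ((-1 : ℝ) ^ R.card) = 1 := by
      rw [← mul_pow]; simp
    linear_combination ((∏ x ∈ univ \ R, (1 - p x)) ^ 2 * ∏ x ∈ R, (p x * (1 - p x))) * this
  · intro T _ hTR
    rw [← Finset.mul_sum]
    by_cases h : T ⊆ R
    · have h' : ¬ R ⊆ T := fun h2 => hTR (Finset.Subset.antisymm h h2)
      have := sum_mu_chi_chi_eq_zero p p T R h'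
      have h3 : ∑ S, mu p S * chi p R S * chi p T S = 0 := by
        rw [← this]
        exact Finset.sum_congr rfl fun S _ => by ring
      rw [h3, mul_zero]
    · rw [sum_mu_chi_chi_eq_zero p p R T h, mul_zero]
  · intro h; exact absurd hR h

/-- the residual at `p` is orthogonal to everything coming from outside `U` -/
theorem sum_mu_phi_phi_compl (p r : α → ℝ) (U : Finset (Finset α))
    (hU : ∀ A ∈ U, ∀ B : Finset α, A ⊆ B → B ∈ U) :
    ∑ S, mu p S * phi r Uᶜ S * phi p U S = 0 := by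
  have h1 : ∀ S, mu p S * phi r Uᶜ S * phi p U S = ∑ R ∈ Uᶜ, ∑ T ∈ U,
      ((-1 : ℝ) ^ R.card * (∏ x ∈ univ \ R, (1 - r x))) *
        ((-1 : ℝ) ^ T.card * (∏ x ∈ univ \ T, (1 - p x))) *
        (mu p S * chi r R S * chi p T S) := by
    intro S
    unfold phi
    rw [mul_assoc, Finset.sum_mul_sum, Finset.mul_sum]
    refine Finset.sum_congr rfl fun R _ => ?_
    rw [Finset.mul_sum]
    refine Finset.sum_congr rfl fun T _ => ?_
    ring
  rw [Finset.sum_congr rfl fun S _ => h1 S, Finset.sum_comm]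
  refine Finset.sum_eq_zero fun R hR => ?_
  rw [Finset.sum_comm]
  refine Finset.sum_eq_zero fun T hT => ?_
  rw [← Finset.mul_sum, sum_mu_chi_chi_eq_zero p r R T, mul_zero]
  intro h
  exact (Finset.mem_compl.mp hR) (hU T hT R h)

theorem mu_nonneg (p : α → ℝ) (h0 : ∀ x, 0 ≤ p x) (h1 : ∀ x, p x ≤ 1) (S : Finset α) :
    0 ≤ mu p S := by
  unfold mu
  refine Finset.prod_nonneg fun x _ => ?_
  split_ifs
  · exact h0 x
  · linarith [h1 x]

/-- **Certificate.** For an up-closed family `U`, every `r` and every `p ∈ [0,1]^α`. -/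
theorem certificate (p r : α → ℝ) (h0 : ∀ x, 0 ≤ p x) (h1 : ∀ x, p x ≤ 1) (U : Finset (Finset α))
    (hU : ∀ A ∈ U, ∀ B : Finset α, A ⊆ B → B ∈ U) :
    (∑ R ∈ U, mu p R) * mu p ∅ ≤ ∑ S, mu p S * phi r U S ^ 2 := by
  have h2 : 0 ≤ ∑ S, mu p S * (phi r U S - phi p U S) ^ 2 :=
    Finset.sum_nonneg fun S _ => mul_nonneg (mu_nonneg p h0 h1 S) (sq_nonneg _)
  have h3 : ∑ S, mu p S * (phi r U S - phi p U S) ^ 2 =
      ∑ S, mu p S * phi r U S ^ 2 + ∑ S, mu p S * phi p U S ^ 2
        - 2 * ∑ S, mu p S * phi r U S * phi p U S := by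
    rw [Finset.mul_sum, ← Finset.sum_add_distrib, ← Finset.sum_sub_distrib]
    exact Finset.sum_congr rfl fun S _ => by ring
  have h4 : ∑ S, mu p S * phi r U S * phi p U S = (∑ R ∈ U, mu p R) * mu p ∅ := by
    have h5 : ∀ S, mu p S * phi r U S * phi p U S =
        mu p S * (if S = ∅ then 1 else 0) * phi p U S - mu p S * phi r Uᶜ S * phi p U S := by
      intro S
      rw [phi_compl r U S]; ring
    rw [Finset.sum_congr rfl fun S _ => h5 S, Finset.sum_sub_distrib,
      sum_mu_phi_phi_compl p r U hU, sub_zero, Finset.sum_eq_single ∅]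
    · rw [if_pos rfl, phi_empty]; ring
    · intro S _ hS
      rw [if_neg hS]; ring
    · intro h; exact absurd (mem_univ _) h
  rw [h3, h4, sum_mu_phi_sq] at h2
  linarith

end Crest.Agent.R052.Odds
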