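import Crest.Agent.S0071
import Crest.Agent.R052.Odds

/-!
# Talagrand's union theorem from the odds certificate and the fractional/integral cover theorem
-/

set_option autoImplicit false

namespace Crest.Agent.R052.Union

open Finset Crest.Agent.R052.Odds

variable {α : Type} [Fintype α] [DecidableEq α]

theorem mu_eq_empty_mul (p : α → ℝ) (h1 : ∀ x, p x < 1) (S : Finset α) :
    mu p S = mu p ∅ * ∏ x ∈ S, (p x / (1 - p x)) := by
  rw [mu_empty, prod_subset_ite S]
  unfold mu
  rw [← Finset.prod_mul_distrib]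
  refine Finset.prod_congr rfl fun x _ => ?_
  have : (1 - p x) ≠ 0 := by have := h1 x; exact ne_of_gt (by linarith)
  by_cases h : x ∈ S
  · simp only [h, if_true]; field_simp
  · simp only [h, if_false]; ring

theorem mu_empty_pos (p : α → ℝ) (h1 : ∀ x, p x < 1) : 0 < mu p ∅ := by
  rw [mu_empty]
  exact Finset.prod_pos fun x _ => by linarith [h1 x]

/-- certificate with odds -/
theorem cert_odds (p r : α → ℝ) (h0 : ∀ x, 0 ≤ p x) (h1 : ∀ x, p x < 1) (U : Finset (Finset α))
    (hU : ∀ A ∈ U, ∀ B : Finset α, A ⊆ B → B ∈ U) :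
    ∑ R ∈ U, mu p R ≤ ∑ S, (∏ x ∈ S, (p x / (1 - p x))) * phi r U S ^ 2 := by
  have h2 := certificate p r h0 (fun x => (h1 x).le) U hU
  have h3 : ∑ S, mu p S * phi r U S ^ 2 =
      (∑ S, (∏ x ∈ S, (p x / (1 - p x))) * phi r U S ^ 2) * mu p ∅ := by
    rw [Finset.sum_mul]
    refine Finset.sum_congr rfl fun S _ => ?_
    rw [mu_eq_empty_mul p h1 S]; ring
  rw [h3] at h2
  exact le_of_mul_le_mul_right h2 (mu_empty_pos p h1)

theorem cert_odds_eq (p : α → ℝ) (h1 : ∀ x, p x < 1) (U : Finset (Finset α)) :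
    ∑ S, (∏ x ∈ S, (p x / (1 - p x))) * phi p U S ^ 2 = ∑ R ∈ U, mu p R := by
  have h2 := sum_mu_phi_sq p U
  have h3 : ∑ S, mu p S * phi p U S ^ 2 =
      (∑ S, (∏ x ∈ S, (p x / (1 - p x))) * phi p U S ^ 2) * mu p ∅ := by
    rw [Finset.sum_mul]
    refine Finset.sum_congr rfl fun S _ => ?_
    rw [mu_eq_empty_mul p h1 S]; ring
  rw [h3] at h2
  exact mul_right_cancel₀ (mu_empty_pos p h1).ne' h2

theorem sum_mu (p : α → ℝ) : ∑ S : Finset α, mu p S = 1 := by
  unfold mu
  rw [sum_prod_ite]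
  simp

theorem mu_const (p : ℝ) (S : Finset α) :
    mu (fun _ : α => p) S = p ^ S.card * (1 - p) ^ (Fintype.card α - S.card) := by
  unfold mu
  rw [← Finset.prod_sdiff (Finset.subset_univ S), mul_comm]
  congr 1
  · rw [Finset.prod_congr rfl (g := fun _ => p) fun x hx => by simp [hx], Finset.prod_const]
  · rw [Finset.prod_congr rfl (g := fun _ => 1 - p) fun x hx => by
      simp only [mem_sdiff, mem_univ, true_and] at hx
      simp [hx], Finset.prod_const, Finset.card_univ_sdiff]

/-- counting colourings -/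
theorem count_colour (j : ℕ) (i : Fin j) (H S : Finset α) (hj : 0 < j) :
    ∑ f : α → Fin j, (if (H.filter fun x => f x = i) = S then (1 : ℝ) else 0) =
      (j : ℝ) ^ Fintype.card α * mu (fun x => if x ∈ H then 1 / (j : ℝ) else 0) S := by
  have h1 : ∀ f : α → Fin j, (if (H.filter fun x => f x = i) = S then (1 : ℝ) else 0) =
      ∏ x, (if ((x ∈ H ∧ f x = i) ↔ x ∈ S) then (1 : ℝ) else 0) := by
    intro f
    by_cases h : (H.filter fun x => f x = i) = S
    · rw [if_pos h]
      symm
      refine Finset.prod_eq_one fun x _ => ?_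
      rw [if_pos]
      rw [← h]; simp
    · rw [if_neg h]
      symm
      have : ∃ x, ¬ ((x ∈ H ∧ f x = i) ↔ x ∈ S) := by
        by_contra h2
        push Not at h2
        apply h
        ext x
        rw [mem_filter]; exact h2 x
      obtain ⟨x, hx⟩ := this
      exact Finset.prod_eq_zero (mem_univ x) (if_neg hx)
  rw [Finset.sum_congr rfl fun f _ => h1 f]
  have h2 := Finset.prod_univ_sum (fun _ : α => (Finset.univ : Finset (Fin j)))
    (fun x c => if ((x ∈ H ∧ c = i) ↔ x ∈ S) then (1 : ℝ) else 0)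
  rw [Fintype.piFinset_univ] at h2
  rw [← h2]
  have h3 : (j : ℝ) ^ Fintype.card α = ∏ _x : α, (j : ℝ) := by simp
  rw [h3]
  unfold mu
  rw [← Finset.prod_mul_distrib]
  refine Finset.prod_congr rfl fun x _ => ?_
  have hj0 : (j : ℝ) ≠ 0 := by positivity
  by_cases hS : x ∈ S <;> by_cases hH : x ∈ H
  · simp only [hS, hH, true_and, iff_true, if_true]
    rw [Finset.sum_ite_eq' univ i]
    simp [hj0]
  · simp [hS, hH]
  · simp only [hS, hH, true_and, iff_false, if_true, if_false]
    have : ∀ c : Fin j, (if ¬ c = i then (1 : ℝ) else 0) = 1 - (if c = i then 1 else 0) := by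
      intro c; split_ifs <;> simp_all
    rw [Finset.sum_congr rfl fun c _ => this c, Finset.sum_sub_distrib, Finset.sum_ite_eq' univ i]
    simp
    field_simp
  · simp [hS, hH]

/-- if every `j`-colouring of `H` has a class in `U` then a random class is in `U` with
probability at least `1/j` -/
theorem one_le_of_colour (j : ℕ) (hj : 0 < j) (H : Finset α) (U : Finset (Finset α))
    (h : ∀ f : α → Fin j, ∃ i, (H.filter fun x => f x = i) ∈ U) :
    1 ≤ (j : ℝ) * ∑ S ∈ U, mu (fun x => if x ∈ H then 1 / (j : ℝ) else 0) S := by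
  have h1 : ((j : ℝ) ^ Fintype.card α) ≤
      ∑ f : α → Fin j, ∑ i : Fin j, ∑ S ∈ U, (if (H.filter fun x => f x = i) = S then (1 : ℝ) else 0) := by
    have h2 : ((j : ℝ) ^ Fintype.card α) = ∑ _f : α → Fin j, (1 : ℝ) := by
      simp
    rw [h2]
    refine Finset.sum_le_sum fun f _ => ?_
    obtain ⟨i, hi⟩ := h f
    calc (1 : ℝ) = ∑ S ∈ U, (if (H.filter fun x => f x = i) = S then (1 : ℝ) else 0) := by
          rw [Finset.sum_ite_eq U, if_pos hi]
      _ ≤ _ := Finset.single_le_sum (f := fun i => ∑ S ∈ U,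
          (if (H.filter fun x => f x = i) = S then (1 : ℝ) else 0))
          (fun i _ => Finset.sum_nonneg fun S _ => by positivity) (mem_univ i)
  have h3 : ∑ f : α → Fin j, ∑ i : Fin j, ∑ S ∈ U,
      (if (H.filter fun x => f x = i) = S then (1 : ℝ) else 0) =
      (j : ℝ) ^ Fintype.card α *
        ((j : ℝ) * ∑ S ∈ U, mu (fun x => if x ∈ H then 1 / (j : ℝ) else 0) S) := by
    rw [Finset.sum_comm]
    have h4 : ∀ i : Fin j, ∑ f : α → Fin j, ∑ S ∈ U,
      (if (H.filter fun x => f x = i) = S then (1 : ℝ) else 0) =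
      (j : ℝ) ^ Fintype.card α * ∑ S ∈ U, mu (fun x => if x ∈ H then 1 / (j : ℝ) else 0) S := by
      intro i
      rw [Finset.sum_comm, Finset.mul_sum]
      exact Finset.sum_congr rfl fun S _ => count_colour j i H S hj
    rw [Finset.sum_congr rfl fun i _ => h4 i, Finset.sum_const, Finset.card_univ, Fintype.card_fin,
      nsmul_eq_mul]
    ring
  rw [h3] at h1
  have h5 : (0 : ℝ) < (j : ℝ) ^ Fintype.card α := by positivity
  by_contra h6
  push Not at h6
  have := mul_lt_mul_of_pos_left h6 h5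
  linarith

/-- **Union theorem** for a product measure with constant density. -/
theorem union_cover [Nonempty α] (p : ℝ) (hp0 : 0 < p) (hp1 : p < 1) (D : Finset (Finset α))
    (k : ℕ) (hk : 2 * (25 * 512 ^ 4 + 1) ≤ k)
    (hD : 1 - 1 / (k : ℝ) ≤ ∑ S ∈ D, p ^ S.card * (1 - p) ^ (Fintype.card α - S.card)) :
    ∃ G : Finset (Finset α),
      (∀ S : Finset α,
        (∀ f : Fin k → Finset α, (∀ i, f i ∈ D) → ¬ S ⊆ Finset.univ.biUnion f) →
          ∃ I ∈ G, I ⊆ S) ∧
      ∑ I ∈ G, p ^ I.card ≤ 1 / 2 := by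
  classical
  obtain ⟨K, hK⟩ : ∃ K : ℕ, K = 25 * 512 ^ 4 := ⟨_, rfl⟩
  rw [← hK] at hk
  have hK1 : 1 ≤ K := by rw [hK]; norm_num
  have hk0 : 0 < k := by omega
  have hkR : (2 * ((K : ℝ) + 1)) ≤ k := by exact_mod_cast hk
  have hKR : (1 : ℝ) ≤ K := by exact_mod_cast hK1
  have hkpos : (0 : ℝ) < k := by exact_mod_cast hk0
  -- the down closure and its complement
  set D0 : Finset (Finset α) := univ.filter fun S => ∃ T ∈ D, S ⊆ T with hD0
  set U : Finset (Finset α) := D0ᶜ with hUdef
  have hU : ∀ A ∈ U, ∀ B : Finset α, A ⊆ B → B ∈ U := by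
    intro A hA B hAB
    rw [hUdef, mem_compl, hD0, mem_filter] at hA ⊢
    rintro ⟨_, T, hT, hBT⟩
    exact hA ⟨mem_univ _, T, hT, hAB.trans hBT⟩
  have hmuU : ∑ R ∈ U, mu (fun _ : α => p) R ≤ 1 / k := by
    have h1 : ∑ R ∈ D0, mu (fun _ : α => p) R + ∑ R ∈ U, mu (fun _ : α => p) R = 1 := by
      rw [hUdef, Finset.sum_add_sum_compl, sum_mu]
    have h2 : ∑ S ∈ D, mu (fun _ : α => p) S ≤ ∑ R ∈ D0, mu (fun _ : α => p) R := by
      refine Finset.sum_le_sum_of_subset_of_nonneg ?_ fun S _ _ =>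
        mu_nonneg _ (fun _ => hp0.le) (fun _ => hp1.le) S
      intro S hS
      rw [hD0, mem_filter]
      exact ⟨mem_univ _, S, hS, Subset.rfl⟩
    have h3 : 1 - 1 / (k : ℝ) ≤ ∑ S ∈ D, mu (fun _ : α => p) S := by
      refine hD.trans (le_of_eq ?_)
      exact Finset.sum_congr rfl fun S _ => (mu_const p S).symm
    linarith
  have hDne : D.Nonempty := by
    rw [Finset.nonempty_iff_ne_empty]
    rintro rfl
    simp only [sum_empty] at hD
    have : (1 : ℝ) / k ≤ 1 / 2 := by
      apply one_div_le_one_div_of_le <;> linarith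
    linarith
  set F : Finset (Finset α) := univ.filter fun S =>
    ∀ f : Fin k → Finset α, (∀ i, f i ∈ D) → ¬ S ⊆ Finset.univ.biUnion f with hF
  set c : Finset α → ℝ := fun S => phi (fun _ : α => p) U S ^ 2 with hc
  have hc0 : ∀ S, 0 ≤ c S := fun S => sq_nonneg _
  -- key inequality for members of F
  have hkey : ∀ H ∈ F, 1 ≤ ((K : ℝ) + 1) * ∑ S ∈ H.powerset, (1 / (K : ℝ)) ^ S.card * c S := by
    intro H hH
    rw [hF, mem_filter] at hH
    have hcol : ∀ f : α → Fin (K + 1), ∃ i, (H.filter fun x => f x = i) ∈ U := by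
      intro f
      by_contra hcon
      push Not at hcon
      have h1 : ∀ i, ∃ T ∈ D, (H.filter fun x => f x = i) ⊆ T := by
        intro i
        have h2 := hcon i
        rw [hUdef, mem_compl, not_not, hD0, mem_filter] at h2
        exact h2.2
      choose T hT hTs using h1
      obtain ⟨T0, hT0⟩ := hDne
      apply hH.2 (fun i => if h : (i : ℕ) < K + 1 then T ⟨i, h⟩ else T0)
      · intro i
        split_ifs
        · exact hT _
        · exact hT0
      · intro x hx
        rw [mem_biUnion]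
        refine ⟨⟨(f x : ℕ), by have := (f x).2; omega⟩, mem_univ _, ?_⟩
        dsimp only
        rw [dif_pos (f x).2]
        exact hTs (f x) (by rw [mem_filter]; exact ⟨hx, rfl⟩)
    have h2 := one_le_of_colour (K + 1) (Nat.succ_pos K) H U hcol
    push_cast at h2
    set θ : α → ℝ := fun x => if x ∈ H then 1 / ((K : ℝ) + 1) else 0 with hθ
    have hθ0 : ∀ x, 0 ≤ θ x := by
      intro x; rw [hθ]; dsimp only; split_ifs <;> positivity
    have hθ1 : ∀ x, θ x < 1 := by
      intro x; rw [hθ]; dsimp only; split_ifs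
      · rw [div_lt_one (by positivity)]; linarith
      · norm_num
    have h3 := cert_odds θ (fun _ : α => p) hθ0 hθ1 U hU
    have h4 : ∑ S, (∏ x ∈ S, (θ x / (1 - θ x))) * phi (fun _ : α => p) U S ^ 2 =
        ∑ S ∈ H.powerset, (1 / (K : ℝ)) ^ S.card * c S := by
      rw [← Finset.sum_subset (Finset.subset_univ H.powerset)]
      · refine Finset.sum_congr rfl fun S hS => ?_
        rw [mem_powerset] at hS
        congr 1
        rw [← Finset.prod_const]
        refine Finset.prod_congr rfl fun x hx => ?_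
        rw [hθ]
        dsimp only
        rw [if_pos (hS hx)]
        have hK0 : (K : ℝ) ≠ 0 := by positivity
        have hK2 : (K : ℝ) + 1 ≠ 0 := by positivity
        have hK3 : 1 - 1 / ((K : ℝ) + 1) = K / (K + 1) := by field_simp; ring
        rw [hK3]
        field_simp
      · intro S _ hS
        rw [mem_powerset] at hS
        obtain ⟨x, hxS, hxH⟩ := Finset.not_subset.mp hS
        rw [Finset.prod_eq_zero hxS, zero_mul]
        rw [hθ]
        dsimp only
        rw [if_neg hxH]; simp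
    rw [h4] at h3
    have h5 : (0 : ℝ) < (K : ℝ) + 1 := by positivity
    calc (1 : ℝ) ≤ _ := h2
      _ ≤ _ := mul_le_mul_of_nonneg_left h3 h5.le
  -- total cost at density `p`
  have hcost : ∑ S, p ^ S.card * c S ≤ 1 / k := by
    have h1 := cert_odds_eq (fun _ : α => p) (fun _ => hp1) U
    refine le_trans ?_ (h1.le.trans hmuU)
    refine Finset.sum_le_sum fun S _ => ?_
    refine mul_le_mul_of_nonneg_right ?_ (sq_nonneg _)
    rw [Finset.prod_const]
    refine pow_le_pow_left₀ hp0.le ?_ _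
    rw [le_div_iff₀ (by linarith)]
    nlinarith
  rcases F.eq_empty_or_nonempty with hFe | hFne
  · refine ⟨∅, ?_, by simp⟩
    intro S hS
    exfalso
    have : S ∈ F := by rw [hF, mem_filter]; exact ⟨mem_univ _, hS⟩
    rw [hFe] at this
    exact absurd this (Finset.notMem_empty S)
  have hFempty : ∅ ∉ F := by
    rw [hF, mem_filter]
    rintro ⟨_, h⟩
    obtain ⟨T0, hT0⟩ := hDne
    exact h (fun _ => T0) (fun _ => hT0) (Finset.empty_subset _)
  have hFup : ∀ A ∈ F, ∀ B : Finset α, A ⊆ B → B ∈ F := by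
    intro A hA B hAB
    rw [hF, mem_filter] at hA ⊢
    exact ⟨mem_univ _, fun f hf hB => hA.2 f hf (hAB.trans hB)⟩
  rcases le_or_gt ((K : ℝ) * p) 1 with hKp | hKp
  · -- main case
    set g : Finset α → ℝ := fun S => min 1 (((K : ℝ) + 1) * ((1 / (K : ℝ)) ^ S.card * c S)) with hg
    have hg0 : ∀ S, 0 ≤ g S ∧ g S ≤ 1 := by
      intro S
      refine ⟨le_min zero_le_one ?_, min_le_left _ _⟩
      have := hc0 S
      positivity
    have hcov : ∀ H ∈ F, 1 ≤ ∑ S ∈ H.powerset, g S := by
      intro H hH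
      by_cases h1 : ∃ S ∈ H.powerset, 1 ≤ ((K : ℝ) + 1) * ((1 / (K : ℝ)) ^ S.card * c S)
      · obtain ⟨S, hS, hS1⟩ := h1
        have h2 : g S = 1 := min_eq_left hS1
        rw [← h2]
        exact Finset.single_le_sum (f := g) (fun T _ => (hg0 T).1) hS
      · push Not at h1
        have h2 : ∑ S ∈ H.powerset, g S =
            ((K : ℝ) + 1) * ∑ S ∈ H.powerset, (1 / (K : ℝ)) ^ S.card * c S := by
          rw [Finset.mul_sum]
          exact Finset.sum_congr rfl fun S hS => min_eq_right (h1 S hS).le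
        rw [h2]
        exact hkey H hH
    have hgcost : ∑ S : Finset α, g S * ((K : ℝ) * p) ^ S.card ≤ 1 / 2 := by
      have h1 : ∑ S : Finset α, g S * ((K : ℝ) * p) ^ S.card ≤
          ((K : ℝ) + 1) * ∑ S, p ^ S.card * c S := by
        rw [Finset.mul_sum]
        refine Finset.sum_le_sum fun S _ => ?_
        have h2 : g S ≤ ((K : ℝ) + 1) * ((1 / (K : ℝ)) ^ S.card * c S) := min_le_right _ _
        have h3 : (0 : ℝ) ≤ ((K : ℝ) * p) ^ S.card := by positivity
        refine (mul_le_mul_of_nonneg_right h2 h3).trans (le_of_eq ?_)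
        have h4 : (1 / (K : ℝ)) ^ S.card * ((K : ℝ) * p) ^ S.card = p ^ S.card := by
          rw [← mul_pow]
          congr 1
          field_simp
        calc ((K : ℝ) + 1) * ((1 / (K : ℝ)) ^ S.card * c S) * ((K : ℝ) * p) ^ S.card
            = ((K : ℝ) + 1) * (((1 / (K : ℝ)) ^ S.card * ((K : ℝ) * p) ^ S.card) * c S) := by ring
          _ = _ := by rw [h4]
      refine h1.trans ?_
      have h5 : ((K : ℝ) + 1) * ∑ S, p ^ S.card * c S ≤ ((K : ℝ) + 1) * (1 / k) :=
        mul_le_mul_of_nonneg_left hcost (by positivity)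
      refine h5.trans ?_
      rw [mul_one_div, div_le_iff₀ hkpos]
      linarith
    obtain ⟨G, hG1, hG2⟩ := Crest.Agent.S0071.result α F hFne hFempty hFup ((K : ℝ) * p)
      (by positivity) hKp g hg0 hcov hgcost
    refine ⟨G, ?_, ?_⟩
    · intro S hS
      exact hG1 S (by rw [hF, mem_filter]; exact ⟨mem_univ _, hS⟩)
    · have h6 : ((K : ℝ) * p) / (25 * 512 ^ 4) = p := by
        have h7 : (K : ℝ) = 25 * 512 ^ 4 := by rw [hK]; norm_num
        rw [h7]; field_simp
      rw [h6] at hG2
      exact hG2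
  · -- dense case: `F` is empty
    exfalso
    obtain ⟨H, hH⟩ := hFne
    have h1 := hkey H hH
    have h2 : ∑ S ∈ H.powerset, (1 / (K : ℝ)) ^ S.card * c S ≤ ∑ S, p ^ S.card * c S := by
      calc ∑ S ∈ H.powerset, (1 / (K : ℝ)) ^ S.card * c S
          ≤ ∑ S, (1 / (K : ℝ)) ^ S.card * c S :=
            Finset.sum_le_sum_of_subset_of_nonneg (Finset.subset_univ _) fun S _ _ => by
              have := hc0 S; positivity
        _ ≤ _ := by
            refine Finset.sum_le_sum fun S _ => ?_
            refine mul_le_mul_of_nonneg_right ?_ (hc0 S)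
            refine pow_le_pow_left₀ (by positivity) ?_ _
            rw [div_le_iff₀ (by positivity)]
            linarith
    have h3 : ((K : ℝ) + 1) * ∑ S ∈ H.powerset, (1 / (K : ℝ)) ^ S.card * c S ≤
        ((K : ℝ) + 1) * (1 / k) := mul_le_mul_of_nonneg_left (h2.trans hcost) (by positivity)
    have h4 : ((K : ℝ) + 1) * (1 / (k : ℝ)) ≤ 1 / 2 := by
      rw [mul_one_div, div_le_iff₀ hkpos]
      linarith
    linarith

end Crest.Agent.R052.Union
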