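import Mathlib
import Crest.Agent.R052.Union
import Crest.Agent.R052.Graph

/-!
# Hub class: domination of the random halves, graph-level wrapper
-/

set_option autoImplicit false

open Finset
open Crest.FinProb Crest.CombinatoricsR.RandomGraph

namespace Crest.Agent.R052.HubWrap

open Crest.Agent.R052.Odds Crest.Agent.R052.Union

variable {A B : Type} [Fintype A] [Fintype B] [DecidableEq B]

theorem mu_half (S R : Finset B) :
    mu (fun x => if x ∈ S then (1 / 2 : ℝ) else 0) R = if R ⊆ S then (1 / 2) ^ S.card else 0 := by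
  unfold mu
  by_cases h : R ⊆ S
  · rw [if_pos h]
    have h1 : ∀ x ∈ (univ : Finset B), (if x ∈ R then (if x ∈ S then (1 / 2 : ℝ) else 0) else
        1 - (if x ∈ S then (1 / 2 : ℝ) else 0)) = if x ∈ S then 1 / 2 else 1 := by
      intro x _
      by_cases h2 : x ∈ R
      · simp [h2, h h2]
      · by_cases h3 : x ∈ S
        · simp only [h2, h3, if_true, if_false]; norm_num
        · simp [h2, h3]
    rw [Finset.prod_congr rfl h1, Finset.prod_ite_mem, Finset.univ_inter, Finset.prod_const]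
  · rw [if_neg h]
    obtain ⟨x, hxR, hxS⟩ := Finset.not_subset.mp h
    exact Finset.prod_eq_zero (mem_univ x) (by simp [hxR, hxS])

theorem odds_half (S Z : Finset B) :
    (∏ x ∈ Z, ((if x ∈ S then (1 / 2 : ℝ) else 0) / (1 - (if x ∈ S then (1 / 2 : ℝ) else 0)))) =
      if Z ⊆ S then 1 else 0 := by
  by_cases h : Z ⊆ S
  · rw [if_pos h]
    refine Finset.prod_eq_one fun x hx => ?_
    rw [if_pos (h hx)]; norm_num
  · rw [if_neg h]
    obtain ⟨x, hxR, hxS⟩ := Finset.not_subset.mp h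
    exact Finset.prod_eq_zero hxR (by simp [hxS])

theorem prob_eq_sum_mu (p : ℝ) (U : Finset B → Prop) [DecidablePred U] :
    bernoulliProb p {ω : B → Bool | U (univ.filter fun b => ω b = true)} =
      ∑ R ∈ univ.filter U, mu (fun _ => p) R := by
  classical
  rw [Tr.prob_setOf_eq_Ex, Finset.sum_filter]
  unfold Tr.Ex
  refine Finset.sum_bij' (fun ω _ => univ.filter fun b => ω b = true)
    (fun S _ => fun b => decide (b ∈ S)) (fun _ _ => mem_univ _) (fun _ _ => mem_univ _)
    (fun ω _ => by funext b; simp) (fun S _ => by ext b; simp) (fun ω _ => ?_)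
  have h1 : bernoulliWeight p ω = mu (fun _ => p) (univ.filter fun b => ω b = true) := by
    unfold bernoulliWeight mu
    exact Finset.prod_congr rfl fun x _ => by simp
  rw [h1]
  show mu (fun _ => p) (univ.filter fun b => ω b = true) *
    (if U (univ.filter fun b => ω b = true) then (1 : ℝ) else 0) = _
  by_cases h2 : U (univ.filter fun b => ω b = true)
  · rw [if_pos h2, if_pos h2, mul_one]
  · rw [if_neg h2, if_neg h2, mul_zero]

/-- **(W1)** domination of uniformly random halves. -/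
theorem dom_half (S : A → Finset B) (M w : ℝ) (hw : 0 < w)
    (h : ∀ Z : Finset B, ((univ.filter fun v => Z ⊆ S v).card : ℝ) ≤ M * w ^ Z.card)
    (U : Finset B → Prop) [DecidablePred U] (hU : ∀ s t : Finset B, s ⊆ t → U s → U t) :
    ∑ v, (1 / 2 : ℝ) ^ (S v).card * (((S v).powerset.filter U).card : ℝ) ≤
      M * bernoulliProb (w / (1 + w)) {ω : B → Bool | U (univ.filter fun b => ω b = true)} := by
  classical
  set 𝒰 : Finset (Finset B) := univ.filter U with h𝒰
  have hU' : ∀ a ∈ 𝒰, ∀ b : Finset B, a ⊆ b → b ∈ 𝒰 := by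
    intro a ha b hab
    rw [h𝒰, mem_filter] at ha ⊢
    exact ⟨mem_univ _, hU a b hab ha.2⟩
  set r : B → ℝ := fun _ => w / (1 + w) with hr
  have hr1 : ∀ x, r x < 1 := fun x => by
    rw [hr, div_lt_one (by linarith)]; linarith
  have hodds : ∀ x, r x / (1 - r x) = w := fun x => by
    rw [hr]
    have : (1 + w) ≠ 0 := by linarith
    field_simp
    ring
  have h1 : ∀ v, (1 / 2 : ℝ) ^ (S v).card * (((S v).powerset.filter U).card : ℝ) ≤
      ∑ Z : Finset B, (if Z ⊆ S v then (1 : ℝ) else 0) * phi r 𝒰 Z ^ 2 := by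
    intro v
    have h2 := cert_odds (fun x => if x ∈ S v then (1 / 2 : ℝ) else 0) r
      (fun x => by split_ifs <;> norm_num) (fun x => by split_ifs <;> norm_num) 𝒰 hU'
    simp_rw [odds_half, mu_half] at h2
    refine le_trans (le_of_eq ?_) h2
    rw [← Finset.sum_filter]
    rw [Finset.sum_const, nsmul_eq_mul, mul_comm]
    congr 3
    ext T
    simp only [h𝒰, mem_filter, mem_powerset, mem_univ, true_and]
    tauto
  calc ∑ v, (1 / 2 : ℝ) ^ (S v).card * (((S v).powerset.filter U).card : ℝ)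
      ≤ ∑ v, ∑ Z : Finset B, (if Z ⊆ S v then (1 : ℝ) else 0) * phi r 𝒰 Z ^ 2 :=
        Finset.sum_le_sum fun v _ => h1 v
    _ = ∑ Z : Finset B, ((univ.filter fun v => Z ⊆ S v).card : ℝ) * phi r 𝒰 Z ^ 2 := by
        rw [Finset.sum_comm]
        refine Finset.sum_congr rfl fun Z _ => ?_
        rw [← Finset.sum_mul, Finset.sum_boole]
    _ ≤ ∑ Z : Finset B, M * w ^ Z.card * phi r 𝒰 Z ^ 2 :=
        Finset.sum_le_sum fun Z _ => mul_le_mul_of_nonneg_right (h Z) (sq_nonneg _)
    _ = M * ∑ Z : Finset B, (∏ x ∈ Z, (r x / (1 - r x))) * phi r 𝒰 Z ^ 2 := by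
        rw [Finset.mul_sum]
        refine Finset.sum_congr rfl fun Z _ => ?_
        rw [Finset.prod_congr rfl fun x _ => hodds x, Finset.prod_const]
        ring
    _ = M * bernoulliProb (w / (1 + w)) {ω : B → Bool | U (univ.filter fun b => ω b = true)} := by
        rw [cert_odds_eq r hr1 𝒰, prob_eq_sum_mu]

/-- **(W3)** transport to the random graph: cores are placed by `pos`, leaves are matched into the
complement of the range of `pos`. -/
theorem hub_graph {W : Type} [Fintype W] [DecidableEq W] {n : ℕ} (hW : Fintype.card W ≤ n)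
    (A B : Finset W) (hAB : Disjoint A B) (F : SimpleGraph W)
    (hF : ∀ u v, F.Adj u v → (u ∈ A ∧ v ∈ B) ∨ (u ∈ B ∧ v ∈ A)) {P : ℝ} (hP0 : 0 ≤ P)
    (hP1 : P ≤ 1) (pos : {b // b ∈ B} → Fin n) (hpos : Function.Injective pos) :
    bernoulliProb P {ω : {x : Fin n // ∀ b, x ≠ pos b} × {b // b ∈ B} → Bool |
      ∃ g : {v // v ∈ A} → {x : Fin n // ∀ b, x ≠ pos b}, Function.Injective g ∧
        ∀ (v : {v // v ∈ A}) (b : {b // b ∈ B}), F.Adj v.1 b.1 → ω (g v, b) = true} ≤
      gnpProb n P {G | F.IsContained G} := by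
  classical
  set e : {x : Fin n // ∀ b, x ≠ pos b} × {b // b ∈ B} → EdgeSlot n :=
    fun y => Gr.slot y.1.1 (pos y.2) (y.1.2 y.2) with he
  have he1 : Function.Injective e := by
    rintro ⟨x, b⟩ ⟨x', b'⟩ h
    rw [he] at h
    rcases (Gr.slot_eq_iff _ _).mp h with ⟨h1, h2⟩ | ⟨h1, h2⟩
    · exact Prod.ext (Subtype.ext h1) (hpos h2)
    · exact absurd h1 (x.2 b')
  rw [← Tr.prob_marginal e he1 P]
  unfold gnpProb
  refine Tr.prob_mono hP0 hP1 fun ω hω => ?_
  obtain ⟨g, hg, hgω⟩ := hω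
  show F.IsContained (graphOf ω)
  set f : W → Fin n := fun w => if h : w ∈ A then (g ⟨w, h⟩).1 else
    if h : w ∈ B then pos ⟨w, h⟩ else ⟨0, by
      have := Fintype.card_pos_iff.mpr ⟨w⟩
      omega⟩ with hf
  have hfA : ∀ w (h : w ∈ A), f w = (g ⟨w, h⟩).1 := fun w h => by rw [hf]; simp only [h, dif_pos]
  have hfB : ∀ w (h : w ∈ B), f w = pos ⟨w, h⟩ := fun w h => by
    have h' : w ∉ A := fun h2 => (Finset.disjoint_left.mp hAB) h2 h
    rw [hf]; simp only [h', h, dif_pos, dif_neg, not_false_iff]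
  refine Gr.isContained_of_partial hW (A ∪ B) f ?_ ?_ ?_
  · intro a ha b hb hab
    rw [Finset.mem_coe, mem_union] at ha hb
    rcases ha with ha | ha <;> rcases hb with hb | hb
    · rw [hfA a ha, hfA b hb] at hab
      exact congrArg Subtype.val (hg (Subtype.ext hab))
    · rw [hfA a ha, hfB b hb] at hab
      exact absurd hab ((g ⟨a, ha⟩).2 ⟨b, hb⟩)
    · rw [hfB a ha, hfA b hb] at hab
      exact absurd hab.symm ((g ⟨b, hb⟩).2 ⟨a, ha⟩)
    · rw [hfB a ha, hfB b hb] at hab
      exact congrArg Subtype.val (hpos hab)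
  · intro u v huv
    rw [mem_union]
    rcases hF u v huv with h | h
    · exact Or.inl h.1
    · exact Or.inr h.1
  · intro u v huv
    rcases hF u v huv with h | h
    · rw [hfA u h.1, hfB v h.2, Gr.graphOf_adj]
      exact ⟨(g ⟨u, h.1⟩).2 ⟨v, h.2⟩, hgω ⟨u, h.1⟩ ⟨v, h.2⟩ huv⟩
    · rw [hfB u h.1, hfA v h.2, SimpleGraph.adj_comm, Gr.graphOf_adj]
      exact ⟨(g ⟨v, h.2⟩).2 ⟨u, h.1⟩, hgω ⟨v, h.2⟩ ⟨u, h.1⟩ huv.symm⟩

end Crest.Agent.R052.HubWrap
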