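import Mathlib
import Crest.Agent.R052.HubWrap
import Crest.Agent.R052.Struct

/-!
# Hub class: graph-level statement from the abstract hub lemma
-/

set_option autoImplicit false

open Finset
open Crest.FinProb Crest.CombinatoricsR.RandomGraph

namespace Crest.Agent.R052.HubClass

open Crest.Agent.R052.Struct

/-- the abstract hub lemma with all numerics -/
def HubFinal (K L : ℝ) : Prop := ∃ n0 : ℕ, ∀ n ≥ n0, ∀ (A B V : Type) [Fintype A] [DecidableEq A]
  [Fintype B] [DecidableEq B] [Fintype V] [DecidableEq V] (p P : ℝ) (z : ℕ) (S : A → Finset B),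
  64 * Fintype.card A ≤ n → n ≤ 2 * Fintype.card V → Fintype.card V ≤ n → 0 < p → p ≤ 1/2 →
  (∀ v, (S v).card ≤ z) → 1 ≤ p^(10*z) * n →
  (∀ Z : Finset B, Z.Nonempty →
    ((Finset.univ.filter fun v => Z ⊆ S v).card : ℝ) ≤ K * n * p^Z.card) →
  L*K*p ≤ P → P ≤ 1 →
  ∃ c : A → Finset B, ∀ i : Bool, 3/4 ≤ Crest.FinProb.bernoulliProb P {ω : V × B → Bool |
    ∃ f : A → V, Function.Injective f ∧ ∀ v, ∀ b ∈ S v, (decide (b ∈ c v) = i) →
      ω (f v, b) = true}

theorem card_pool {n : ℕ} {β : Type} [Fintype β] [DecidableEq β] (pos : β → Fin n)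
    (hpos : Function.Injective pos) :
    Fintype.card {x : Fin n // ∀ b, x ≠ pos b} = n - Fintype.card β := by
  classical
  rw [Fintype.card_subtype]
  have h1 : (univ.filter fun x : Fin n => ∀ b, x ≠ pos b) = univ \ (univ.image pos) := by
    ext x
    simp only [mem_filter, mem_univ, true_and, mem_sdiff, mem_image, not_exists]
    exact ⟨fun h b hb => h b hb.symm, fun h b hb => h b hb.symm⟩
  rw [h1, Finset.card_sdiff_of_subset (Finset.subset_univ _), Finset.card_univ, Fintype.card_fin,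
    Finset.card_image_of_injective _ hpos, Finset.card_univ]

theorem hub_of (L : ℝ) (hL : 1 ≤ L) (hfin : HubFinal 30 L) :
    ∃ n0 : ℕ, ∃ L : ℝ, 1 ≤ L ∧ ∀ n ≥ n0, ∀ (W : Type) [Fintype W] [DecidableEq W]
    (A B : Finset W) (S : W → Finset W) (p : ℝ) (z : ℕ),
    Fintype.card W ≤ n → Disjoint A B → 64 * A.card ≤ n → 4 * B.card ≤ n →
    0 < p → L * p ≤ 1 → 1 ≤ p ^ (64 * z) * n →
    (∀ v ∈ A, S v ⊆ B) → (∀ v ∈ A, (S v).card ≤ z) →
    (∀ Z : Finset W, Z.Nonempty → Z.card ≤ z →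
      ((A.filter fun v => Z ⊆ S v).card : ℝ) ≤ 30 * n * p ^ Z.card) →
    Splits n (L * p) (SimpleGraph.fromRel fun v b => v ∈ A ∧ b ∈ S v) 2 := by
  classical
  obtain ⟨n0, hn0⟩ := hfin
  refine ⟨n0, L * 30, by linarith, fun n hn W _ _ A B S p z hW hAB hA hB hp hLp hz hSB hSz hZ => ?_⟩
  have hp2 : p ≤ 1 / 2 := by nlinarith
  have hp1 : p ≤ 1 := by linarith
  -- positions of the cores
  have hcardB : Fintype.card {b // b ∈ B} ≤ Fintype.card (Fin n) := by
    rw [Fintype.card_coe, Fintype.card_fin]; omega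
  obtain ⟨posE⟩ := Function.Embedding.nonempty_of_card_le hcardB
  let pos : {b // b ∈ B} → Fin n := fun b => posE b
  have hpos : Function.Injective pos := posE.injective
  have hV := card_pool pos hpos
  rw [Fintype.card_coe] at hV
  let S' : {v // v ∈ A} → Finset {b // b ∈ B} := fun v => univ.filter fun b => b.1 ∈ S v.1
  have hS'mem : ∀ (v : {v // v ∈ A}) (b : {b // b ∈ B}), b ∈ S' v ↔ b.1 ∈ S v.1 := by
    intro v b; simp [S']
  have hS'card : ∀ v, (S' v).card ≤ z := by
    intro v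
    refine le_trans ?_ (hSz v.1 v.2)
    refine Finset.card_le_card_of_injOn (fun b => b.1) (fun b hb => ?_)
      (fun a _ b _ h => Subtype.ext h)
    exact (hS'mem v b).mp hb
  have hz10 : 1 ≤ p ^ (10 * z) * (n : ℝ) := by
    refine hz.trans ?_
    refine mul_le_mul_of_nonneg_right ?_ (Nat.cast_nonneg n)
    exact pow_le_pow_of_le_one hp.le hp1 (by omega)
  have hZ' : ∀ Z : Finset {b // b ∈ B}, Z.Nonempty →
      ((univ.filter fun v => Z ⊆ S' v).card : ℝ) ≤ 30 * n * p ^ Z.card := by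
    intro Z hZne
    by_cases hZz : Z.card ≤ z
    · have h1 := hZ (Z.map (Function.Embedding.subtype _)) (by simpa using hZne)
        (by rw [Finset.card_map]; exact hZz)
      rw [Finset.card_map] at h1
      refine le_trans ?_ h1
      have h2 : (univ.filter fun v => Z ⊆ S' v).card ≤
          (A.filter fun v => Z.map (Function.Embedding.subtype _) ⊆ S v).card := by
        refine Finset.card_le_card_of_injOn (fun v => v.1) (fun v hv => ?_)
          (fun a _ b _ h => Subtype.ext h)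
        have hv' := (Finset.mem_filter.mp (Finset.mem_coe.mp hv)).2
        rw [Finset.mem_coe, mem_filter]
        refine ⟨v.2, fun b hb => ?_⟩
        obtain ⟨b', hb', rfl⟩ := Finset.mem_map.mp hb
        exact (hS'mem v b').mp (hv' hb')
      exact_mod_cast h2
    · have h0 : (univ.filter fun v => Z ⊆ S' v) = ∅ := by
        rw [Finset.filter_eq_empty_iff]
        intro v _ hv
        exact hZz ((Finset.card_le_card hv).trans (hS'card v))
      rw [h0]
      simp only [Finset.card_empty, Nat.cast_zero]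
      positivity
  obtain ⟨c, hc⟩ := hn0 n hn {v // v ∈ A} {b // b ∈ B} {x : Fin n // ∀ b, x ≠ pos b}
    p (L * 30 * p) z S' (by rw [Fintype.card_coe]; exact hA)
    (by rw [hV]; omega) (by rw [hV]; omega) hp hp2 hS'card hz10 hZ' le_rfl hLp
  -- the labelling
  let lab : Sym2 W → Fin 2 := fun e =>
    if ∃ (v : {v // v ∈ A}) (b : {b // b ∈ B}), e = s(v.1, b.1) ∧ b ∈ c v then 1 else 0
  have hlab : ∀ (v : {v // v ∈ A}) (b : {b // b ∈ B}), lab s(v.1, b.1) = 1 ↔ b ∈ c v := by
    intro v b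
    simp only [lab]
    constructor
    · intro h
      by_cases h1 : ∃ (v' : {v // v ∈ A}) (b' : {b // b ∈ B}), s(v.1, b.1) = s(v'.1, b'.1) ∧
          b' ∈ c v'
      · obtain ⟨v', b', h2, h3⟩ := h1
        rcases Sym2.eq_iff.mp h2 with ⟨h4, h5⟩ | ⟨h4, h5⟩
        · rw [Subtype.ext h4, Subtype.ext h5]; exact h3
        · exact absurd b'.2 (fun h6 => (Finset.disjoint_left.mp hAB) v.2 (h4 ▸ h6))
      · rw [if_neg h1] at h
        exact absurd h (by decide)
    · intro h
      rw [if_pos ⟨v, b, rfl, h⟩]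
  refine ⟨lab, fun i => ?_⟩
  have h34 := hc (decide (i = 1))
  refine le_trans (by norm_num) (h34.trans ?_)
  have hLp0 : 0 ≤ L * 30 * p := by positivity
  refine le_trans ?_ (HubWrap.hub_graph hW A B hAB
    (SimpleGraph.fromEdgeSet {e | e ∈ (SimpleGraph.fromRel fun v b => v ∈ A ∧ b ∈ S v).edgeSet ∧
      lab e = i}) ?_ hLp0 hLp pos hpos)
  · refine Tr.prob_mono hLp0 hLp fun ω hω => ?_
    obtain ⟨g, hg, hgω⟩ := hω
    refine ⟨g, hg, fun v b hvb => ?_⟩
    rw [SimpleGraph.fromEdgeSet_adj] at hvb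
    obtain ⟨⟨h1, h2⟩, -⟩ := hvb
    rw [SimpleGraph.mem_edgeSet, SimpleGraph.fromRel_adj] at h1
    have h3 : b.1 ∈ S v.1 := by
      rcases h1.2 with h4 | h4
      · exact h4.2
      · exact absurd b.2 (fun h6 => (Finset.disjoint_left.mp hAB) h4.1 h6)
    refine hgω v b ((hS'mem v b).mpr h3) ?_
    have h5 := hlab v b
    by_cases h6 : b ∈ c v
    · have h7 : lab s(v.1, b.1) = 1 := h5.mpr h6
      rw [h2] at h7
      simp [h6, h7]
    · have h7 : lab s(v.1, b.1) ≠ 1 := fun h => h6 (h5.mp h)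
      rw [h2] at h7
      simp [h6, h7]
  · intro u v huv
    rw [SimpleGraph.fromEdgeSet_adj] at huv
    obtain ⟨⟨h1, -⟩, -⟩ := huv
    rw [SimpleGraph.mem_edgeSet, SimpleGraph.fromRel_adj] at h1
    rcases h1.2 with h4 | h4
    · exact Or.inl ⟨h4.1, hSB u h4.1 h4.2⟩
    · exact Or.inr ⟨hSB v h4.1 h4.2, h4.1⟩

end Crest.Agent.R052.HubClass
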