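import Crest.Agent.R052.HubNum
import Crest.Agent.R052.HubClass

/-!
# R052.HubDone (helper646): the hub class, interface form
-/

set_option autoImplicit false

open Finset
open Crest.FinProb Crest.CombinatoricsR.RandomGraph

namespace Crest.Agent.R052.Hub

open Crest.Agent.R052.Struct

theorem hubFinal : HubClass.HubFinal 30 128 := by
  obtain ⟨n0, h⟩ := hub_final 30 (by norm_num)
  refine ⟨n0, ?_⟩
  intro n hn A B V _ _ _ _ _ _ p P z S hA hV _ hp0 hp2 hz hpz ht hP hP1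
  exact h n hn A B V p P z S hA hV hp0 hp2 hz hpz (fun Z hZ _ => ht Z hZ) hP hP1

theorem hub : ∃ n0 : ℕ, ∃ L : ℝ, 1 ≤ L ∧ ∀ n ≥ n0, ∀ (W : Type) [Fintype W] [DecidableEq W]
    (A B : Finset W) (S : W → Finset W) (p : ℝ) (z : ℕ),
    Fintype.card W ≤ n → Disjoint A B → 64 * A.card ≤ n → 4 * B.card ≤ n →
    0 < p → L * p ≤ 1 → 1 ≤ p ^ (64 * z) * n →
    (∀ v ∈ A, S v ⊆ B) → (∀ v ∈ A, (S v).card ≤ z) →
    (∀ Z : Finset W, Z.Nonempty → Z.card ≤ z →
      ((A.filter fun v => Z ⊆ S v).card : ℝ) ≤ 30 * n * p ^ Z.card) →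
    Splits n (L * p) (SimpleGraph.fromRel fun v b => v ∈ A ∧ b ∈ S v) 2 :=
  HubClass.hub_of 128 (by norm_num) hubFinal

end Crest.Agent.R052.Hub
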