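import Crest.Agent.R052.Hub
import Crest.Agent.R052.Half
import Crest.Agent.R052.Transport

/-!
# R052.HubNum (helper646): the hub lemma with all numerics
-/

set_option autoImplicit false

open Finset

namespace Crest.Agent.R052.Hub

open Crest.FinProb

/-- numerics -/
theorem num_bound {n x : ℝ} (hn : 10 ^ 8 ≤ n) (hx1 : 1 ≤ x) (hx : x ^ 10 ≤ n) :
    256 * x * (Real.log 4 + 6 * x * Real.log n) < n := by
  have hn0 : 0 < n := by linarith
  set t := Real.sqrt (Real.sqrt n) with ht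
  have ht0 : 0 ≤ t := Real.sqrt_nonneg _
  have ht2 : t ^ 2 = Real.sqrt n := Real.sq_sqrt (Real.sqrt_nonneg _)
  have ht4 : t ^ 4 = n := by
    have : t ^ 4 = (t ^ 2) ^ 2 := by ring
    rw [this, ht2, Real.sq_sqrt hn0.le]
  have hs : (10 : ℝ) ^ 4 ≤ t ^ 2 := by
    rw [ht2]
    apply Real.le_sqrt_of_sq_le
    calc ((10 : ℝ) ^ 4) ^ 2 = 10 ^ 8 := by norm_num
      _ ≤ n := hn
  have htpos : 0 < t := by
    rcases ht0.lt_or_eq with h | h
    · exact h
    · rw [← h] at hs; norm_num at hs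
  have ht1 : 1 ≤ t := by
    by_contra hlt
    push Not at hlt
    nlinarith
  have hxt : x ^ 2 ≤ t := by
    have h1 : (x ^ 2) ^ 4 ≤ t ^ 4 := by
      rw [ht4]
      calc (x ^ 2) ^ 4 = x ^ 8 := by ring
        _ ≤ x ^ 10 := pow_le_pow_right₀ hx1 (by norm_num)
        _ ≤ n := hx
    exact le_of_pow_le_pow_left₀ (by norm_num) ht0 h1
  have hxt' : x ≤ t := by nlinarith
  have hlog : Real.log n ≤ 4 * t := by
    rw [← ht4, Real.log_pow]
    have := Real.log_le_sub_one_of_pos htpos
    push_cast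
    linarith
  have hlog0 : 0 ≤ Real.log n := Real.log_nonneg (by linarith)
  have hlog4 : Real.log 4 ≤ 2 := by
    have h : Real.log 4 = 2 * Real.log 2 := by
      rw [show (4 : ℝ) = 2 ^ 2 by norm_num, Real.log_pow]; norm_num
    rw [h]
    have := Real.log_two_lt_d9
    linarith
  have hlog40 : 0 ≤ Real.log 4 := Real.log_nonneg (by norm_num)
  calc 256 * x * (Real.log 4 + 6 * x * Real.log n)
      = 256 * (x * Real.log 4 + 6 * (x ^ 2 * Real.log n)) := by ring
    _ ≤ 256 * (t * 2 + 6 * (t * (4 * t))) := by gcongr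
    _ ≤ 256 * (26 * t ^ 2) := by nlinarith
    _ < t ^ 4 := by nlinarith
    _ = n := ht4

set_option maxHeartbeats 1000000 in
/-- **Hub lemma** with numerics. -/
theorem hub_final (K : ℝ) (hK : 1 ≤ K) : ∃ n0 : ℕ, ∀ n ≥ n0, ∀ (A B V : Type)
    [Fintype A] [DecidableEq A] [Fintype B] [DecidableEq B] [Fintype V] [DecidableEq V]
    (p P : ℝ) (z : ℕ) (S : A → Finset B),
    64 * Fintype.card A ≤ n → n ≤ 2 * Fintype.card V → 0 < p → p ≤ 1 / 2 →
    (∀ v, (S v).card ≤ z) → 1 ≤ p ^ (10 * z) * n →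
    (∀ Z : Finset B, Z.Nonempty → Z.card ≤ z →
      ((Finset.univ.filter fun v => Z ⊆ S v).card : ℝ) ≤ K * n * p ^ Z.card) →
    128 * K * p ≤ P → P ≤ 1 →
    ∃ c : A → Finset B, ∀ i : Bool, 3 / 4 ≤ bernoulliProb P
      {ω : V × B → Bool | ∃ g : A → V, Function.Injective g ∧ ∀ v, ∀ b ∈ S v,
        (decide (b ∈ c v) = i) → ω (g v, b) = true} := by
  refine ⟨10 ^ 8, ?_⟩
  intro n hn A B V _ _ _ _ _ _ p P z S hA hV hp0 hp2 hz hpz ht hP hP1
  classical
  have hnR : (10 : ℝ) ^ 8 ≤ n := by exact_mod_cast hn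
  have hn0 : (0 : ℝ) < n := by linarith
  set M : ℝ := (n : ℝ) / 64 with hM
  set w : ℝ := 64 * K * p with hw
  have hw0 : 0 < w := by positivity
  set P0 : ℝ := w / (1 + w) with hP0def
  have hP00 : 0 < P0 := by positivity
  have hP01 : P0 ≤ 1 := by rw [hP0def, div_le_one (by positivity)]; linarith
  have hpP0 : p ≤ P0 := by
    rw [hP0def, le_div_iff₀ (by positivity), hw]
    nlinarith
  set x : ℝ := (1 / p) ^ z with hx
  have hx1 : 1 ≤ x := one_le_pow₀ (by rw [le_div_iff₀ hp0]; linarith)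
  have hx0 : 0 < x := by linarith
  have hpzx : p ^ z = 1 / x := by rw [hx, one_div, one_div, inv_pow, inv_inv]
  have hx64 : x ^ 10 ≤ n := by
    have h1 : x ^ 10 * p ^ (10 * z) = 1 := by
      rw [mul_comm 10 z, pow_mul, ← mul_pow, hpzx]
      rw [mul_one_div_cancel hx0.ne', one_pow]
    have h2 : 0 < x ^ 10 := by positivity
    calc x ^ 10 = x ^ 10 * 1 := by ring
      _ ≤ x ^ 10 * (p ^ (10 * z) * n) := by gcongr
      _ = n := by rw [← mul_assoc, h1, one_mul]
  have h2x : (2 : ℝ) ^ z ≤ x := by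
    rw [hx]
    refine pow_le_pow_left₀ (by norm_num) ?_ _
    rw [le_div_iff₀ hp0]; linarith
  have hPz : 1 / x ≤ P0 ^ z := by
    rw [← hpzx]; exact pow_le_pow_left₀ hp0.le hpP0 _
  set m : ℕ := ⌈2 * x⌉₊ with hm
  have hm1 : 2 * x ≤ m := Nat.le_ceil _
  have hm2 : (m : ℝ) ≤ 3 * x := by
    have := Nat.ceil_lt_add_one (show 0 ≤ 2 * x by positivity)
    rw [← hm] at this
    linarith
  have hnum := num_bound hnR hx1 hx64
  have hAR : (Fintype.card A : ℝ) ≤ n / 64 := by
    have : (64 : ℝ) * Fintype.card A ≤ n := by exact_mod_cast hA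
    linarith
  have hVR : (n : ℝ) / 2 ≤ Fintype.card V := by
    have : (n : ℝ) ≤ 2 * Fintype.card V := by exact_mod_cast hV
    linarith
  -- domination
  have hdom : Dom S M P0 := by
    intro U hU
    have h := Half.half_dom_bernoulli S M w hw0.le (by
      intro Z
      rcases Z.eq_empty_or_nonempty with rfl | hZ
      · simp only [Finset.empty_subset, Finset.filter_true, Finset.card_univ, Finset.card_empty,
          pow_zero, mul_one]
        exact hAR
      · by_cases hZz : Z.card ≤ z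
        · refine (ht Z hZ hZz).trans ?_
          have hc : 1 ≤ Z.card := hZ.card_pos
          have h64 : (64 * K) ≤ (64 * K) ^ Z.card := by
            calc 64 * K = (64 * K) ^ 1 := by ring
              _ ≤ (64 * K) ^ Z.card := pow_le_pow_right₀ (by linarith) hc
          rw [hM, hw, mul_pow]
          have hpc : 0 ≤ p ^ Z.card := by positivity
          calc K * n * p ^ Z.card = n / 64 * ((64 * K) * p ^ Z.card) := by ring
            _ ≤ n / 64 * ((64 * K) ^ Z.card * p ^ Z.card) := by gcongr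
        · have h0 : (Finset.univ.filter fun v => Z ⊆ S v) = ∅ := by
            rw [Finset.filter_eq_empty_iff]
            intro v _ hv
            exact hZz ((Finset.card_le_card hv).trans (hz v))
          rw [h0]
          simp only [Finset.card_empty, Nat.cast_zero]
          positivity) U hU
    refine h.trans (le_of_eq ?_)
    congr 1
    unfold bernoulliProb
    rw [Finset.sum_filter]
    refine Finset.sum_congr rfl fun ω _ => ?_
    simp only [Set.mem_ofPred_eq]
    split_ifs <;> simp [hP0def]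
  -- size conditions
  have hbase : (Fintype.card A * 2 ^ z + 1 : ℝ) ≤ n ^ 2 := by
    have hxn : x ≤ n := by
      calc x = x ^ 1 := by ring
        _ ≤ x ^ 10 := pow_le_pow_right₀ hx1 (by norm_num)
        _ ≤ n := hx64
    calc (Fintype.card A * 2 ^ z + 1 : ℝ) ≤ n / 64 * n + 1 := by gcongr; exact h2x.trans hxn
      _ ≤ n ^ 2 := by nlinarith
  have hbase1 : (1 : ℝ) ≤ (n : ℝ) ^ 2 := by nlinarith
  have hlog0 : 0 ≤ Real.log n := Real.log_nonneg (by linarith)
  have hpow : (Fintype.card A * 2 ^ z + 1 : ℝ) ^ m ≤ Real.exp (6 * x * Real.log n) := by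
    calc (Fintype.card A * 2 ^ z + 1 : ℝ) ^ m ≤ ((n : ℝ) ^ 2) ^ m := by gcongr
      _ = Real.exp (2 * m * Real.log n) := by
          rw [← pow_mul, ← Real.exp_log hn0, ← Real.exp_nat_mul, Real.log_exp]
          push_cast; ring_nf
      _ ≤ Real.exp (6 * x * Real.log n) := by
          refine Real.exp_le_exp.2 (mul_le_mul_of_nonneg_right ?_ hlog0)
          linarith
  have hkey : Real.log 4 + 6 * x * Real.log n < n / (256 * x) := by
    rw [lt_div_iff₀ (by positivity)]
    linarith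
  have hlog4 : Real.exp (Real.log 4) = 4 := Real.exp_log (by norm_num)
  have hs1 : 2 * (Fintype.card A * 2 ^ z + 1 : ℝ) ^ m * Real.exp (-(M * P0 ^ z / 4)) < 1 := by
    have h1 : (n : ℝ) / (256 * x) ≤ M * P0 ^ z / 4 := by
      calc (n : ℝ) / (256 * x) = n / 64 * (1 / x) / 4 := by field_simp; ring
        _ ≤ n / 64 * P0 ^ z / 4 := by gcongr
    have h2 : 4 * Real.exp (6 * x * Real.log n) * Real.exp (-(M * P0 ^ z / 4)) < 1 := by
      calc 4 * Real.exp (6 * x * Real.log n) * Real.exp (-(M * P0 ^ z / 4))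
          = Real.exp (Real.log 4 + 6 * x * Real.log n + -(M * P0 ^ z / 4)) := by
            rw [Real.exp_add, Real.exp_add, hlog4]
        _ < 1 := by rw [Real.exp_lt_one_iff]; linarith
    have h3 : 0 < Real.exp (6 * x * Real.log n) * Real.exp (-(M * P0 ^ z / 4)) := by positivity
    calc 2 * (Fintype.card A * 2 ^ z + 1 : ℝ) ^ m * Real.exp (-(M * P0 ^ z / 4))
        ≤ 2 * Real.exp (6 * x * Real.log n) * Real.exp (-(M * P0 ^ z / 4)) := by gcongr
      _ ≤ 4 * Real.exp (6 * x * Real.log n) * Real.exp (-(M * P0 ^ z / 4)) := by nlinarith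
      _ < 1 := h2
  have hs2 : (Fintype.card A * 2 ^ z + 1 : ℝ) ^ m *
      Real.exp (-(Fintype.card V * P0 ^ z / 8)) ≤ 1 / 4 := by
    have h1 : (n : ℝ) / (256 * x) ≤ Fintype.card V * P0 ^ z / 8 := by
      calc (n : ℝ) / (256 * x) ≤ n / 2 * (1 / x) / 8 := by
            rw [div_le_iff₀ (by positivity)]
            have : (n : ℝ) / 2 * (1 / x) / 8 * (256 * x) = 16 * n := by field_simp; ring
            rw [this]; linarith
        _ ≤ Fintype.card V * P0 ^ z / 8 := by gcongr
    have h2 : 4 * Real.exp (6 * x * Real.log n) * Real.exp (-(Fintype.card V * P0 ^ z / 8)) ≤ 1 := by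
      calc 4 * Real.exp (6 * x * Real.log n) * Real.exp (-(Fintype.card V * P0 ^ z / 8))
          = Real.exp (Real.log 4 + 6 * x * Real.log n + -(Fintype.card V * P0 ^ z / 8)) := by
            rw [Real.exp_add, Real.exp_add, hlog4]
        _ ≤ 1 := by rw [Real.exp_le_one_iff]; linarith
    calc (Fintype.card A * 2 ^ z + 1 : ℝ) ^ m * Real.exp (-(Fintype.card V * P0 ^ z / 8))
        ≤ Real.exp (6 * x * Real.log n) * Real.exp (-(Fintype.card V * P0 ^ z / 8)) := by gcongr
      _ ≤ 1 / 4 := by linarith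
  have hVM : 8 * M ≤ Fintype.card V := by rw [hM]; linarith
  have hm2' : (2 : ℝ) ≤ m * P0 ^ z := by
    calc (2 : ℝ) = 2 * x * (1 / x) := by field_simp
      _ ≤ m * P0 ^ z := by gcongr
  have hM0 : 0 ≤ M := by positivity
  have hq0 : 0 ≤ 2 * P0 - P0 ^ 2 := by nlinarith
  have hqP : 2 * P0 - P0 ^ 2 ≤ P := by
    have h1 : P0 ≤ w := by
      rw [hP0def, div_le_iff₀ (by positivity)]; nlinarith
    have h2 : 128 * K * p = 2 * w := by rw [hw]; ring
    nlinarith [sq_nonneg P0]
  obtain ⟨c, hc⟩ := hub_core (V := V) S z m hz hP00 hP01 hM0 hdom hVM hm2' hs1 hs2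
  refine ⟨c, fun i => (hc i).trans ?_⟩
  refine Tr.prob_mono_p hq0 hqP hP1 _ ?_
  rintro ω ω' h ⟨g, hg, hgω⟩
  exact ⟨g, hg, fun v b hb hbi => h _ (hgω v b hb hbi)⟩

end Crest.Agent.R052.Hub
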