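import Crest.Agent.R052.Union
import Crest.Prelude.Def_FinProb
import Crest.Prelude.Def_RandomGraph
import Crest.Prelude.Def_CopyThreshold

/-!
# Row 52, S0073: Lemma X

If the up-closed family `F` has no integral cover of cost `≤ 1/2` at `q`, and every `A ∈ F`,
thinned with retention probability `θ`, lies in the up-set `U` with probability `≥ a`, then the
product measure with odds `θ/(1-θ) · K · q` gives `U` measure `> a/2` (`K = 25 · 512^4`).
-/

set_option autoImplicit false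

namespace Crest.Agent.R052.LemX

open Finset Crest.Agent.R052.Odds Crest.Agent.R052.Union

section abstract_part

variable {α : Type} [Fintype α] [DecidableEq α]

/-- the constant of S0071 -/
noncomputable def KK : ℝ := 25 * 512 ^ 4

theorem KK_pos : 0 < KK := by unfold KK; positivity

theorem one_le_KK : 1 ≤ KK := by unfold KK; norm_num

theorem lemX [Nonempty α] (F : Finset (Finset α)) (hne : F.Nonempty) (hempty : ∅ ∉ F)
    (hup : ∀ A ∈ F, ∀ B : Finset α, A ⊆ B → B ∈ F)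
    (q : ℝ) (hq0 : 0 < q) (hq1 : KK * q ≤ 1)
    (hno : ∀ G : Finset (Finset α), (∀ A ∈ F, ∃ S ∈ G, S ⊆ A) → 1 / 2 < ∑ S ∈ G, q ^ S.card)
    (θ : ℝ) (hθ0 : 0 < θ) (hθ1 : θ < 1)
    (U : Finset (Finset α)) (hU : ∀ A ∈ U, ∀ B : Finset α, A ⊆ B → B ∈ U)
    (a : ℝ) (ha : 0 < a)
    (hA : ∀ A ∈ F, a ≤ ∑ R ∈ U, mu (fun x => if x ∈ A then θ else 0) R)
    (ρ : ℝ) (hρ1 : ρ < 1) (hρ : ρ / (1 - ρ) = θ / (1 - θ) * (KK * q)) :
    a / 2 < ∑ R ∈ U, mu (fun _ => ρ) R := by
  classical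
  by_contra hcon
  push Not at hcon
  set c : Finset α → ℝ := fun S => phi (fun _ : α => ρ) U S ^ 2 with hc
  have hc0 : ∀ S, 0 ≤ c S := fun S => sq_nonneg _
  have hB0 : 0 < θ / (1 - θ) := div_pos hθ0 (by linarith)
  have hkey : ∀ A ∈ F, 1 ≤ ∑ S ∈ A.powerset, a⁻¹ * ((θ / (1 - θ)) ^ S.card * c S) := by
    intro A hAF
    have h3 := cert_odds (fun x => if x ∈ A then θ else 0) (fun _ : α => ρ)
      (fun x => by split_ifs <;> linarith) (fun x => by split_ifs <;> linarith) U hU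
    have h4 : ∑ S, (∏ x ∈ S, ((if x ∈ A then θ else 0) / (1 - (if x ∈ A then θ else 0)))) *
        phi (fun _ : α => ρ) U S ^ 2 = ∑ S ∈ A.powerset, (θ / (1 - θ)) ^ S.card * c S := by
      rw [← Finset.sum_subset (Finset.subset_univ A.powerset)]
      · refine Finset.sum_congr rfl fun S hS => ?_
        rw [mem_powerset] at hS
        congr 1
        rw [← Finset.prod_const]
        refine Finset.prod_congr rfl fun x hx => ?_
        rw [if_pos (hS hx)]
      · intro S _ hS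
        rw [mem_powerset] at hS
        obtain ⟨x, hxS, hxH⟩ := Finset.not_subset.mp hS
        rw [Finset.prod_eq_zero hxS, zero_mul]
        rw [if_neg hxH]; simp
    rw [h4] at h3
    have h5 := (hA A hAF).trans h3
    rw [← Finset.mul_sum]
    calc (1 : ℝ) = a⁻¹ * a := (inv_mul_cancel₀ ha.ne').symm
      _ ≤ _ := mul_le_mul_of_nonneg_left h5 (by positivity)
  set g : Finset α → ℝ := fun S => min 1 (a⁻¹ * ((θ / (1 - θ)) ^ S.card * c S)) with hg
  have hg0 : ∀ S, 0 ≤ g S ∧ g S ≤ 1 := by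
    intro S
    refine ⟨le_min zero_le_one ?_, min_le_left _ _⟩
    have := hc0 S
    positivity
  have hcov : ∀ A ∈ F, 1 ≤ ∑ S ∈ A.powerset, g S := by
    intro A hAF
    by_cases h1 : ∃ S ∈ A.powerset, 1 ≤ a⁻¹ * ((θ / (1 - θ)) ^ S.card * c S)
    · obtain ⟨S, hS, hS1⟩ := h1
      have h2 : g S = 1 := min_eq_left hS1
      rw [← h2]
      exact Finset.single_le_sum (f := g) (fun T _ => (hg0 T).1) hS
    · push Not at h1
      have h2 : ∑ S ∈ A.powerset, g S =
          ∑ S ∈ A.powerset, a⁻¹ * ((θ / (1 - θ)) ^ S.card * c S) :=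
        Finset.sum_congr rfl fun S hS => min_eq_right (h1 S hS).le
      rw [h2]
      exact hkey A hAF
  have hcost : ∑ S : Finset α, g S * (KK * q) ^ S.card ≤ 1 / 2 := by
    have h1 : ∑ S : Finset α, g S * (KK * q) ^ S.card ≤
        a⁻¹ * ∑ S, (∏ x ∈ S, (ρ / (1 - ρ))) * phi (fun _ : α => ρ) U S ^ 2 := by
      rw [Finset.mul_sum]
      refine Finset.sum_le_sum fun S _ => ?_
      have h2 : g S ≤ a⁻¹ * ((θ / (1 - θ)) ^ S.card * c S) := min_le_right _ _
      have h3 : (0 : ℝ) ≤ (KK * q) ^ S.card := by have := KK_pos; positivity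
      refine (mul_le_mul_of_nonneg_right h2 h3).trans (le_of_eq ?_)
      rw [hρ, Finset.prod_const, mul_pow (θ / (1 - θ)) (KK * q)]
      ring
    have h6 := cert_odds_eq (fun _ : α => ρ) (fun _ => hρ1) U
    refine h1.trans ?_
    have h7 : ∑ S, (∏ x ∈ S, (ρ / (1 - ρ))) * phi (fun _ : α => ρ) U S ^ 2 ≤ a / 2 := by
      refine le_trans (le_of_eq ?_) hcon
      exact h6
    calc a⁻¹ * ∑ S, (∏ x ∈ S, (ρ / (1 - ρ))) * phi (fun _ : α => ρ) U S ^ 2
        ≤ a⁻¹ * (a / 2) := mul_le_mul_of_nonneg_left h7 (by positivity)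
      _ = 1 / 2 := by field_simp
  obtain ⟨G, hG1, hG2⟩ := Crest.Agent.S0071.result α F hne hempty hup (KK * q)
    (by have := KK_pos; positivity) hq1 g hg0 hcov hcost
  have h8 : (KK * q) / (25 * 512 ^ 4) = q := by
    have : KK = 25 * 512 ^ 4 := rfl
    rw [this]; field_simp
  rw [h8] at hG2
  have := hno G hG1
  linarith

/-! ### Union of two independent random sets -/

theorem sum_sum_prod_ite (a b c d : α → ℝ) :
    ∑ S : Finset α, ∑ T : Finset α, ∏ x, (if x ∈ S then (if x ∈ T then a x else b x)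
      else (if x ∈ T then c x else d x)) = ∏ x, (a x + b x + (c x + d x)) := by
  have h1 : ∀ S : Finset α, ∑ T : Finset α, ∏ x, (if x ∈ S then (if x ∈ T then a x else b x)
      else (if x ∈ T then c x else d x)) = ∏ x, (if x ∈ S then (a x + b x) else (c x + d x)) := by
    intro S
    have h2 : ∀ T : Finset α, ∏ x, (if x ∈ S then (if x ∈ T then a x else b x)
      else (if x ∈ T then c x else d x)) =
      ∏ x, (if x ∈ T then (if x ∈ S then a x else c x) else (if x ∈ S then b x else d x)) := by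
      intro T
      refine Finset.prod_congr rfl fun x _ => ?_
      by_cases h3 : x ∈ S <;> by_cases h4 : x ∈ T <;> simp [h3, h4]
    rw [Finset.sum_congr rfl fun T _ => h2 T, sum_prod_ite]
    refine Finset.prod_congr rfl fun x _ => ?_
    by_cases h3 : x ∈ S <;> simp [h3]
  rw [Finset.sum_congr rfl fun S _ => h1 S, sum_prod_ite]

theorem mu_union (p q : α → ℝ) (R : Finset α) :
    mu (fun x => 1 - (1 - p x) * (1 - q x)) R =
      ∑ S : Finset α, ∑ T : Finset α, mu p S * mu q T * (if S ∪ T = R then 1 else 0) := by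
  have h1 : ∀ S T : Finset α, mu p S * mu q T * (if S ∪ T = R then (1 : ℝ) else 0) =
      ∏ x, (if x ∈ S then (if x ∈ T then p x * q x * (if x ∈ R then 1 else 0)
          else p x * (1 - q x) * (if x ∈ R then 1 else 0))
        else (if x ∈ T then (1 - p x) * q x * (if x ∈ R then 1 else 0)
          else (1 - p x) * (1 - q x) * (if x ∈ R then 0 else 1))) := by
    intro S T
    by_cases h : S ∪ T = R
    · rw [if_pos h, mul_one]
      unfold mu
      rw [← Finset.prod_mul_distrib]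
      refine Finset.prod_congr rfl fun x _ => ?_
      subst h
      by_cases h3 : x ∈ S <;> by_cases h4 : x ∈ T <;> simp [h3, h4]
    · rw [if_neg h, mul_zero]
      symm
      have : ∃ x, ¬ ((x ∈ S ∨ x ∈ T) ↔ x ∈ R) := by
        by_contra h2
        push Not at h2
        apply h
        ext x
        rw [mem_union]; exact h2 x
      obtain ⟨x, hx⟩ := this
      refine Finset.prod_eq_zero (mem_univ x) ?_
      by_cases h3 : x ∈ S <;> by_cases h4 : x ∈ T <;> by_cases h5 : x ∈ R <;>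
        simp [h3, h4, h5] at hx ⊢
  rw [Finset.sum_congr rfl fun S _ => Finset.sum_congr rfl fun T _ => h1 S T, sum_sum_prod_ite]
  unfold mu
  refine Finset.prod_congr rfl fun x _ => ?_
  by_cases h5 : x ∈ R
  · simp only [h5, if_true]; ring
  · simp only [h5, if_false]; ring

/-- a down-closed family: the union of two independent sets is in it with probability at most the
product -/
theorem down_union_le (p q : α → ℝ) (hp0 : ∀ x, 0 ≤ p x) (hp1 : ∀ x, p x ≤ 1)
    (hq0 : ∀ x, 0 ≤ q x) (hq1 : ∀ x, q x ≤ 1) (D : Finset (Finset α))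
    (hD : ∀ A ∈ D, ∀ B : Finset α, B ⊆ A → B ∈ D) :
    ∑ R ∈ D, mu (fun x => 1 - (1 - p x) * (1 - q x)) R ≤
      (∑ R ∈ D, mu p R) * ∑ R ∈ D, mu q R := by
  classical
  have h1 : ∑ R ∈ D, mu (fun x => 1 - (1 - p x) * (1 - q x)) R =
      ∑ S : Finset α, ∑ T : Finset α, mu p S * mu q T * (if S ∪ T ∈ D then 1 else 0) := by
    rw [Finset.sum_congr rfl fun R _ => mu_union p q R, Finset.sum_comm]
    refine Finset.sum_congr rfl fun S _ => ?_
    rw [Finset.sum_comm]
    refine Finset.sum_congr rfl fun T _ => ?_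
    rw [← Finset.mul_sum, Finset.sum_ite_eq D]
  have h2 : (∑ R ∈ D, mu p R) * ∑ R ∈ D, mu q R =
      ∑ S : Finset α, ∑ T : Finset α,
        mu p S * mu q T * ((if S ∈ D then 1 else 0) * (if T ∈ D then 1 else 0)) := by
    have h3 : ∀ r : α → ℝ, ∑ R ∈ D, mu r R = ∑ R, mu r R * (if R ∈ D then 1 else 0) := by
      intro r
      simp only [mul_ite, mul_one, mul_zero]
      rw [Finset.sum_ite_mem, Finset.univ_inter]
    rw [h3 p, h3 q, Finset.sum_mul_sum]
    refine Finset.sum_congr rfl fun S _ => Finset.sum_congr rfl fun T _ => ?_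
    ring
  rw [h1, h2]
  refine Finset.sum_le_sum fun S _ => Finset.sum_le_sum fun T _ => ?_
  refine mul_le_mul_of_nonneg_left ?_ (mul_nonneg (mu_nonneg p hp0 hp1 S) (mu_nonneg q hq0 hq1 T))
  by_cases h : S ∪ T ∈ D
  · rw [if_pos h, if_pos (hD _ h S subset_union_left), if_pos (hD _ h T subset_union_right)]
    norm_num
  · rw [if_neg h]
    split_ifs <;> norm_num

theorem compl_down (U : Finset (Finset α)) (hU : ∀ A ∈ U, ∀ B : Finset α, A ⊆ B → B ∈ U) :
    ∀ A ∈ Uᶜ, ∀ B : Finset α, B ⊆ A → B ∈ Uᶜ := by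
  intro A hA B hBA
  rw [mem_compl] at hA ⊢
  exact fun h => hA (hU B h A hBA)

theorem sum_compl_mu (p : α → ℝ) (U : Finset (Finset α)) :
    ∑ R ∈ Uᶜ, mu p R = 1 - ∑ R ∈ U, mu p R := by
  have := Finset.sum_add_sum_compl U (mu p)
  rw [sum_mu] at this
  linarith

theorem up_union (p q : α → ℝ) (hp0 : ∀ x, 0 ≤ p x) (hp1 : ∀ x, p x ≤ 1)
    (hq0 : ∀ x, 0 ≤ q x) (hq1 : ∀ x, q x ≤ 1) (U : Finset (Finset α))
    (hU : ∀ A ∈ U, ∀ B : Finset α, A ⊆ B → B ∈ U) :
    1 - ∑ R ∈ U, mu (fun x => 1 - (1 - p x) * (1 - q x)) R ≤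
      (1 - ∑ R ∈ U, mu p R) * (1 - ∑ R ∈ U, mu q R) := by
  have := down_union_le p q hp0 hp1 hq0 hq1 Uᶜ (compl_down U hU)
  rwa [sum_compl_mu, sum_compl_mu, sum_compl_mu] at this

theorem sum_mu_le_one (p : α → ℝ) (hp0 : ∀ x, 0 ≤ p x) (hp1 : ∀ x, p x ≤ 1)
    (U : Finset (Finset α)) : ∑ R ∈ U, mu p R ≤ 1 := by
  rw [← sum_mu p]
  exact Finset.sum_le_sum_of_subset_of_nonneg (Finset.subset_univ _) fun S _ _ =>
    mu_nonneg p hp0 hp1 S

/-- monotonicity in the density -/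
theorem mu_mono (p q : ℝ) (hp0 : 0 ≤ p) (hpq : p ≤ q) (hq1 : q ≤ 1)
    (U : Finset (Finset α)) (hU : ∀ A ∈ U, ∀ B : Finset α, A ⊆ B → B ∈ U) :
    ∑ R ∈ U, mu (fun _ : α => p) R ≤ ∑ R ∈ U, mu (fun _ : α => q) R := by
  rcases eq_or_lt_of_le (hpq.trans hq1) with h1 | h1
  · have : p = q := by linarith
    rw [this]
  · set r : ℝ := (q - p) / (1 - p) with hr
    have h2 : 0 < 1 - p := by linarith
    have hr0 : 0 ≤ r := div_nonneg (by linarith) h2.le
    have hr1 : r ≤ 1 := by rw [hr, div_le_one h2]; linarith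
    have h3 : 1 - (1 - p) * (1 - r) = q := by
      rw [hr]; field_simp; ring
    have h4 := up_union (fun _ : α => p) (fun _ : α => r) (fun _ => hp0)
      (fun _ => by linarith) (fun _ => hr0) (fun _ => hr1) U hU
    simp only [h3] at h4
    have h5 : ∑ R ∈ U, mu (fun _ : α => p) R ≤ 1 :=
      sum_mu_le_one _ (fun _ => hp0) (fun _ => by linarith) U
    have h6 : 0 ≤ ∑ R ∈ U, mu (fun _ : α => r) R :=
      Finset.sum_nonneg fun S _ => mu_nonneg _ (fun _ => hr0) (fun _ => hr1) S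
    nlinarith

/-- three independent rounds: from `1/4` to `1/2` -/
theorem triple (ρ : ℝ) (hρ0 : 0 ≤ ρ) (hρ1 : ρ ≤ 1) (U : Finset (Finset α))
    (hU : ∀ A ∈ U, ∀ B : Finset α, A ⊆ B → B ∈ U)
    (h : 1 / 4 ≤ ∑ R ∈ U, mu (fun _ : α => ρ) R) (s : ℝ) (hs : 3 * ρ ≤ s) (hs1 : s ≤ 1) :
    1 / 2 ≤ ∑ R ∈ U, mu (fun _ : α => s) R := by
  have h0 : 0 ≤ 1 - ρ := by linarith
  have h01 : 1 - ρ ≤ 1 := by linarith
  set σ : ℝ := 1 - (1 - ρ) * (1 - ρ) with hσ
  have hσ0 : 0 ≤ σ := by rw [hσ]; nlinarith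
  have hσ1 : σ ≤ 1 := by rw [hσ]; nlinarith
  have h1 : 1 - ∑ R ∈ U, mu (fun _ : α => σ) R ≤
      (1 - ∑ R ∈ U, mu (fun _ : α => ρ) R) * (1 - ∑ R ∈ U, mu (fun _ : α => ρ) R) :=
    up_union (fun _ : α => ρ) (fun _ : α => ρ) (fun _ => hρ0)
      (fun _ => hρ1) (fun _ => hρ0) (fun _ => hρ1) U hU
  set τ : ℝ := 1 - (1 - σ) * (1 - ρ) with hτ
  have h2 : 1 - ∑ R ∈ U, mu (fun _ : α => τ) R ≤
      (1 - ∑ R ∈ U, mu (fun _ : α => σ) R) * (1 - ∑ R ∈ U, mu (fun _ : α => ρ) R) :=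
    up_union (fun _ : α => σ) (fun _ : α => ρ) (fun _ => hσ0)
      (fun _ => hσ1) (fun _ => hρ0) (fun _ => hρ1) U hU
  have h3 : ∑ R ∈ U, mu (fun _ : α => ρ) R ≤ 1 :=
    sum_mu_le_one _ (fun _ => hρ0) (fun _ => hρ1) U
  have hτ0 : 0 ≤ τ := by rw [hτ]; nlinarith [mul_nonneg (sub_nonneg.mpr hσ1) h0]
  have hτs : τ ≤ s := by
    rw [hτ, hσ]
    nlinarith [mul_nonneg hρ0 hρ0, mul_nonneg hρ0 h0]
  have h4 := mu_mono τ s hτ0 hτs hs1 U hU
  refine le_trans ?_ h4
  set x := ∑ R ∈ U, mu (fun _ : α => ρ) R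
  set y := ∑ R ∈ U, mu (fun _ : α => σ) R
  set z := ∑ R ∈ U, mu (fun _ : α => τ) R
  have h5 : (1 - x) * (1 - x) ≤ 9 / 16 := by nlinarith
  have h6 : 1 - z ≤ (9 / 16) * (1 - x) :=
    h2.trans (mul_le_mul_of_nonneg_right (h1.trans h5) (by linarith))
  linarith

end abstract_part

end Crest.Agent.R052.LemX
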