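import Mathlib
import Crest.Prelude.Def_RandomGraph

/-!
Numerics of the LOW and SMALL classes of row 52 (S0073).
-/

set_option autoImplicit false

namespace Crest.Agent.R052.LowSmall

lemma exists_root (K : ℕ) (hK : K ≠ 0) (n : ℕ) : ∃ r : ℕ, r ^ K ≤ n ∧ n < (r + 1) ^ K := by
  classical
  have hex : ∃ r : ℕ, n < (r + 1) ^ K := by
    refine ⟨n, ?_⟩
    calc n < n + 1 := Nat.lt_succ_self n
      _ ≤ (n + 1) ^ K := Nat.le_self_pow hK _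
  refine ⟨Nat.find hex, ?_, Nat.find_spec hex⟩
  rcases Nat.eq_zero_or_pos (Nat.find hex) with h | h
  · rw [h, zero_pow hK]; exact Nat.zero_le _
  · obtain ⟨k, hk⟩ : ∃ k, Nat.find hex = k + 1 := ⟨Nat.find hex - 1, by omega⟩
    have := Nat.find_min hex (m := k) (by omega)
    rw [hk]
    exact not_lt.1 this

lemma exists_r0 (K : ℕ) : ∃ r0 : ℕ, 2 ≤ r0 ∧ ∀ r : ℕ, r0 ≤ r →
    ((r : ℝ) + 1) ^ K * Real.exp (-((r : ℝ) - 1)) ≤ 1 / 2 := by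
  have h1 := (Real.tendsto_pow_mul_exp_neg_atTop_nhds_zero K)
  have h2 : ∀ᶠ x : ℝ in Filter.atTop, x ^ K * Real.exp (-x) < Real.exp (-2) / 2 :=
    h1.eventually (gt_mem_nhds (by positivity))
  obtain ⟨x0, hx0⟩ := Filter.eventually_atTop.1 h2
  obtain ⟨m, hm⟩ := exists_nat_ge x0
  refine ⟨max 2 m, le_max_left _ _, fun r hr => ?_⟩
  have hr2 : (m : ℝ) ≤ r := by exact_mod_cast (le_max_right 2 m).trans hr
  have h3 := hx0 ((r : ℝ) + 1) (by linarith)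
  have e : Real.exp (-((r : ℝ) - 1)) = Real.exp (-((r : ℝ) + 1)) * Real.exp 2 := by
    rw [← Real.exp_add]; ring_nf
  have e2 : Real.exp (-2) * Real.exp 2 = 1 := by rw [← Real.exp_add]; simp
  rw [e]
  have h4 : 0 < Real.exp 2 := Real.exp_pos _
  have h5 := mul_le_mul_of_nonneg_right h3.le h4.le
  calc ((r : ℝ) + 1) ^ K * (Real.exp (-((r : ℝ) + 1)) * Real.exp 2)
      = ((r : ℝ) + 1) ^ K * Real.exp (-((r : ℝ) + 1)) * Real.exp 2 := by ring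
    _ ≤ Real.exp (-2) / 2 * Real.exp 2 := h5
    _ = (Real.exp (-2) * Real.exp 2) / 2 := by ring
    _ = 1 / 2 := by rw [e2]

lemma prob_bound (K : ℕ) {r0 : ℕ} (h0 : ∀ r : ℕ, r0 ≤ r →
    ((r : ℝ) + 1) ^ K * Real.exp (-((r : ℝ) - 1)) ≤ 1 / 2) (r u a : ℕ) (hr : r0 ≤ r)
    (q : ℝ) (hq : 1 / ((r : ℝ) + 1) ≤ q) (hq1 : q ≤ 1) (hu : (r : ℝ) ^ 2 - 1 ≤ u)
    (ha : a ≤ (r + 1) ^ K) : (a : ℝ) * (1 - q) ^ u ≤ 1 / 2 := by
  have hr1 : (0 : ℝ) < (r : ℝ) + 1 := by positivity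
  have h1 : (1 - q) ^ u ≤ Real.exp (-((r : ℝ) - 1)) := by
    calc (1 - q) ^ u ≤ (Real.exp (-q)) ^ u := by
          apply pow_le_pow_left₀ (by linarith)
          have := Real.add_one_le_exp (-q); linarith
      _ = Real.exp (-(u * q)) := by rw [← Real.exp_nat_mul]; ring_nf
      _ ≤ Real.exp (-((r : ℝ) - 1)) := by
          apply Real.exp_le_exp.2
          have h2 : (r : ℝ) - 1 = ((r : ℝ) ^ 2 - 1) * (1 / ((r : ℝ) + 1)) := by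
            field_simp; ring
          have h3 : (0 : ℝ) ≤ u := Nat.cast_nonneg _
          have h4 : ((r : ℝ) ^ 2 - 1) * (1 / ((r : ℝ) + 1)) ≤ u * (1 / ((r : ℝ) + 1)) :=
            mul_le_mul_of_nonneg_right hu (by positivity)
          have h5 : (u : ℝ) * (1 / ((r : ℝ) + 1)) ≤ u * q := mul_le_mul_of_nonneg_left hq h3
          linarith
  have ha' : (a : ℝ) ≤ ((r : ℝ) + 1) ^ K := by exact_mod_cast ha
  calc (a : ℝ) * (1 - q) ^ u ≤ ((r : ℝ) + 1) ^ K * Real.exp (-((r : ℝ) - 1)) :=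
        mul_le_mul ha' h1 (pow_nonneg (by linarith) _) (by positivity)
    _ ≤ 1 / 2 := h0 r hr

lemma q_bound (K : ℕ) (hK : K ≠ 0) (n r z : ℕ) (p : ℝ) (hp : 0 < p) (hn : n < (r + 1) ^ K)
    (h : 1 ≤ p ^ (K * z) * n) : 1 / ((r : ℝ) + 1) ≤ p ^ z := by
  by_contra hlt
  have hlt := not_le.1 hlt
  have hr1 : (0 : ℝ) < (r : ℝ) + 1 := by positivity
  have h1 : (p ^ z) ^ K < (1 / ((r : ℝ) + 1)) ^ K :=
    pow_lt_pow_left₀ hlt (by positivity) hK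
  have h2 : (n : ℝ) < ((r : ℝ) + 1) ^ K := by exact_mod_cast hn
  have h3 : p ^ (K * z) = (p ^ z) ^ K := by rw [← pow_mul, mul_comm]
  rw [h3] at h
  have h4 : (0 : ℝ) < (p ^ z) ^ K := by positivity
  have h5 : (p ^ z) ^ K * n < 1 := by
    calc (p ^ z) ^ K * n < (1 / ((r : ℝ) + 1)) ^ K * ((r : ℝ) + 1) ^ K :=
          mul_lt_mul'' h1 h2 (by positivity) (by positivity)
      _ = 1 := by rw [← mul_pow, one_div, inv_mul_cancel₀ hr1.ne', one_pow]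
  linarith

lemma z_bound (K : ℕ) (hK : K ≠ 0) (n r z : ℕ) (p : ℝ) (hp : 0 < p) (hp2 : p ≤ 1 / 2)
    (hn : n < (r + 1) ^ K) (h : 1 ≤ p ^ (K * z) * n) : z ≤ r := by
  have h1 := q_bound K hK n r z p hp hn h
  have hr1 : (0 : ℝ) < (r : ℝ) + 1 := by positivity
  have h2 : p ^ z ≤ (1 / 2) ^ z := pow_le_pow_left₀ hp.le hp2 z
  have h3 : (1 : ℝ) / ((r : ℝ) + 1) ≤ 1 / 2 ^ z := by
    rw [show (1 : ℝ) / 2 ^ z = (1 / 2) ^ z by rw [div_pow, one_pow]]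
    exact h1.trans h2
  have h4 : (2 : ℝ) ^ z ≤ (r : ℝ) + 1 := by
    rwa [one_div_le_one_div hr1 (by positivity)] at h3
  have h5 : (2 : ℕ) ^ z ≤ r + 1 := by exact_mod_cast h4
  have := Nat.lt_two_pow_self (n := z)
  omega

lemma D_bound (J : ℕ) (D n r : ℕ) (h : D ^ J ≤ n) (hn : n < (r + 1) ^ (4 * J)) :
    D ≤ (r + 1) ^ 4 := by
  by_contra hlt
  have hlt := not_le.1 hlt
  have h1 : ((r + 1) ^ 4) ^ J ≤ D ^ J := Nat.pow_le_pow_left hlt.le J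
  rw [← pow_mul] at h1
  omega

lemma low_size (K n r z D a : ℕ) (hK : 15 ≤ K) (hr : 2 ≤ r) (hrn : r ^ K ≤ n) (hz : z ≤ r)
    (hD : D ≤ (r + 1) ^ 4) (ha : 2 * a ≤ n) : a + (z * D + 1) * r ^ 2 ≤ n := by
  have h1 : z * D ≤ r * (r + 1) ^ 4 := Nat.mul_le_mul hz hD
  have h2 : z * D + 1 ≤ (r + 1) ^ 5 := by
    have : (r + 1) ^ 5 = r * (r + 1) ^ 4 + (r + 1) ^ 4 := by ring
    have h3 : 1 ≤ (r + 1) ^ 4 := Nat.one_le_pow _ _ (by omega)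
    omega
  have h4 : (z * D + 1) * r ^ 2 ≤ (r ^ 2) ^ 5 * r ^ 2 := by
    apply Nat.mul_le_mul_right
    apply h2.trans
    apply Nat.pow_le_pow_left
    nlinarith
  have h5 : 2 * ((r ^ 2) ^ 5 * r ^ 2) ≤ r ^ 15 := by
    have : r ^ 15 = (r ^ 2) ^ 5 * r ^ 2 * r ^ 3 := by ring
    rw [this]
    have h6 : 2 ≤ r ^ 3 := hr.trans (Nat.le_self_pow (by norm_num) r)
    calc 2 * ((r ^ 2) ^ 5 * r ^ 2) = (r ^ 2) ^ 5 * r ^ 2 * 2 := by ring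
      _ ≤ (r ^ 2) ^ 5 * r ^ 2 * r ^ 3 := Nat.mul_le_mul_left _ h6
  have h7 : r ^ 15 ≤ r ^ K := Nat.pow_le_pow_right (by omega) hK
  omega

lemma small_size (J n r a : ℕ) (hrn : r ^ (2 * (J + 1)) ≤ n) (ha : a ^ (J + 1) ≤ n ^ J) :
    a * r ^ 2 ≤ n := by
  by_contra hlt
  have hlt := not_le.1 hlt
  have h1 : n ^ (J + 1) < (a * r ^ 2) ^ (J + 1) := Nat.pow_lt_pow_left hlt (by omega)
  rw [mul_pow, ← pow_mul] at h1
  have h2 : a ^ (J + 1) * r ^ (2 * (J + 1)) ≤ n ^ J * n := Nat.mul_le_mul ha hrn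
  rw [← pow_succ] at h2
  omega

lemma low_num_aux (K J : ℕ) (hK : 15 ≤ K) (hKJ : K = 4 * J) : ∃ n0 : ℕ, ∀ n ≥ n0,
    ∀ (a z D : ℕ) (p : ℝ), 0 < p → p ≤ 1 / 2 → 2 * a ≤ n → 1 ≤ p ^ (K * z) * n →
    D ^ J ≤ n → ∃ u : ℕ, a + (z * D + 1) * u ≤ n ∧ (a : ℝ) * (1 - p ^ z) ^ u ≤ 1 / 2 := by
  obtain ⟨r0, hr02, hr0⟩ := exists_r0 K
  refine ⟨(r0 + 1) ^ K, fun n hn a z D p hp hp2 ha hz hD => ?_⟩
  have hK0 : K ≠ 0 := by omega
  obtain ⟨r, hr, hr'⟩ := exists_root K hK0 n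
  have hrr : r0 ≤ r := by
    by_contra hlt
    have hlt := not_le.1 hlt
    have : (r + 1) ^ K ≤ (r0 + 1) ^ K := Nat.pow_le_pow_left (by omega) K
    omega
  have hzr := z_bound K hK0 n r z p hp hp2 hr' hz
  have hq := q_bound K hK0 n r z p hp hr' hz
  have hDr : D ≤ (r + 1) ^ 4 := by
    apply D_bound J D n r hD
    rw [← hKJ]; exact hr'
  refine ⟨r ^ 2, low_size K n r z D a hK (hr02.trans hrr) hr hzr hDr ha, ?_⟩
  apply prob_bound K hr0 r (r ^ 2) a hrr _ hq (pow_le_one₀ hp.le (by linarith))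
  · push_cast; linarith
  · omega

lemma small_num_aux (K J : ℕ) (hKJ : K = 2 * (J + 1)) : ∃ n0 : ℕ, ∀ n ≥ n0,
    ∀ (a z : ℕ) (p : ℝ), 0 < p → p ≤ 1 / 2 → 1 ≤ p ^ (K * z) * n →
    a ^ (J + 1) ≤ n ^ J → ∃ u : ℕ, a + a * u ≤ n ∧ (a : ℝ) * (1 - p ^ z) ^ u ≤ 1 / 2 := by
  obtain ⟨r0, hr02, hr0⟩ := exists_r0 K
  refine ⟨(r0 + 1) ^ K, fun n hn a z p hp hp2 hz ha => ?_⟩
  have hK0 : K ≠ 0 := by omega
  obtain ⟨r, hr, hr'⟩ := exists_root K hK0 n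
  have hrr : r0 ≤ r := by
    by_contra hlt
    have hlt := not_le.1 hlt
    have : (r + 1) ^ K ≤ (r0 + 1) ^ K := Nat.pow_le_pow_left (by omega) K
    omega
  have hzr := z_bound K hK0 n r z p hp hp2 hr' hz
  have hq := q_bound K hK0 n r z p hp hr' hz
  have hsz : a * r ^ 2 ≤ n := by
    apply small_size J n r a _ ha
    rw [← hKJ]; exact hr
  have hr2 : 1 ≤ r ^ 2 := Nat.one_le_pow _ _ (by omega)
  refine ⟨r ^ 2 - 1, ?_, ?_⟩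
  · calc a + a * (r ^ 2 - 1) = a * (r ^ 2 - 1 + 1) := by ring
      _ = a * r ^ 2 := by rw [Nat.sub_add_cancel hr2]
      _ ≤ n := hsz
  · apply prob_bound K hr0 r (r ^ 2 - 1) a hrr _ hq (pow_le_one₀ hp.le (by linarith))
    · rw [Nat.cast_sub hr2]; push_cast; linarith
    · have : a ≤ a * r ^ 2 := Nat.le_mul_of_pos_right a (by omega)
      omega

theorem low_num : ∃ n0 : ℕ, ∀ n ≥ n0,
    ∀ (a z D : ℕ) (p : ℝ), 0 < p → p ≤ 1 / 2 → 2 * a ≤ n → 1 ≤ p ^ (64 * z) * n →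
    D ^ 16 ≤ n → ∃ u : ℕ, a + (z * D + 1) * u ≤ n ∧ (a : ℝ) * (1 - p ^ z) ^ u ≤ 1 / 2 :=
  low_num_aux 64 16 (by norm_num) (by norm_num)

theorem small_num : ∃ n0 : ℕ, ∀ n ≥ n0,
    ∀ (a z : ℕ) (p : ℝ), 0 < p → p ≤ 1 / 2 → 1 ≤ p ^ (64 * z) * n →
    a ^ 32 ≤ n ^ 31 → ∃ u : ℕ, a + a * u ≤ n ∧ (a : ℝ) * (1 - p ^ z) ^ u ≤ 1 / 2 :=
  small_num_aux 64 31 (by norm_num)

end Crest.Agent.R052.LowSmall
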