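import Crest.Prelude.Def_RandomGraph
import Crest.Agent.R052.LowSmallNum

/-!
Row 52, S0073: `Iface.low`, `Iface.small` from the sequential class lemmas of `R052/Seq.lean`
(given here as hypotheses `LowClass`, `SmallClass`, their exact statements).
-/

set_option autoImplicit false

open Crest.CombinatoricsR.RandomGraph

namespace Crest.Agent.R052.LowSmall

/-- statement of `Seq.low_class` -/
def LowClass : Prop := ∀ (W : Type) [Fintype W] [DecidableEq W]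
  (n : ℕ) (P : ℝ) (_ : 0 ≤ P) (_ : P ≤ 1) (F : SimpleGraph W) (_ : Fintype.card W ≤ n)
  (ord : W → ℕ) (_ : Function.Injective ord) (A : Finset W) (_ : ∀ u v, F.Adj u v → u ∈ A)
  (z D u₀ : ℕ)
  (_ : ∀ v, Set.ncard {u | F.Adj v u ∧ ord u < ord v} ≤ z)
  (_ : ∀ u, Set.ncard {v | F.Adj v u ∧ ord u < ord v} ≤ D)
  (_ : A.card + (z * D + 1) * u₀ ≤ n)
  (_ : (A.card : ℝ) * (1 - P ^ z) ^ u₀ ≤ 1 / 2),
  1 / 2 ≤ gnpProb n P {G | F.IsContained G}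

/-- statement of `Seq.small_class` -/
def SmallClass : Prop := ∀ (W : Type) [Fintype W] [DecidableEq W]
  (n : ℕ) (P : ℝ) (_ : 0 ≤ P) (_ : P ≤ 1) (F : SimpleGraph W) (_ : Fintype.card W ≤ n)
  (ord : W → ℕ) (_ : Function.Injective ord) (A : Finset W) (_ : ∀ u v, F.Adj u v → u ∈ A)
  (z u₀ : ℕ)
  (_ : ∀ v, Set.ncard {u | F.Adj v u ∧ ord u < ord v} ≤ z)
  (_ : A.card + A.card * u₀ ≤ n)
  (_ : (A.card : ℝ) * (1 - P ^ z) ^ u₀ ≤ 1 / 2),
  1 / 2 ≤ gnpProb n P {G | F.IsContained G}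

theorem low_of (hlc : LowClass) : ∃ n0 : ℕ, ∀ n ≥ n0, ∀ (W : Type) [Fintype W] [DecidableEq W]
    (F : SimpleGraph W) (ord : W → ℕ) (A : Finset W) (p : ℝ) (z D : ℕ),
    Fintype.card W ≤ n → 0 < p → p ≤ 1 / 2 → Function.Injective ord →
    (∀ u v, F.Adj u v → u ∈ A) → 2 * A.card ≤ n → 1 ≤ p ^ (64 * z) * n → D ^ 16 ≤ n →
    (∀ v, Set.ncard {u | F.Adj v u ∧ ord u < ord v} ≤ z) →
    (∀ u, Set.ncard {v | F.Adj v u ∧ ord u < ord v} ≤ D) →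
    1 / 2 ≤ gnpProb n p {G | F.IsContained G} := by
  obtain ⟨n0, h⟩ := low_num
  refine ⟨n0, fun n hn W _ _ F ord A p z D hW hp hp2 hord hA ha hz hD h1 h2 => ?_⟩
  obtain ⟨u, hu1, hu2⟩ := h n hn A.card z D p hp hp2 ha hz hD
  exact hlc W n p hp.le (by linarith) F hW ord hord A hA z D u h1 h2 hu1 hu2

theorem small_of (hsc : SmallClass) :
    ∃ n0 : ℕ, ∀ n ≥ n0, ∀ (W : Type) [Fintype W] [DecidableEq W]
    (F : SimpleGraph W) (ord : W → ℕ) (A : Finset W) (p : ℝ) (z : ℕ),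
    Fintype.card W ≤ n → 0 < p → p ≤ 1 / 2 → Function.Injective ord →
    (∀ u v, F.Adj u v → u ∈ A) → A.card ^ 32 ≤ n ^ 31 → 1 ≤ p ^ (64 * z) * n →
    (∀ v, Set.ncard {u | F.Adj v u ∧ ord u < ord v} ≤ z) →
    1 / 2 ≤ gnpProb n p {G | F.IsContained G} := by
  obtain ⟨n0, h⟩ := small_num
  refine ⟨n0, fun n hn W _ _ F ord A p z hW hp hp2 hord hA ha hz h1 => ?_⟩
  obtain ⟨u, hu1, hu2⟩ := h n hn A.card z p hp hp2 hz ha
  exact hsc W n p hp.le (by linarith) F hW ord hord A hA z u h1 hu1 hu2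

end Crest.Agent.R052.LowSmall
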