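import Mathlib
import Crest.Prelude.Def_CopyThreshold
import Crest.Agent.R052.SeqProb

/-!
# Row 52, S0073: sequential embedding with fresh slots (LOW and SMALL classes)
-/

set_option autoImplicit false
set_option linter.unusedSectionVars false

open Finset
open Crest.FinProb Crest.CombinatoricsR.RandomGraph

namespace Crest.Agent.R052.Seq

section Emb

variable {n : ℕ} {W : Type} [DecidableEq W]

theorem adj_iff (ω : EdgeSlot n → Bool) (a b : Fin n) :
    (graphOf ω).Adj a b ↔ a ≠ b ∧ ∃ h : ¬ (s(a, b) : Sym2 (Fin n)).IsDiag, ω ⟨s(a, b), h⟩ = true := by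
  unfold graphOf
  rw [SimpleGraph.fromEdgeSet_adj]
  simp only [Set.mem_ofPred_eq, ne_eq]
  tauto

/-- the embedding of the list `l`, given that `done` is already placed by `φ` -/
def Emb (U : W → Finset (Fin n)) (S : W → Finset W) :
    List W → Finset W → (W → Fin n) → (EdgeSlot n → Bool) → Prop
  | [], _, _, _ => True
  | v :: l, done, φ, ω => ∃ x ∈ U v, x ∉ done.image φ ∧ (∀ u ∈ S v, (graphOf ω).Adj x (φ u)) ∧
      Emb U S l (insert v done) (Function.update φ v x) ω

/-- the list is processed in an admissible order -/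
def Good (S : W → Finset W) : List W → Finset W → Prop
  | [], _ => True
  | v :: l, done => v ∉ done ∧ S v ⊆ done ∧ Good S l (insert v done)

theorem update_eq_of_mem {φ : W → Fin n} {done : Finset W} {v : W} (hv : v ∉ done) (x : Fin n)
    {u : W} (hu : u ∈ done) : Function.update φ v x u = φ u := by
  rw [Function.update_of_ne]
  rintro rfl
  exact hv hu

theorem image_update {φ : W → Fin n} {done : Finset W} {v : W} (hv : v ∉ done) (x : Fin n) :
    (insert v done).image (Function.update φ v x) = insert x (done.image φ) := by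
  rw [Finset.image_insert, Function.update_self]
  congr 1
  exact Finset.image_congr fun u hu => update_eq_of_mem hv x hu

/-- the coins that matter -/
def Dep (U : W → Finset (Fin n)) (S : W → Finset W) (l : List W) (done : Finset W)
    (φ : W → Fin n) (e : EdgeSlot n) : Prop :=
  ∃ x y : Fin n, e.1 = s(x, y) ∧ x ∉ done.image φ ∧
    (y ∉ done.image φ ∨ ∃ v ∈ l, x ∈ U v ∧ ∃ u ∈ S v, u ∈ done ∧ y = φ u)

theorem Emb_congr (U : W → Finset (Fin n)) (S : W → Finset W) (l : List W) :
    ∀ (done : Finset W) (φ : W → Fin n), Good S l done → ∀ ω ω' : EdgeSlot n → Bool,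
      (∀ e, Dep U S l done φ e → ω e = ω' e) → Emb U S l done φ ω → Emb U S l done φ ω' := by
  induction l with
  | nil => intro done φ _ ω ω' _ _; trivial
  | cons v l ih =>
    rintro done φ ⟨hv, hS, hG⟩ ω ω' h ⟨x, hxU, hx, hadj, hE⟩
    refine ⟨x, hxU, hx, ?_, ?_⟩
    · intro u hu
      have h1 := (adj_iff ω x (φ u)).1 (hadj u hu)
      obtain ⟨hne, hd, hω⟩ := h1
      refine (adj_iff ω' x (φ u)).2 ⟨hne, hd, ?_⟩
      rw [← h _ ⟨x, φ u, rfl, hx, Or.inr ⟨v, List.mem_cons_self, hxU, u, hu, hS hu, rfl⟩⟩]
      exact hω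
    · refine ih (insert v done) (Function.update φ v x) hG ω ω' ?_ hE
      rintro e ⟨a, b, hab, ha, hb⟩
      rw [image_update hv] at ha hb
      rw [Finset.mem_insert, not_or] at ha
      refine h e ⟨a, b, hab, ha.2, ?_⟩
      rcases hb with hb | ⟨v', hv', haU, u, hu, hud, hbu⟩
      · rw [Finset.mem_insert, not_or] at hb
        exact Or.inl hb.2
      · rw [Finset.mem_insert] at hud
        rcases hud with rfl | hud
        · rw [Function.update_self] at hbu
          left; rw [hbu]; exact hx
        · rw [update_eq_of_mem hv x hud] at hbu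
          exact Or.inr ⟨v', List.mem_cons_of_mem _ hv', haU, u, hu, hud, hbu⟩

/-- slots between `x` and `T` -/
def grp (T : Finset (Fin n)) (x : Fin n) : Finset (EdgeSlot n) :=
  univ.filter fun e => ∃ y ∈ T, e.1 = s(x, y)

theorem grp_card (T : Finset (Fin n)) (x : Fin n) : (grp T x).card ≤ T.card := by
  classical
  have h1 : (grp T x).image (fun e : EdgeSlot n => e.1) ⊆ T.image (fun y => s(x, y)) := by
    intro z hz
    rw [Finset.mem_image] at hz ⊢
    obtain ⟨e, he, rfl⟩ := hz
    obtain ⟨y, hy, hey⟩ := (Finset.mem_filter.1 he).2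
    exact ⟨y, hy, hey.symm⟩
  calc (grp T x).card = ((grp T x).image (fun e : EdgeSlot n => e.1)).card :=
        (Finset.card_image_of_injective _ Subtype.val_injective).symm
    _ ≤ (T.image (fun y => s(x, y))).card := Finset.card_le_card h1
    _ ≤ T.card := Finset.card_image_le

theorem grp_disjoint {T : Finset (Fin n)} {x x' : Fin n} (hx : x ∉ T) (hne : x ≠ x') :
    Disjoint (grp T x) (grp T x') := by
  rw [Finset.disjoint_left]
  intro e he he'
  obtain ⟨y, hy, hey⟩ := (Finset.mem_filter.1 he).2
  obtain ⟨y', hy', hey'⟩ := (Finset.mem_filter.1 he').2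
  rw [hey, Sym2.eq_iff] at hey'
  rcases hey' with ⟨h, _⟩ | ⟨h, _⟩
  · exact hne h
  · exact hx (h ▸ hy')

theorem grp_open {T : Finset (Fin n)} {x : Fin n} (hx : x ∉ T) (ω : EdgeSlot n → Bool) :
    (∀ e ∈ grp T x, ω e = true) ↔ ∀ y ∈ T, (graphOf ω).Adj x y := by
  constructor
  · intro h y hy
    have hne : x ≠ y := fun e => hx (e ▸ hy)
    have hd : ¬ (s(x, y) : Sym2 (Fin n)).IsDiag := by
      rw [Sym2.mk_isDiag_iff]; exact hne
    exact (adj_iff ω x y).2 ⟨hne, hd, h _ (Finset.mem_filter.2 ⟨Finset.mem_univ _, y, hy, rfl⟩)⟩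
  · intro h e he
    obtain ⟨y, hy, hey⟩ := (Finset.mem_filter.1 he).2
    obtain ⟨_, hd, hω⟩ := (adj_iff ω x y).1 (h y hy)
    have : e = ⟨s(x, y), hd⟩ := Subtype.ext hey
    rw [this]; exact hω

variable {P : ℝ}

theorem Pr_Emb (hP0 : 0 ≤ P) (hP1 : P ≤ 1) (U : W → Finset (Fin n)) (S : W → Finset W)
    (z u₀ : ℕ) (A : Finset W) (hz : ∀ v ∈ A, (S v).card ≤ z)
    (hconf : ∀ v ∈ A, ∀ v' ∈ A, v ≠ v' → (∃ u, u ∈ S v ∧ u ∈ S v') → Disjoint (U v) (U v'))
    (hU : ∀ v ∈ A, (A.filter fun w => w ≠ v ∧ ¬ Disjoint (U w) (U v)).card + u₀ ≤ (U v).card)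
    (l : List W) :
    ∀ (done : Finset W) (φ : W → Fin n), Good S l done → (∀ v ∈ l, v ∈ A) → done ⊆ A →
      l.Nodup → (∀ v ∈ l, v ∉ done) →
      Set.InjOn φ done → (∀ w ∈ done, φ w ∈ U w) →
      1 - l.length * (1 - P ^ z) ^ u₀ ≤ Pr P (Emb U S l done φ) := by
  classical
  have hpz : 0 ≤ 1 - P ^ z := by
    have := pow_le_one₀ hP0 hP1 (n := z); linarith
  have hpz1 : 1 - P ^ z ≤ 1 := by
    have := pow_nonneg hP0 z; linarith
  have hη : 0 ≤ (1 - P ^ z) ^ u₀ := pow_nonneg hpz _
  induction l with
  | nil =>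
    intro done φ _ _ _ _ _ _ _
    have : Emb U S [] done φ = fun _ => True := by funext ω; rfl
    rw [this, Pr_true]; simp
  | cons v l ih =>
    rintro done φ ⟨hv, hS, hG⟩ hlA hdA hnd hdis hinj hUφ
    have hvA : v ∈ A := hlA v List.mem_cons_self
    set η := (1 - P ^ z) ^ u₀ with hηdef
    by_cases hneg : 1 - (l.length : ℝ) * η ≤ 0
    · have h1 := Pr_nonneg hP0 hP1 (Emb U S (v :: l) done φ)
      have : 1 - ((v :: l).length : ℝ) * η ≤ 0 := by
        rw [List.length_cons]; push_cast
        nlinarith
      linarith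
    push Not at hneg
    -- candidates
    set C : Finset (Fin n) := (U v) \ (done.image φ) with hC
    have hCcard : u₀ ≤ C.card := by
      have h1 : (U v ∩ done.image φ).card ≤
          (A.filter fun w => w ≠ v ∧ ¬ Disjoint (U w) (U v)).card := by
        have h2 : U v ∩ done.image φ ⊆
            (A.filter fun w => w ≠ v ∧ ¬ Disjoint (U w) (U v)).image φ := by
          intro y hy
          rw [Finset.mem_inter, Finset.mem_image] at hy
          obtain ⟨hyU, w, hw, rfl⟩ := hy
          refine Finset.mem_image.2 ⟨w, Finset.mem_filter.2 ⟨hdA hw, ?_, ?_⟩, rfl⟩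
          · rintro rfl; exact hv hw
          · rw [Finset.not_disjoint_iff]
            exact ⟨φ w, hUφ w hw, hyU⟩
        exact (Finset.card_le_card h2).trans Finset.card_image_le
      have h3 : C.card + (U v ∩ done.image φ).card = (U v).card :=
        Finset.card_sdiff_add_card_inter (U v) (done.image φ)
      have h4 := hU v hvA
      omega
    set T : Finset (Fin n) := (S v).image φ with hT
    have hTdone : T ⊆ done.image φ := Finset.image_subset_image hS
    have hCT : ∀ x ∈ C, x ∉ T := fun x hx hxT => (Finset.mem_sdiff.1 hx).2 (hTdone hxT)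
    have hTz : T.card ≤ z := Finset.card_image_le.trans (hz v hvA)
    -- events
    let Op : Fin n → (EdgeSlot n → Bool) → Prop := fun x ω => ∀ e ∈ grp T x, ω e = true
    let Fst : Fin n → (EdgeSlot n → Bool) → Prop := fun x ω =>
      Op x ω ∧ ∀ y ∈ C, y < x → ¬ Op y ω
    let B : Fin n → (EdgeSlot n → Bool) → Prop := fun x =>
      Emb U S l (insert v done) (Function.update φ v x)
    let Q : EdgeSlot n → Prop := fun e => ∃ x ∈ C, e ∈ grp T x
    -- independence
    have hB : ∀ x ∈ C, Pr P (fun ω => Fst x ω ∧ B x ω) = Pr P (Fst x) * Pr P (B x) := by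
      intro x hx
      obtain ⟨hxU, hxd⟩ := Finset.mem_sdiff.1 hx
      refine Pr_and P Q (Fst x) (B x) ?_ ?_
      · intro ω ω' h
        have hop : ∀ y ∈ C, (Op y ω ↔ Op y ω') := by
          intro y hy
          refine forall₂_congr fun e he => ?_
          rw [h e ⟨y, hy, he⟩]
        refine and_congr (hop x hx) (forall₂_congr fun y hy => ?_)
        rw [hop y hy]
      · have hone : ∀ ω ω' : EdgeSlot n → Bool, (∀ i, ¬ Q i → ω i = ω' i) → B x ω → B x ω' := by
          intro ω ω' h hb
          refine Emb_congr U S l (insert v done) (Function.update φ v x) hG ω ω' ?_ hb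
          rintro e ⟨a, b, hab, ha, hb'⟩
          refine h e ?_
          rintro ⟨x', hx', he⟩
          obtain ⟨hx'U, hx'd⟩ := Finset.mem_sdiff.1 hx'
          obtain ⟨y', hy', hey'⟩ := (Finset.mem_filter.1 he).2
          rw [image_update hv] at ha hb'
          rw [Finset.mem_insert, not_or] at ha
          rw [hab, Sym2.eq_iff] at hey'
          have hy'd : y' ∈ done.image φ := hTdone hy'
          rcases hey' with ⟨hax, hby⟩ | ⟨hay, _⟩
          · rcases hb' with hb' | ⟨v', hv', haU, u, hu, hud, hbu⟩
            · apply hb'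
              rw [Finset.mem_insert]; right; rw [hby]; exact hy'd
            · obtain ⟨u', hu', hyu'⟩ := Finset.mem_image.1 hy'
              rw [Finset.mem_insert] at hud
              rcases hud with rfl | hud
              · rw [Function.update_self] at hbu
                apply hxd
                rw [← hbu, hby]; exact hy'd
              · rw [update_eq_of_mem hv x hud] at hbu
                have huu : u = u' := by
                  apply hinj hud (hS hu')
                  rw [← hbu, hby, hyu']
                subst huu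
                have hvv' : v ≠ v' := by
                  rintro rfl
                  exact (List.nodup_cons.1 hnd).1 hv'
                have := hconf v hvA v' (hlA v' (List.mem_cons_of_mem _ hv')) hvv' ⟨u, hu', hu⟩
                rw [Finset.disjoint_left] at this
                exact this hx'U (hax ▸ haU)
          · exact ha.2 (hay ▸ hy'd)
        intro ω ω' h
        exact ⟨hone ω ω' h, hone ω' ω fun i hi => (h i hi).symm⟩
    -- the induction hypothesis
    have hih : ∀ x ∈ C, 1 - (l.length : ℝ) * η ≤ Pr P (B x) := by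
      intro x hx
      obtain ⟨hxU, hxd⟩ := Finset.mem_sdiff.1 hx
      refine ih (insert v done) (Function.update φ v x) hG
        (fun w hw => hlA w (List.mem_cons_of_mem _ hw)) ?_ (List.nodup_cons.1 hnd).2 ?_ ?_ ?_
      · intro w hw
        rcases Finset.mem_insert.1 hw with rfl | hw
        · exact hvA
        · exact hdA hw
      · intro w hw hw'
        rcases Finset.mem_insert.1 hw' with rfl | hw'
        · exact (List.nodup_cons.1 hnd).1 hw
        · exact hdis w (List.mem_cons_of_mem _ hw) hw'
      · intro a ha b hb hab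
        rw [Finset.coe_insert, Set.mem_insert_iff, Finset.mem_coe] at ha hb
        rcases ha with rfl | ha
        · rcases hb with rfl | hb
          · rfl
          · rw [Function.update_self, update_eq_of_mem hv x hb] at hab
            exact absurd (hab ▸ Finset.mem_image_of_mem φ hb) hxd
        · rcases hb with rfl | hb
          · rw [Function.update_self, update_eq_of_mem hv x ha] at hab
            exact absurd (hab ▸ Finset.mem_image_of_mem φ ha) hxd
          · rw [update_eq_of_mem hv x ha, update_eq_of_mem hv x hb] at hab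
            exact hinj ha hb hab
      · intro w hw
        rcases Finset.mem_insert.1 hw with rfl | hw
        · rw [Function.update_self]; exact hxU
        · rw [update_eq_of_mem hv x hw]; exact hUφ w hw
    -- sum of the disjoint events
    have hsum : ∑ x ∈ C, Pr P (fun ω => Fst x ω ∧ B x ω) ≤ Pr P (Emb U S (v :: l) done φ) := by
      unfold Pr
      rw [← Ex_sum]
      refine Ex_mono hP0 hP1 fun ω => ?_
      by_cases hex : ∃ x ∈ C, Fst x ω ∧ B x ω
      · obtain ⟨x, hx, hF, hBx⟩ := hex
        have hemb : Emb U S (v :: l) done φ ω := by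
          obtain ⟨hxU, hxd⟩ := Finset.mem_sdiff.1 hx
          refine ⟨x, hxU, hxd, ?_, hBx⟩
          intro u hu
          exact (grp_open (hCT x hx) ω).1 hF.1 (φ u) (Finset.mem_image_of_mem φ hu)
        have h1 : ∑ y ∈ C, ind (fun ω => Fst y ω ∧ B y ω) ω
            = ind (fun ω => Fst x ω ∧ B x ω) ω := by
          refine Finset.sum_eq_single x ?_ (fun h => absurd hx h)
          intro y hy hyx
          unfold ind
          rw [if_neg]
          rintro ⟨hFy, _⟩
          rcases lt_or_gt_of_ne hyx with hlt | hlt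
          · exact hF.2 y hy hlt hFy.1
          · exact hFy.2 x hx hlt hF.1
        rw [h1]
        exact ind_mono ω fun _ => hemb
      · have h1 : ∑ y ∈ C, ind (fun ω => Fst y ω ∧ B y ω) ω = 0 := by
          refine Finset.sum_eq_zero fun y hy => ?_
          unfold ind
          rw [if_neg]
          exact fun h => hex ⟨y, hy, h⟩
        rw [h1]; exact ind_nonneg _ _
    have hfst : 1 - η ≤ ∑ x ∈ C, Pr P (Fst x) := by
      have h1 : Pr P (fun ω => ¬ ∀ x ∈ C, ¬ ∀ e ∈ grp T x, ω e = true) ≤ ∑ x ∈ C, Pr P (Fst x) := by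
        unfold Pr
        rw [← Ex_sum]
        refine Ex_mono hP0 hP1 fun ω => ?_
        by_cases hex : ∀ x ∈ C, ¬ ∀ e ∈ grp T x, ω e = true
        · unfold ind
          rw [if_neg (not_not.2 hex)]
          exact Finset.sum_nonneg fun y _ => by split_ifs <;> norm_num
        · have hne : (C.filter fun x => Op x ω).Nonempty := by
            push Not at hex
            obtain ⟨x, hx, h⟩ := hex
            exact ⟨x, Finset.mem_filter.2 ⟨hx, h⟩⟩
          set m := (C.filter fun x => Op x ω).min' hne with hm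
          have hmem := Finset.min'_mem _ hne
          rw [← hm] at hmem
          obtain ⟨hmC, hmO⟩ := Finset.mem_filter.1 hmem
          have hF : Fst m ω := by
            refine ⟨hmO, fun y hy hlt hO => ?_⟩
            have := Finset.min'_le (C.filter fun x => Op x ω) y (Finset.mem_filter.2 ⟨hy, hO⟩)
            rw [← hm] at this
            exact absurd hlt (not_lt.2 this)
          have h2 : ind (Fst m) ω ≤ ∑ x ∈ C, ind (Fst x) ω :=
            Finset.single_le_sum (f := fun x => ind (Fst x) ω) (fun y _ => ind_nonneg _ _) hmC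
          refine le_trans ?_ h2
          unfold ind
          rw [if_pos hF]
          split_ifs <;> norm_num
      rw [Pr_not] at h1
      have h2 := Pr_noopen hP0 hP1 C (fun x => grp T x) z
        (fun x _ => (grp_card T x).trans hTz)
        (fun x hx x' _ hne => grp_disjoint (hCT x hx) hne)
      have h3 : (1 - P ^ z) ^ C.card ≤ η := pow_le_pow_of_le_one hpz hpz1 hCcard
      linarith
    calc 1 - ((v :: l).length : ℝ) * η ≤ (1 - η) * (1 - (l.length : ℝ) * η) := by
          rw [List.length_cons]; push_cast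
          have : 0 ≤ η * (l.length * η) := mul_nonneg hη (mul_nonneg (Nat.cast_nonneg _) hη)
          nlinarith
      _ ≤ (∑ x ∈ C, Pr P (Fst x)) * (1 - (l.length : ℝ) * η) :=
          mul_le_mul_of_nonneg_right hfst hneg.le
      _ = ∑ x ∈ C, Pr P (Fst x) * (1 - (l.length : ℝ) * η) := Finset.sum_mul _ _ _
      _ ≤ ∑ x ∈ C, Pr P (Fst x) * Pr P (B x) :=
          Finset.sum_le_sum fun x hx => mul_le_mul_of_nonneg_left (hih x hx)
            (Pr_nonneg hP0 hP1 _)
      _ = ∑ x ∈ C, Pr P (fun ω => Fst x ω ∧ B x ω) :=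
          Finset.sum_congr rfl fun x hx => (hB x hx).symm
      _ ≤ _ := hsum

/-- extraction of the embedding -/
theorem Emb_extract (U : W → Finset (Fin n)) (S : W → Finset W) (ω : EdgeSlot n → Bool)
    (l : List W) : ∀ (done : Finset W) (φ : W → Fin n), Good S l done → Set.InjOn φ done →
      Emb U S l done φ ω →
      ∃ ψ : W → Fin n, (∀ w ∈ done, ψ w = φ w) ∧ Set.InjOn ψ (done ∪ l.toFinset) ∧
        ∀ v ∈ l, ∀ u ∈ S v, (graphOf ω).Adj (ψ v) (ψ u) := by
  induction l with
  | nil =>
    intro done φ _ hinj _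
    exact ⟨φ, fun _ _ => rfl, by simpa using hinj, by simp⟩
  | cons v l ih =>
    rintro done φ ⟨hv, hS, hG⟩ hinj ⟨x, hxU, hx, hadj, hE⟩
    have hinj' : Set.InjOn (Function.update φ v x) (insert v done : Finset W) := by
      intro a ha b hb hab
      rw [Finset.coe_insert, Set.mem_insert_iff, Finset.mem_coe] at ha hb
      rcases ha with rfl | ha
      · rcases hb with rfl | hb
        · rfl
        · rw [Function.update_self, update_eq_of_mem hv x hb] at hab
          exact absurd (hab ▸ Finset.mem_image_of_mem φ hb) hx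
      · rcases hb with rfl | hb
        · rw [Function.update_self, update_eq_of_mem hv x ha] at hab
          exact absurd (hab ▸ Finset.mem_image_of_mem φ ha) hx
        · rw [update_eq_of_mem hv x ha, update_eq_of_mem hv x hb] at hab
          exact hinj ha hb hab
    obtain ⟨ψ, h1, h2, h3⟩ := ih (insert v done) (Function.update φ v x) hG hinj' hE
    refine ⟨ψ, ?_, ?_, ?_⟩
    · intro w hw
      rw [h1 w (Finset.mem_insert_of_mem hw), update_eq_of_mem hv x hw]
    · refine h2.mono ?_
      intro w hw
      simp only [List.coe_toFinset, Set.mem_union, Finset.mem_coe,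
        Set.mem_ofPred_eq, List.mem_cons, Finset.coe_insert, Set.mem_insert_iff] at hw ⊢
      tauto
    · intro w hw u hu
      rw [List.mem_cons] at hw
      rcases hw with rfl | hw
      · have e1 : ψ w = x := by
          rw [h1 w (Finset.mem_insert_self w done), Function.update_self]
        have e2 : ψ u = φ u := by
          rw [h1 u (Finset.mem_insert_of_mem (hS hu)), update_eq_of_mem hv x (hS hu)]
        rw [e1, e2]
        exact hadj u hu
      · exact h3 w hw u hu

end Emb

section Final

variable {W : Type} [Fintype W] [DecidableEq W]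

/-- an injection on a finset extends to an injection -/
theorem exists_extend {n : ℕ} (hW : Fintype.card W ≤ n) (A : Finset W) (ψ : W → Fin n)
    (hψ : Set.InjOn ψ A) : ∃ g : W → Fin n, Function.Injective g ∧ ∀ w ∈ A, g w = ψ w := by
  classical
  have hcard : Fintype.card {w // w ∉ A} ≤ Fintype.card {x : Fin n // x ∉ A.image ψ} := by
    rw [Fintype.card_subtype_compl, Fintype.card_subtype_compl, Fintype.card_fin,
      Fintype.card_coe, Fintype.card_coe, Finset.card_image_of_injOn hψ]
    omega
  obtain ⟨e⟩ := Function.Embedding.nonempty_of_card_le hcard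
  refine ⟨fun w => if h : w ∈ A then ψ w else (e ⟨w, h⟩).1, ?_, ?_⟩
  · intro a b hab
    by_cases ha : a ∈ A <;> by_cases hb : b ∈ A
    · simp only [ha, hb, dif_pos] at hab
      exact hψ ha hb hab
    · simp only [ha, hb, dif_pos, dif_neg, not_false_eq_true] at hab
      exact absurd (hab ▸ Finset.mem_image_of_mem ψ ha) (e ⟨b, hb⟩).2
    · simp only [ha, hb, dif_pos, dif_neg, not_false_eq_true] at hab
      exact absurd (hab ▸ Finset.mem_image_of_mem ψ hb) (e ⟨a, ha⟩).2
    · simp only [ha, hb, dif_neg, not_false_eq_true] at hab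
      exact congrArg Subtype.val (e.injective (Subtype.ext hab))
  · intro w hw
    simp only [hw, dif_pos]

/-- greedy colouring -/
theorem exists_greedy (R : W → W → Prop) (hR : ∀ a b, R a b → R b a) (M : ℕ) (hM : 0 < M)
    (A : Finset W) (h : ∀ a ∈ A, Set.ncard {b | b ∈ A ∧ b ≠ a ∧ R a b} < M) :
    ∃ χ : W → Fin M, ∀ a ∈ A, ∀ b ∈ A, a ≠ b → R a b → χ a ≠ χ b := by
  classical
  have key : ∀ B : Finset W, B ⊆ A →
      ∃ χ : W → Fin M, ∀ a ∈ B, ∀ b ∈ B, a ≠ b → R a b → χ a ≠ χ b := by
    intro B
    induction B using Finset.induction_on with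
    | empty => intro _; exact ⟨fun _ => ⟨0, hM⟩, by simp⟩
    | insert a B ha ih =>
      intro hBA
      obtain ⟨χ, hχ⟩ := ih fun x hx => hBA (Finset.mem_insert_of_mem hx)
      have haA := hBA (Finset.mem_insert_self a B)
      have h1 : ((B.filter fun b => R a b).image χ).card < (univ : Finset (Fin M)).card := by
        rw [Finset.card_univ, Fintype.card_fin]
        refine lt_of_le_of_lt ?_ (h a haA)
        refine Finset.card_image_le.trans ?_
        rw [← Set.ncard_coe_finset]
        refine Set.ncard_le_ncard ?_ (Set.toFinite _)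
        intro b hb
        have hb' := Finset.mem_filter.1 (Finset.mem_coe.1 hb)
        refine ⟨hBA (Finset.mem_insert_of_mem hb'.1), ?_, hb'.2⟩
        rintro rfl; exact ha hb'.1
      obtain ⟨c, _, hc⟩ := Finset.exists_mem_notMem_of_card_lt_card h1
      refine ⟨Function.update χ a c, ?_⟩
      have hupd : ∀ x ∈ B, Function.update χ a c x = χ x := by
        intro x hx
        rw [Function.update_of_ne]
        rintro rfl; exact ha hx
      intro x hx y hy hxy hRxy
      rcases Finset.mem_insert.1 hx with hxa | hx'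
      · rcases Finset.mem_insert.1 hy with hya | hy'
        · exact absurd (hxa.trans hya.symm) hxy
        · rw [hxa, Function.update_self, hupd y hy']
          intro he
          exact hc (he ▸ Finset.mem_image_of_mem χ (Finset.mem_filter.2 ⟨hy', hxa ▸ hRxy⟩))
      · rcases Finset.mem_insert.1 hy with hya | hy'
        · rw [hya, Function.update_self, hupd x hx']
          intro he
          exact hc (he ▸ Finset.mem_image_of_mem χ
            (Finset.mem_filter.2 ⟨hx', hR _ _ (hya ▸ hRxy)⟩))
        · rw [hupd x hx', hupd y hy']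
          exact hχ x hx' y hy' hxy hRxy
  exact key A (Finset.Subset.refl A)

/-- disjoint pools of prescribed sizes -/
theorem exists_pools {n M : ℕ} (f : Fin M → ℕ) (h : ∑ c, f c ≤ n) :
    ∃ U : Fin M → Finset (Fin n), (∀ c c', c ≠ c' → Disjoint (U c) (U c')) ∧
      ∀ c, (U c).card = f c := by
  classical
  have hcard : Fintype.card (Σ c : Fin M, Fin (f c)) ≤ Fintype.card (Fin n) := by
    rw [Fintype.card_sigma, Fintype.card_fin]
    simpa using h
  obtain ⟨e⟩ := Function.Embedding.nonempty_of_card_le hcard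
  refine ⟨fun c => univ.image fun i : Fin (f c) => e ⟨c, i⟩, ?_, ?_⟩
  · intro c c' hcc
    rw [Finset.disjoint_left]
    intro x hx hx'
    obtain ⟨i, _, hi⟩ := Finset.mem_image.1 hx
    obtain ⟨j, _, hj⟩ := Finset.mem_image.1 hx'
    have := e.injective (hi.trans hj.symm)
    exact hcc (congrArg Sigma.fst this)
  · intro c
    rw [Finset.card_image_of_injective, Finset.card_univ, Fintype.card_fin]
    intro i j hij
    have := e.injective hij
    exact eq_of_heq (Sigma.mk.inj this).2

theorem exists_list (S : W → Finset W) (ord : W → ℕ) (B : Finset W) :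
    ∀ done : Finset W, (∀ v ∈ B, v ∉ done) →
      (∀ v ∈ B, ∀ u ∈ S v, u ∈ done ∨ (u ∈ B ∧ ord u < ord v)) →
      ∃ l : List W, l.Nodup ∧ l.toFinset = B ∧ Good S l done := by
  classical
  induction B using Finset.induction_on_min_value ord with
  | empty => intro done _ _; exact ⟨[], List.nodup_nil, rfl, trivial⟩
  | insert a B ha hmin ih =>
    intro done hd hS
    obtain ⟨l, hnd, hl, hG⟩ := ih (insert a done) (by
      intro v hv hv'
      rcases Finset.mem_insert.1 hv' with rfl | hv'
      · exact ha hv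
      · exact hd v (Finset.mem_insert_of_mem hv) hv') (by
      intro v hv u hu
      rcases hS v (Finset.mem_insert_of_mem hv) u hu with h | ⟨h, hlt⟩
      · exact Or.inl (Finset.mem_insert_of_mem h)
      · rcases Finset.mem_insert.1 h with rfl | h
        · exact Or.inl (Finset.mem_insert_self _ _)
        · exact Or.inr ⟨h, hlt⟩)
    refine ⟨a :: l, List.nodup_cons.2 ⟨?_, hnd⟩, ?_, hd a (Finset.mem_insert_self a B), ?_, hG⟩
    · intro hal
      apply ha
      rw [← hl]; exact List.mem_toFinset.2 hal
    · rw [List.toFinset_cons, hl]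
    · intro u hu
      rcases hS a (Finset.mem_insert_self a B) u hu with h | ⟨h, hlt⟩
      · exact h
      · rcases Finset.mem_insert.1 h with rfl | h
        · exact absurd hlt (lt_irrefl _)
        · exact absurd hlt (not_lt.2 (hmin u h))

theorem seq_class (n : ℕ) (P : ℝ) (hP0 : 0 ≤ P) (hP1 : P ≤ 1) (F : SimpleGraph W)
    (hW : Fintype.card W ≤ n) (ord : W → ℕ) (hord : Function.Injective ord) (A : Finset W)
    (hA : ∀ u v, F.Adj u v → u ∈ A) (z M u₀ : ℕ)
    (hz : ∀ v, Set.ncard {u | F.Adj v u ∧ ord u < ord v} ≤ z)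
    (χ : W → Fin M)
    (hχ : ∀ v ∈ A, ∀ v' ∈ A, v ≠ v' →
      (∃ u, (F.Adj v u ∧ ord u < ord v) ∧ (F.Adj v' u ∧ ord u < ord v')) → χ v ≠ χ v')
    (hsize : A.card + M * u₀ ≤ n)
    (hprob : (A.card : ℝ) * (1 - P ^ z) ^ u₀ ≤ 1 / 2) :
    1 / 2 ≤ gnpProb n P {G | F.IsContained G} := by
  classical
  let S : W → Finset W := fun v => univ.filter fun u => F.Adj v u ∧ ord u < ord v
  have hSmem : ∀ v u, u ∈ S v ↔ F.Adj v u ∧ ord u < ord v := fun v u => by
    simp only [S, Finset.mem_filter, Finset.mem_univ, true_and]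
  obtain ⟨Pool, hPd, hPc⟩ := exists_pools (n := n)
    (fun c : Fin M => (A.filter fun v => χ v = c).card + u₀) (by
      rw [Finset.sum_add_distrib, Finset.sum_const, Finset.card_univ, Fintype.card_fin,
        smul_eq_mul, ← Finset.card_eq_sum_card_fiberwise (fun x _ => Finset.mem_univ (χ x))]
      exact hsize)
  obtain ⟨l, hnd, hl, hG⟩ := exists_list S ord A ∅ (fun v _ => Finset.notMem_empty v) (by
    intro v hv u hu
    rw [hSmem] at hu
    exact Or.inr ⟨hA u v hu.1.symm, hu.2⟩)
  have hmeml : ∀ v, v ∈ l ↔ v ∈ A := fun v => by rw [← hl, List.mem_toFinset]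
  have hlen : l.length = A.card := by rw [← hl, List.toFinset_card_of_nodup hnd]
  obtain ⟨e₀⟩ := Function.Embedding.nonempty_of_card_le
    (show Fintype.card W ≤ Fintype.card (Fin n) by rwa [Fintype.card_fin])
  have hmain := Pr_Emb (n := n) hP0 hP1 (fun v => Pool (χ v)) S z u₀ A
    (fun v _ => by
      rw [← Set.ncard_coe_finset]
      refine le_trans (le_of_eq ?_) (hz v)
      congr 1
      ext u
      rw [Finset.mem_coe, hSmem]; rfl)
    (fun v hv v' hv' hne ⟨u, hu, hu'⟩ => hPd _ _ (hχ v hv v' hv' hne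
      ⟨u, (hSmem v u).1 hu, (hSmem v' u).1 hu'⟩))
    (fun v hv => by
      rw [hPc]
      refine Nat.add_le_add_right ?_ _
      refine Finset.card_le_card ?_
      intro w hw
      obtain ⟨hwA, hne, hnd'⟩ := Finset.mem_filter.1 hw
      refine Finset.mem_filter.2 ⟨hwA, ?_⟩
      by_contra hc
      exact hnd' (hPd _ _ hc))
    l ∅ e₀ hG (fun v hv => (hmeml v).1 hv) (Finset.empty_subset A) hnd
    (fun v _ => Finset.notMem_empty v) (by simp) (by simp)
  rw [hlen] at hmain
  have h2 : gnpProb n P {G | F.IsContained G}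
      = Pr P (fun ω : EdgeSlot n → Bool => F.IsContained (graphOf ω)) :=
    bernoulliProb_eq P (fun ω : EdgeSlot n → Bool => F.IsContained (graphOf ω))
  rw [h2]
  refine le_trans (by linarith) (hmain.trans (Pr_mono hP0 hP1 ?_))
  intro ω hω
  obtain ⟨ψ, _, hinj, hadj⟩ := Emb_extract _ S ω l ∅ e₀ hG (by simp) hω
  have hinj' : Set.InjOn ψ A := by
    refine hinj.mono ?_
    intro w hw
    right
    rw [List.coe_toFinset]
    exact (hmeml w).2 (Finset.mem_coe.1 hw)
  obtain ⟨g, hg, hgψ⟩ := exists_extend hW A ψ hinj'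
  have hhom : ∀ a b, F.Adj a b → (graphOf ω).Adj (g a) (g b) := by
    intro a b hab
    have ha := hA a b hab
    have hb := hA b a hab.symm
    rw [hgψ a ha, hgψ b hb]
    have hne : ord a ≠ ord b := fun h => hab.ne (hord h)
    rcases lt_or_gt_of_ne hne with h | h
    · exact (hadj b ((hmeml b).2 hb) a ((hSmem b a).2 ⟨hab.symm, h⟩)).symm
    · exact hadj a ((hmeml a).2 ha) b ((hSmem a b).2 ⟨hab, h⟩)
  exact ⟨⟨⟨g, fun {a b} h => hhom a b h⟩, hg⟩⟩

/-- LOW classes: at most `z` earlier and at most `D` later neighbours -/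
theorem low_class (n : ℕ) (P : ℝ) (hP0 : 0 ≤ P) (hP1 : P ≤ 1) (F : SimpleGraph W)
    (hW : Fintype.card W ≤ n) (ord : W → ℕ) (hord : Function.Injective ord) (A : Finset W)
    (hA : ∀ u v, F.Adj u v → u ∈ A) (z D u₀ : ℕ)
    (hz : ∀ v, Set.ncard {u | F.Adj v u ∧ ord u < ord v} ≤ z)
    (hD : ∀ u, Set.ncard {v | F.Adj v u ∧ ord u < ord v} ≤ D)
    (hsize : A.card + (z * D + 1) * u₀ ≤ n)
    (hprob : (A.card : ℝ) * (1 - P ^ z) ^ u₀ ≤ 1 / 2) :
    1 / 2 ≤ gnpProb n P {G | F.IsContained G} := by
  classical
  let R : W → W → Prop := fun v v' =>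
    ∃ u, (F.Adj v u ∧ ord u < ord v) ∧ (F.Adj v' u ∧ ord u < ord v')
  obtain ⟨χ, hχ⟩ := exists_greedy R (fun a b ⟨u, h1, h2⟩ => ⟨u, h2, h1⟩) (z * D + 1)
    (Nat.succ_pos _) A (by
      intro a ha
      rw [Nat.lt_succ_iff]
      have hsub : {b | b ∈ A ∧ b ≠ a ∧ R a b} ⊆
          ⋃ u ∈ {u | F.Adj a u ∧ ord u < ord a}, {v | F.Adj v u ∧ ord u < ord v} := by
        rintro b ⟨_, _, u, h1, h2⟩
        exact Set.mem_biUnion h1 h2
      refine (Set.ncard_le_ncard hsub (Set.toFinite _)).trans ?_
      have hfin : ({u | F.Adj a u ∧ ord u < ord a} : Set W).Finite := Set.toFinite _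
      have h1 : (⋃ u ∈ {u | F.Adj a u ∧ ord u < ord a}, {v | F.Adj v u ∧ ord u < ord v})
          = ⋃ u ∈ hfin.toFinset, {v | F.Adj v u ∧ ord u < ord v} := by
        ext x; simp
      rw [h1]
      refine (Finset.set_ncard_biUnion_le _ _).trans ?_
      refine (Finset.sum_le_card_nsmul _ _ D fun u _ => hD u).trans ?_
      rw [smul_eq_mul, ← Set.ncard_eq_toFinset_card _ hfin]
      exact Nat.mul_le_mul_right D (hz a))
  exact seq_class n P hP0 hP1 F hW ord hord A hA z (z * D + 1) u₀ hz χ
    (fun v hv v' hv' hne h => hχ v hv v' hv' hne h) hsize hprob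

/-- SMALL classes: few vertices, private pools -/
theorem small_class (n : ℕ) (P : ℝ) (hP0 : 0 ≤ P) (hP1 : P ≤ 1) (F : SimpleGraph W)
    (hW : Fintype.card W ≤ n) (ord : W → ℕ) (hord : Function.Injective ord) (A : Finset W)
    (hA : ∀ u v, F.Adj u v → u ∈ A) (z u₀ : ℕ)
    (hz : ∀ v, Set.ncard {u | F.Adj v u ∧ ord u < ord v} ≤ z)
    (hsize : A.card + A.card * u₀ ≤ n)
    (hprob : (A.card : ℝ) * (1 - P ^ z) ^ u₀ ≤ 1 / 2) :
    1 / 2 ≤ gnpProb n P {G | F.IsContained G} := by
  classical
  rcases A.eq_empty_or_nonempty with hAe | ⟨a₀, ha₀⟩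
  · -- no edges at all
    subst hAe
    refine low_class n P hP0 hP1 F hW ord hord ∅ hA z 0 0 hz ?_ (by simp) (by simp)
    intro u
    have : {v | F.Adj v u ∧ ord u < ord v} = ∅ := by
      ext v
      simp only [Set.mem_ofPred_eq, Set.mem_empty_iff_false, iff_false]
      exact fun h => absurd (hA v u h.1) (Finset.notMem_empty v)
    rw [this, Set.ncard_empty]
  · have hpos : 0 < A.card := Finset.card_pos.2 ⟨a₀, ha₀⟩
    let e := A.equivFin
    refine seq_class n P hP0 hP1 F hW ord hord A hA z A.card u₀ hz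
      (fun v => if h : v ∈ A then e ⟨v, h⟩ else ⟨0, hpos⟩) ?_ hsize hprob
    intro v hv v' hv' hne _ he
    simp only [hv, hv', dif_pos] at he
    exact hne (congrArg Subtype.val (e.injective he))

end Final

end Crest.Agent.R052.Seq
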