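import Crest.Agent.R052.LowSmall
import Crest.Agent.R052.Seq

/-!
Row 52, S0073: `low`, `small` of the interface.
-/

set_option autoImplicit false

open Crest.CombinatoricsR.RandomGraph

namespace Crest.Agent.R052.LowSmall

theorem low : ∃ n0 : ℕ, ∀ n ≥ n0, ∀ (W : Type) [Fintype W] [DecidableEq W]
    (F : SimpleGraph W) (ord : W → ℕ) (A : Finset W) (p : ℝ) (z D : ℕ),
    Fintype.card W ≤ n → 0 < p → p ≤ 1 / 2 → Function.Injective ord →
    (∀ u v, F.Adj u v → u ∈ A) → 2 * A.card ≤ n → 1 ≤ p ^ (64 * z) * n → D ^ 16 ≤ n →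
    (∀ v, Set.ncard {u | F.Adj v u ∧ ord u < ord v} ≤ z) →
    (∀ u, Set.ncard {v | F.Adj v u ∧ ord u < ord v} ≤ D) →
    1 / 2 ≤ gnpProb n p {G | F.IsContained G} :=
  low_of (fun _ _ _ => Seq.low_class)

theorem small : ∃ n0 : ℕ, ∀ n ≥ n0, ∀ (W : Type) [Fintype W] [DecidableEq W]
    (F : SimpleGraph W) (ord : W → ℕ) (A : Finset W) (p : ℝ) (z : ℕ),
    Fintype.card W ≤ n → 0 < p → p ≤ 1 / 2 → Function.Injective ord →
    (∀ u v, F.Adj u v → u ∈ A) → A.card ^ 32 ≤ n ^ 31 → 1 ≤ p ^ (64 * z) * n →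
    (∀ v, Set.ncard {u | F.Adj v u ∧ ord u < ord v} ≤ z) →
    1 / 2 ≤ gnpProb n p {G | F.IsContained G} :=
  small_of (fun _ _ _ => Seq.small_class)

end Crest.Agent.R052.LowSmall
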