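import Mathlib
import Crest.Prelude.Def_CopyThreshold

/-!
Row 52 (S0073), helper128: the cover by copies of a subgraph, the density `p*`.
-/

set_option autoImplicit false

open Finset
open Crest.CombinatoricsR.RandomGraph

namespace Crest.Agent.R052.Setup

/-- The slots hit by the edges in `J` under the vertex map `f`. -/
noncomputable def cs {W : Type*} (n : ℕ) (J : Finset (Sym2 W)) (f : W → Fin n) :
    Finset (EdgeSlot n) := by
  classical
  exact Finset.univ.filter (fun s : EdgeSlot n => ∃ e ∈ J, Sym2.map f e = s.1)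

/-- All copies (as slot sets) of the edge set `J` under injections of the vertex set. -/
noncomputable def copies {W : Type*} [Fintype W] (n : ℕ) (J : Finset (Sym2 W)) :
    Finset (Finset (EdgeSlot n)) := by
  classical
  exact (Finset.univ : Finset (W ↪ Fin n)).image (fun f : W ↪ Fin n => cs n J f)

theorem mem_cs {W : Type*} {n : ℕ} {J : Finset (Sym2 W)} {f : W → Fin n} {s : EdgeSlot n} :
    s ∈ cs n J f ↔ ∃ e ∈ J, Sym2.map f e = s.1 := by
  classical
  unfold cs
  simp

theorem mem_copies {W : Type*} [Fintype W] {n : ℕ} {J : Finset (Sym2 W)}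
    {S : Finset (EdgeSlot n)} : S ∈ copies n J ↔ ∃ f : W ↪ Fin n, cs n J f = S := by
  classical
  unfold copies
  simp

theorem not_isDiag_map {W V : Type*} {f : W → V} (hf : Function.Injective f) {e : Sym2 W}
    (he : ¬ e.IsDiag) : ¬ (Sym2.map f e).IsDiag := by
  induction e with
  | _ a b =>
    simp only [Sym2.map_mk, Sym2.mk_isDiag_iff] at he ⊢
    exact fun h => he (hf h)

theorem card_cs {W : Type*} {n : ℕ} {J : Finset (Sym2 W)} (hJ : ∀ e ∈ J, ¬ e.IsDiag)
    (f : W ↪ Fin n) : (cs n J f).card = J.card := by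
  classical
  symm
  refine Finset.card_bij (fun e he => (⟨Sym2.map f e, not_isDiag_map f.injective (hJ e he)⟩ : EdgeSlot n))
    ?_ ?_ ?_
  · intro e he
    rw [mem_cs]
    exact ⟨e, he, rfl⟩
  · intro e he e' he' h
    have := congrArg Subtype.val h
    exact Sym2.map.injective f.injective this
  · intro s hs
    rw [mem_cs] at hs
    obtain ⟨e, he, h⟩ := hs
    exact ⟨e, he, Subtype.ext h⟩

theorem card_of_mem_copies {W : Type*} [Fintype W] {n : ℕ} {J : Finset (Sym2 W)}
    (hJ : ∀ e ∈ J, ¬ e.IsDiag) {S : Finset (EdgeSlot n)} (hS : S ∈ copies n J) :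
    S.card = J.card := by
  obtain ⟨f, rfl⟩ := mem_copies.1 hS
  exact card_cs hJ f

theorem cost_copies {W : Type*} [Fintype W] {n : ℕ} {J : Finset (Sym2 W)}
    (hJ : ∀ e ∈ J, ¬ e.IsDiag) (p : ℝ) :
    ∑ S ∈ copies n J, p ^ S.card = ((copies n J).card : ℝ) * p ^ J.card := by
  rw [Finset.sum_congr rfl (fun S hS => by rw [card_of_mem_copies hJ hS]), Finset.sum_const,
    nsmul_eq_mul]

theorem copies_cover {W : Type*} [Fintype W] {n : ℕ} {H : SimpleGraph W} {J : Finset (Sym2 W)}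
    (hJ : ∀ e ∈ J, e ∈ H.edgeSet) (A : Finset (EdgeSlot n)) (h : H.IsContained (edgeGraph A)) :
    ∃ S ∈ copies n J, S ⊆ A := by
  obtain ⟨f⟩ := h
  refine ⟨cs n J f, mem_copies.2 ⟨⟨f, f.injective⟩, rfl⟩, ?_⟩
  intro s hs
  rw [mem_cs] at hs
  obtain ⟨e, he, h⟩ := hs
  have h1 : Sym2.map f e ∈ (edgeGraph A).edgeSet := by
    have := hJ e he
    induction e with
    | _ a b =>
      simp only [Sym2.map_mk, SimpleGraph.mem_edgeSet] at this ⊢
      exact f.toHom.map_adj this
  rw [h] at h1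
  unfold edgeGraph at h1
  rw [SimpleGraph.edgeSet_fromEdgeSet] at h1
  obtain ⟨⟨h2, h3⟩, h4⟩ := h1
  exact h3

theorem copies_nonempty {W : Type*} [Fintype W] {n : ℕ} (hn : Fintype.card W ≤ n)
    (J : Finset (Sym2 W)) : (copies n J).Nonempty := by
  have : Nonempty (W ↪ Fin n) := by
    apply Function.Embedding.nonempty_of_card_le
    simpa using hn
  obtain ⟨f⟩ := this
  exact ⟨_, mem_copies.2 ⟨f, rfl⟩⟩

theorem card_slot_le (n : ℕ) : (Fintype.card (EdgeSlot n) : ℝ) ≤ (n : ℝ) ^ 2 := by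
  classical
  have h1 : Fintype.card (EdgeSlot n) = n.choose 2 := by
    have := Sym2.card_subtype_not_diag (α := Fin n)
    simpa using this
  rw [h1]
  have := Nat.choose_le_pow n 2
  exact_mod_cast this

/-- Properties of the density `p`: the expected number of copies of each nonempty
subgraph is at least `1/2`. -/
structure Dense {W : Type*} [Fintype W] (n : ℕ) (H : SimpleGraph W) (p : ℝ) : Prop where
  pos : 0 < p
  le_one : p ≤ 1
  half_le : ∀ J : Finset (Sym2 W), J.Nonempty → (∀ e ∈ J, e ∈ H.edgeSet) →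
    1 / 2 ≤ ((copies n J).card : ℝ) * p ^ J.card

/-- `C` covers all edge sets containing a copy of `H`. -/
def IsCover {W : Type*} (n : ℕ) (H : SimpleGraph W) (C : Finset (Finset (EdgeSlot n))) : Prop :=
  ∀ A : Finset (EdgeSlot n), H.IsContained (edgeGraph A) → ∃ S ∈ C, S ⊆ A

theorem edgeGraph_univ (n : ℕ) : edgeGraph (Finset.univ : Finset (EdgeSlot n)) = ⊤ := by
  ext a b
  unfold edgeGraph
  rw [SimpleGraph.fromEdgeSet_adj, SimpleGraph.top_adj]
  constructor
  · exact fun h => h.2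
  · intro h
    refine ⟨?_, h⟩
    exact ⟨by simpa using h, Finset.mem_univ _⟩

theorem isContained_univ {W : Type*} [Fintype W] {n : ℕ} (hn : Fintype.card W ≤ n)
    (H : SimpleGraph W) : H.IsContained (edgeGraph (Finset.univ : Finset (EdgeSlot n))) := by
  have : Nonempty (W ↪ Fin n) := by
    apply Function.Embedding.nonempty_of_card_le
    simpa using hn
  obtain ⟨f⟩ := this
  rw [edgeGraph_univ]
  exact ⟨⟨⟨f, fun {a b} h => by
    rw [SimpleGraph.top_adj]
    exact fun hh => h.ne (f.injective hh)⟩, f.injective⟩⟩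

theorem IsCover.nonempty {W : Type*} [Fintype W] {n : ℕ} (hn : Fintype.card W ≤ n)
    {H : SimpleGraph W} {C : Finset (Finset (EdgeSlot n))} (hC : IsCover n H C) : C.Nonempty := by
  obtain ⟨S, hS, -⟩ := hC _ (isContained_univ hn H)
  exact ⟨S, hS⟩

/-- the cover by single slots -/
theorem singles_cover {W : Type*} {n : ℕ} {H : SimpleGraph W} (hH : H ≠ ⊥) :
    IsCover n H ((Finset.univ : Finset (EdgeSlot n)).map ⟨fun s => {s}, Finset.singleton_injective⟩) := by
  obtain ⟨e0, he0⟩ : ∃ e, e ∈ H.edgeSet := by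
    by_contra hcon
    push Not at hcon
    apply hH
    rw [← SimpleGraph.edgeSet_eq_empty]
    exact Set.eq_empty_of_forall_notMem hcon
  intro A hA
  obtain ⟨f⟩ := hA
  have h1 : Sym2.map f e0 ∈ (edgeGraph A).edgeSet := by
    induction e0 with
    | _ a b =>
      simp only [Sym2.map_mk, SimpleGraph.mem_edgeSet] at he0 ⊢
      exact f.toHom.map_adj he0
  unfold edgeGraph at h1
  rw [SimpleGraph.edgeSet_fromEdgeSet] at h1
  obtain ⟨⟨h2, h3⟩, h4⟩ := h1
  refine ⟨{⟨Sym2.map f e0, h2⟩}, ?_, ?_⟩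
  · rw [Finset.mem_map]
    exact ⟨_, Finset.mem_univ _, rfl⟩
  · rw [Finset.singleton_subset_iff]
    exact h3

/-- The largest density at which a cover of cost at most `1/2` exists. -/
theorem setup_strong (n : ℕ) (hn : 2 ≤ n) (W : Type*) [Fintype W] (H : SimpleGraph W)
    (hW : Fintype.card W ≤ n) (hH : H ≠ ⊥) :
    ∃ p : ℝ, 1 / (n : ℝ) ^ 2 ≤ p ∧ p < 1 ∧
      (∃ C : Finset (Finset (EdgeSlot n)), IsCover n H C ∧ ∑ S ∈ C, p ^ S.card ≤ 1 / 2) ∧
      (∀ C : Finset (Finset (EdgeSlot n)), IsCover n H C → 1 / 2 ≤ ∑ S ∈ C, p ^ S.card) ∧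
      (∀ p' : ℝ, p < p' → p' ≤ 1 → ∀ C : Finset (Finset (EdgeSlot n)), IsCover n H C →
        1 / 2 < ∑ S ∈ C, p' ^ S.card) := by
  classical
  let K : Set ℝ := ⋃ C ∈ (Finset.univ.filter (fun C => IsCover n H C) :
      Finset (Finset (Finset (EdgeSlot n)))),
      (Set.Icc (0:ℝ) 1 ∩ {p | ∑ S ∈ C, p ^ S.card ≤ 1 / 2})
  have hcont : ∀ C : Finset (Finset (EdgeSlot n)), Continuous (fun p : ℝ => ∑ S ∈ C, p ^ S.card) :=
    fun C => continuous_finsetSum _ (fun S _ => continuous_pow _)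
  have hK : IsCompact K := by
    apply Finset.isCompact_biUnion
    intro C _
    exact isCompact_Icc.inter_right (isClosed_le (hcont C) continuous_const)
  have hmem : ∀ p : ℝ, p ∈ K ↔ 0 ≤ p ∧ p ≤ 1 ∧ ∃ C : Finset (Finset (EdgeSlot n)),
      IsCover n H C ∧ ∑ S ∈ C, p ^ S.card ≤ 1 / 2 := by
    intro p
    simp only [K, Set.mem_iUnion, Finset.mem_filter, Finset.mem_univ, true_and, Set.mem_inter_iff,
      Set.mem_Icc, Set.mem_ofPred_eq, exists_prop]
    constructor
    · rintro ⟨C, h1, h2, h3⟩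
      exact ⟨h2.1, h2.2, C, h1, h3⟩
    · rintro ⟨h1, h2, C, h3, h4⟩
      exact ⟨C, h3, ⟨h1, h2⟩, h4⟩
  have hn0 : (0:ℝ) < n := by exact_mod_cast (by omega : 0 < n)
  have hn1 : (1:ℝ) ≤ n := by exact_mod_cast (by omega : 1 ≤ n)
  have hmem1 : 1 / (n : ℝ) ^ 2 ∈ K := by
    rw [hmem]
    refine ⟨by positivity, ?_, _, singles_cover hH, ?_⟩
    · rw [div_le_one (by positivity)]
      exact one_le_pow₀ hn1
    · rw [Finset.sum_map]
      simp only [Function.Embedding.coeFn_mk, Finset.card_singleton, pow_one, Finset.sum_const,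
        nsmul_eq_mul]
      have h1 : Fintype.card (EdgeSlot n) = n.choose 2 := by
        have := Sym2.card_subtype_not_diag (α := Fin n)
        simpa using this
      rw [Finset.card_univ, h1, Nat.cast_choose_two, mul_one_div, div_le_iff₀ (by positivity)]
      nlinarith
  obtain ⟨p, hpK, hpmax⟩ := hK.exists_isGreatest ⟨_, hmem1⟩
  have hp := (hmem p).1 hpK
  have hcost1 : ∀ C : Finset (Finset (EdgeSlot n)), IsCover n H C → (1:ℝ) ≤ ∑ S ∈ C, (1:ℝ) ^ S.card := by
    intro C hC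
    simp only [one_pow, Finset.sum_const, nsmul_eq_mul, mul_one]
    exact_mod_cast Finset.card_pos.2 (hC.nonempty hW)
  have hp1 : p < 1 := by
    rcases hp.2.1.lt_or_eq with h | h
    · exact h
    · exfalso
      obtain ⟨C, hC, hc⟩ := hp.2.2
      rw [h] at hc
      have := hcost1 C hC
      linarith
  have hlast : ∀ p' : ℝ, p < p' → p' ≤ 1 → ∀ C : Finset (Finset (EdgeSlot n)), IsCover n H C →
        1 / 2 < ∑ S ∈ C, p' ^ S.card := by
    intro p' hpp hp' C hC
    by_contra hcon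
    push Not at hcon
    have : p' ∈ K := (hmem p').2 ⟨by linarith [hp.1], hp', C, hC, hcon⟩
    have := hpmax this
    linarith
  refine ⟨p, hpmax hmem1, hp1, hp.2.2, ?_, hlast⟩
  intro C hC
  -- limit from the right
  have h1 : Filter.Tendsto (fun p' : ℝ => ∑ S ∈ C, p' ^ S.card) (nhdsWithin p (Set.Ioi p))
      (nhds (∑ S ∈ C, p ^ S.card)) :=
    ((hcont C).tendsto p).mono_left nhdsWithin_le_nhds
  refine ge_of_tendsto h1 ?_
  have h2 : Set.Ioc p 1 ∈ nhdsWithin p (Set.Ioi p) := Ioc_mem_nhdsGT hp1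
  filter_upwards [h2] with p' hp'
  exact (hlast p' hp'.1 hp'.2 C hC).le

end Crest.Agent.R052.Setup
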