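import Crest.Agent.R052.Count

/-!
Row 52 (S0073), helper128: tails of hub degrees (`K_{Z,T}`) and star degrees from `Dense`.
-/

set_option autoImplicit false

open Finset
open Crest.CombinatoricsR.RandomGraph

namespace Crest.Agent.R052.Setup

theorem Dense.hub_tail {W : Type*} [Fintype W] {n : ℕ} {H : SimpleGraph W} {p : ℝ}
    (hd : Dense n H p) (hn : 1 ≤ n) {Z T : Finset W} (hZ : Z.Nonempty) (hZT : Disjoint Z T)
    (hadj : ∀ a ∈ Z, ∀ b ∈ T, H.Adj a b)
    (hlog : (Z.card : ℝ) * Real.log n ≤ n * p ^ Z.card) :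
    (T.card : ℝ) ≤ Real.exp 3 * n * p ^ Z.card := by
  have hp0 := hd.pos
  have hn0 : (0:ℝ) < n := by exact_mod_cast hn
  have he3 : (1:ℝ) ≤ Real.exp 3 := Real.one_le_exp (by norm_num)
  have hnp : 0 ≤ (n:ℝ) * p ^ Z.card := by positivity
  rcases T.eq_empty_or_nonempty with rfl | hT
  · simp only [Finset.card_empty, Nat.cast_zero]
    positivity
  rcases lt_or_ge (T.card : ℝ) ((Z.card : ℝ) * Real.log n) with hlt | hge
  · calc (T.card : ℝ) ≤ (n:ℝ) * p ^ Z.card := (hlt.le.trans hlog)
      _ ≤ Real.exp 3 * ((n:ℝ) * p ^ Z.card) := le_mul_of_one_le_left hnp he3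
      _ = _ := by ring
  · have hJne : (biJ Z T).Nonempty := by
      obtain ⟨a, ha⟩ := hZ
      obtain ⟨b, hb⟩ := hT
      exact ⟨s(a, b), mem_biJ.2 ⟨a, ha, b, hb, rfl⟩⟩
    have hJH : ∀ e ∈ biJ Z T, e ∈ H.edgeSet := by
      intro e he
      obtain ⟨a, ha, b, hb, rfl⟩ := mem_biJ.1 he
      exact hadj a ha b hb
    have h1 := hd.half_le _ hJne hJH
    rw [card_biJ hZT] at h1
    have h2 : ((copies n (biJ Z T)).card : ℝ) ≤ (n.choose Z.card : ℝ) * (n.choose T.card : ℝ) := by
      exact_mod_cast card_copies_biJ n Z T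
    have hTc : 1 ≤ T.card := Finset.card_pos.2 hT
    have hT0 : (0:ℝ) < T.card := by exact_mod_cast hTc
    have h3 := choose_le_exp n T.card hTc
    have h4 : (n.choose Z.card : ℝ) ≤ (n:ℝ) ^ Z.card := by
      exact_mod_cast Nat.choose_le_pow n Z.card
    have h5 : (n:ℝ) ^ Z.card ≤ Real.exp 1 ^ T.card := by
      rw [← Real.exp_nat_mul, mul_one]
      rw [← Real.log_le_iff_le_exp (by positivity), Real.log_pow]
      exact hge
    have h6 : (2:ℝ) ≤ Real.exp 1 ^ T.card := by
      have : (2:ℝ) ≤ Real.exp 1 := by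
        have := Real.add_one_le_exp (1:ℝ)
        linarith
      calc (2:ℝ) ≤ Real.exp 1 := this
        _ = Real.exp 1 ^ 1 := (pow_one _).symm
        _ ≤ Real.exp 1 ^ T.card := pow_le_pow_right₀ (by linarith) hTc
    have h7 : (1:ℝ) ≤ (Real.exp 1 * (Real.exp 1 * (Real.exp 1 * n / T.card * p ^ Z.card))) ^ T.card := by
      have e1 : (1:ℝ) / 2 ≤ Real.exp 1 ^ T.card * (Real.exp 1 * n / T.card) ^ T.card *
          (p ^ Z.card) ^ T.card := by
        calc (1:ℝ) / 2 ≤ ((copies n (biJ Z T)).card : ℝ) * p ^ (Z.card * T.card) := h1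
          _ ≤ ((n.choose Z.card : ℝ) * (n.choose T.card : ℝ)) * p ^ (Z.card * T.card) :=
              mul_le_mul_of_nonneg_right h2 (by positivity)
          _ ≤ (Real.exp 1 ^ T.card * (Real.exp 1 * n / T.card) ^ T.card) * p ^ (Z.card * T.card) := by
              apply mul_le_mul_of_nonneg_right _ (by positivity)
              exact mul_le_mul (h4.trans h5) h3 (by positivity) (by positivity)
          _ = _ := by rw [pow_mul]
      have e2 : (Real.exp 1 * (Real.exp 1 * (Real.exp 1 * n / T.card * p ^ Z.card))) ^ T.card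
          = Real.exp 1 ^ T.card * (Real.exp 1 ^ T.card * (Real.exp 1 * n / T.card) ^ T.card *
          (p ^ Z.card) ^ T.card) := by
        rw [mul_pow, mul_pow, mul_pow]
        ring
      rw [e2]
      calc (1:ℝ) = 2 * (1 / 2) := by norm_num
        _ ≤ _ := mul_le_mul h6 e1 (by norm_num) (by positivity)
    have h8 : (1:ℝ) ≤ Real.exp 1 * (Real.exp 1 * (Real.exp 1 * n / T.card * p ^ Z.card)) := by
      by_contra hcon
      push Not at hcon
      have := pow_lt_one₀ (by positivity) hcon (by omega : T.card ≠ 0)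
      linarith
    have h9 : Real.exp 3 = Real.exp 1 * Real.exp 1 * Real.exp 1 := by
      rw [← Real.exp_add, ← Real.exp_add]; norm_num
    have h10 : Real.exp 1 * (Real.exp 1 * (Real.exp 1 * n / T.card * p ^ Z.card))
        = Real.exp 3 * n * p ^ Z.card / T.card := by
      rw [h9]; field_simp
    rw [h10, le_div_iff₀ hT0] at h8
    linarith

/-- The union of the stars with centre `y ∈ Y` and leaves `L y`. -/
noncomputable def starJ {W : Type*} (Y : Finset W) (L : W → Finset W) : Finset (Sym2 W) := by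
  classical
  exact Y.biUnion (fun y => (L y).image (fun v => s(y, v)))

theorem mem_starJ {W : Type*} {Y : Finset W} {L : W → Finset W} {e : Sym2 W} :
    e ∈ starJ Y L ↔ ∃ y ∈ Y, ∃ v ∈ L y, s(y, v) = e := by
  classical
  unfold starJ
  simp only [Finset.mem_biUnion, Finset.mem_image]

theorem card_starJ {W : Type*} {Y : Finset W} {L : W → Finset W} {d : ℕ}
    (hL : ∀ y ∈ Y, (L y).card = d) (hYL : ∀ y ∈ Y, ∀ v ∈ L y, v ∉ Y) :
    (starJ Y L).card = Y.card * d := by
  classical
  unfold starJ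
  rw [Finset.card_biUnion]
  · rw [Finset.sum_congr rfl (g := fun _ => d), Finset.sum_const, smul_eq_mul]
    intro y hy
    rw [Finset.card_image_of_injOn, hL y hy]
    intro v hv v' hv' h
    simp only [Sym2.eq_iff] at h
    rcases h with ⟨-, h⟩ | ⟨h1, h2⟩
    · exact h
    · exact h2.trans h1
  · intro y hy y' hy' hne
    simp only [Function.onFun]
    rw [Finset.disjoint_left]
    intro e he he'
    rw [Finset.mem_image] at he he'
    obtain ⟨v, hv, rfl⟩ := he
    obtain ⟨v', hv', h⟩ := he'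
    simp only [Sym2.eq_iff] at h
    rcases h with ⟨h1, -⟩ | ⟨-, h2⟩
    · exact hne h1.symm
    · exact hYL y' hy' v' hv' (h2 ▸ hy)

theorem card_copies_star {W : Type*} [Fintype W] [Nonempty W] (n : ℕ) {Y : Finset W}
    {L : W → Finset W} {d : ℕ} (hL : ∀ y ∈ Y, (L y).card = d) :
    (copies n (starJ Y L)).card ≤ n.choose Y.card * (n.choose d) ^ Y.card := by
  classical
  have := copies_card_le_of_code (n := n) (J := starJ Y L)
    (K := Σ _ : Finset (Fin n), (Fin n → Finset (Fin n)))
    (fun f : W ↪ Fin n => ⟨Y.map f, fun a => if a ∈ Y.map f then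
      (L (Function.invFun f a)).map f else ∅⟩)
    (((Finset.univ : Finset (Fin n)).powersetCard Y.card).sigma (fun T' =>
      Fintype.piFinset (fun a => if a ∈ T' then (Finset.univ : Finset (Fin n)).powersetCard d
        else {∅}))) ?_ ?_
  · refine this.trans (le_of_eq ?_)
    rw [Finset.card_sigma]
    rw [Finset.sum_congr rfl (g := fun _ => (n.choose d) ^ Y.card)]
    · rw [Finset.sum_const, Finset.card_powersetCard, Finset.card_univ, Fintype.card_fin,
        smul_eq_mul]
    · intro T' hT'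
      rw [Finset.mem_powersetCard] at hT'
      rw [Fintype.card_piFinset]
      have : ∀ a : Fin n, (if a ∈ T' then (Finset.univ : Finset (Fin n)).powersetCard d
        else {∅}).card = if a ∈ T' then n.choose d else 1 := by
        intro a
        split_ifs
        · rw [Finset.card_powersetCard, Finset.card_univ, Fintype.card_fin]
        · rfl
      rw [Finset.prod_congr rfl (fun a _ => this a), Finset.prod_ite, Finset.prod_const,
        Finset.prod_const_one, mul_one]
      congr 1
      rw [← hT'.2]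
      congr 1
      ext a
      simp
  · intro f
    simp only [Finset.mem_sigma, Finset.mem_powersetCard, Finset.subset_univ, Finset.card_map,
      true_and, Fintype.mem_piFinset]
    intro a
    by_cases ha : a ∈ Y.map f
    · rw [if_pos ha, if_pos ha, Finset.mem_powersetCard]
      refine ⟨Finset.subset_univ _, ?_⟩
      rw [Finset.card_map]
      obtain ⟨y, hy, rfl⟩ := Finset.mem_map.1 ha
      rw [Function.leftInverse_invFun f.injective y]
      exact hL y hy
    · rw [if_neg ha, if_neg ha]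
      simp
  · intro f f' h
    simp only [Sigma.mk.injEq, heq_eq_eq] at h
    obtain ⟨h1, h2⟩ := h
    have key : ∀ g g' : W ↪ Fin n, Y.map g = Y.map g' →
        ((fun a => if a ∈ Y.map g then (L (Function.invFun g a)).map g else ∅) =
         (fun a => if a ∈ Y.map g' then (L (Function.invFun g' a)).map g' else ∅)) →
        cs n (starJ Y L) g ⊆ cs n (starJ Y L) g' := by
      intro g g' h1 h2 s hs
      rw [mem_cs] at hs ⊢
      obtain ⟨e, he, hs⟩ := hs
      obtain ⟨y, hy, v, hv, rfl⟩ := mem_starJ.1 he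
      have ha : g y ∈ Y.map g := Finset.mem_map_of_mem g hy
      have ha' : g y ∈ Y.map g' := by rw [← h1]; exact ha
      have h3 := congrFun h2 (g y)
      simp only [if_pos ha, if_pos ha'] at h3
      rw [Function.leftInverse_invFun g.injective y] at h3
      obtain ⟨y', hy', hyy⟩ := Finset.mem_map.1 ha'
      rw [← hyy, Function.leftInverse_invFun g'.injective y'] at h3
      have hv' : g v ∈ (L y').map g' := by
        rw [← h3]; exact Finset.mem_map_of_mem g hv
      obtain ⟨v', hv', hvv⟩ := Finset.mem_map.1 hv'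
      refine ⟨s(y', v'), mem_starJ.2 ⟨y', hy', v', hv', rfl⟩, ?_⟩
      rw [← hs, Sym2.map_mk, Sym2.map_mk, hyy, hvv]
    exact Finset.Subset.antisymm (key f f' h1 h2) (key f' f h1.symm h2.symm)

theorem Dense.star_tail {W : Type*} [Fintype W] {n : ℕ} {H : SimpleGraph W} {p : ℝ}
    (hd : Dense n H p) {Y : Finset W} {L : W → Finset W} {d : ℕ} (hd1 : 1 ≤ d)
    (hL : ∀ y ∈ Y, (L y).card = d) (hadj : ∀ y ∈ Y, ∀ v ∈ L y, H.Adj y v)
    (hYL : ∀ y ∈ Y, ∀ v ∈ L y, v ∉ Y) :
    (Y.card : ℝ) ≤ 2 * Real.exp 1 * n * (Real.exp 1 * n * p / d) ^ d := by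
  have hp0 := hd.pos
  have hd0 : (0:ℝ) < d := by exact_mod_cast hd1
  rcases Y.eq_empty_or_nonempty with rfl | hY
  · simp only [Finset.card_empty, Nat.cast_zero]
    positivity
  obtain ⟨y0, hy0⟩ := hY
  have hW : Nonempty W := ⟨y0⟩
  have hYc : 1 ≤ Y.card := Finset.card_pos.2 ⟨y0, hy0⟩
  have hY0 : (0:ℝ) < Y.card := by exact_mod_cast hYc
  have hJne : (starJ Y L).Nonempty := by
    have : (L y0).Nonempty := by
      rw [← Finset.card_pos, hL y0 hy0]; exact hd1
    obtain ⟨v, hv⟩ := this
    exact ⟨s(y0, v), mem_starJ.2 ⟨y0, hy0, v, hv, rfl⟩⟩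
  have hJH : ∀ e ∈ starJ Y L, e ∈ H.edgeSet := by
    intro e he
    obtain ⟨a, ha, b, hb, rfl⟩ := mem_starJ.1 he
    exact hadj a ha b hb
  have h1 := hd.half_le _ hJne hJH
  rw [card_starJ hL hYL] at h1
  have h2 : ((copies n (starJ Y L)).card : ℝ) ≤
      (n.choose Y.card : ℝ) * (n.choose d : ℝ) ^ Y.card := by
    exact_mod_cast card_copies_star n hL
  have h3 := choose_le_exp n Y.card hYc
  have h4 := choose_le_exp n d hd1
  have h7 : (1:ℝ) / 2 ≤ (Real.exp 1 * n / Y.card * (Real.exp 1 * n * p / d) ^ d) ^ Y.card := by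
    calc (1:ℝ) / 2 ≤ ((copies n (starJ Y L)).card : ℝ) * p ^ (Y.card * d) := h1
      _ ≤ ((n.choose Y.card : ℝ) * (n.choose d : ℝ) ^ Y.card) * p ^ (Y.card * d) :=
          mul_le_mul_of_nonneg_right h2 (by positivity)
      _ ≤ ((Real.exp 1 * n / Y.card) ^ Y.card * ((Real.exp 1 * n / d) ^ d) ^ Y.card) *
            p ^ (Y.card * d) := by
          apply mul_le_mul_of_nonneg_right _ (by positivity)
          apply mul_le_mul h3 _ (by positivity) (by positivity)
          exact pow_le_pow_left₀ (by positivity) h4 _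
      _ = _ := by
          have e1 : (Real.exp 1 * n * p / d : ℝ) = Real.exp 1 * n / d * p := by ring
          rw [mul_comm Y.card d, pow_mul, e1, mul_pow (Real.exp 1 * n / d : ℝ) p d,
            mul_pow (Real.exp 1 * n / Y.card : ℝ), mul_pow ((Real.exp 1 * n / d : ℝ) ^ d)]
          ring
  have h8 : (1:ℝ) / 2 ≤ Real.exp 1 * n / Y.card * (Real.exp 1 * n * p / d) ^ d := by
    by_contra hcon
    push Not at hcon
    have h0 : 0 ≤ Real.exp 1 * n / Y.card * (Real.exp 1 * n * p / d) ^ d := by positivity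
    have := pow_lt_pow_left₀ hcon h0 (by omega : Y.card ≠ 0)
    have h9 : ((1:ℝ) / 2) ^ Y.card ≤ (1 / 2) ^ 1 :=
      pow_le_pow_of_le_one (by norm_num) (by norm_num) hYc
    linarith
  have h10 : Real.exp 1 * n / Y.card * (Real.exp 1 * n * p / d) ^ d
      = Real.exp 1 * n * (Real.exp 1 * n * p / d) ^ d / Y.card := by ring
  rw [h10, le_div_iff₀ hY0] at h8
  linarith

/-- `A` = leaves, `c` = core function: the number of cores with at least `d` leaves. -/
theorem Dense.core_tail {W : Type*} [Fintype W] [DecidableEq W] {n : ℕ} {H : SimpleGraph W}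
    {p : ℝ} (hd : Dense n H p) (A : Finset W) (c : W → W) (hadj : ∀ v ∈ A, H.Adj v (c v))
    (hc : ∀ v ∈ A, c v ∉ A) {d : ℕ} (hd1 : 1 ≤ d) :
    ((Finset.univ.filter (fun y => d ≤ (A.filter (fun v => c v = y)).card)).card : ℝ)
      ≤ 2 * Real.exp 1 * n * (Real.exp 1 * n * p / d) ^ d := by
  classical
  have hsel : ∀ y : W, ∃ L : Finset W, L ⊆ A.filter (fun v => c v = y) ∧
      (d ≤ (A.filter (fun v => c v = y)).card → L.card = d) := by
    intro y
    by_cases h : d ≤ (A.filter (fun v => c v = y)).card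
    · obtain ⟨L, hL1, hL2⟩ := Finset.exists_subset_card_eq h
      exact ⟨L, hL1, fun _ => hL2⟩
    · exact ⟨∅, Finset.empty_subset _, fun h' => absurd h' h⟩
  choose L hL1 hL2 using hsel
  have hmem : ∀ y, ∀ v ∈ L y, v ∈ A ∧ c v = y := fun y v hv => by
    simpa using hL1 y hv
  refine hd.star_tail (L := L) hd1 ?_ ?_ ?_
  · intro y hy
    exact hL2 y (Finset.mem_filter.1 hy).2
  · intro y hy v hv
    obtain ⟨h1, h2⟩ := hmem y v hv
    have := (hadj v h1).symm
    rwa [h2] at this
  · intro y hy v hv hvY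
    have h1 := (hmem y v hv).1
    have h2 := (Finset.mem_filter.1 hvY).2
    obtain ⟨u, hu⟩ := Finset.card_pos.1 (lt_of_lt_of_le hd1 h2)
    rw [Finset.mem_filter] at hu
    exact hc u hu.1 (hu.2 ▸ h1)

/-- `A` = leaves, `S v` = the cores of `v`: the number of leaves whose set contains `Z`. -/
theorem Dense.pattern_tail {W : Type*} [Fintype W] [DecidableEq W] {n : ℕ} {H : SimpleGraph W}
    {p : ℝ} (hd : Dense n H p) (hn : 1 ≤ n) (A : Finset W) (S : W → Finset W)
    (hadj : ∀ v ∈ A, ∀ y ∈ S v, H.Adj v y) {Z : Finset W} (hZ : Z.Nonempty)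
    (hlog : (Z.card : ℝ) * Real.log n ≤ n * p ^ Z.card) :
    ((A.filter (fun v => Z ⊆ S v)).card : ℝ) ≤ Real.exp 3 * n * p ^ Z.card := by
  refine hd.hub_tail hn hZ ?_ ?_ hlog
  · rw [Finset.disjoint_left]
    intro a ha ha'
    rw [Finset.mem_filter] at ha'
    exact (hadj a ha'.1 a (ha'.2 ha)).ne rfl
  · intro a ha b hb
    rw [Finset.mem_filter] at hb
    exact (hadj b hb.1 a (hb.2 ha)).symm

end Crest.Agent.R052.Setup
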