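import Crest.Agent.R052.Struct
import Crest.Agent.R052.Tails

/-!
Row 52 (S0073), helper128: the interface statements `setup`, `star_count`, `common_nbrs`.
-/

set_option autoImplicit false

open Finset Filter
open Crest.CombinatoricsR.RandomGraph

namespace Crest.Agent.R052.Setup

open Crest.Agent.R052.Struct

theorem setup (n : ℕ) (hn : 2 ≤ n) (W : Type) [Fintype W] [DecidableEq W] (H : SimpleGraph W)
    (hW : Fintype.card W ≤ n) (hH : H ≠ ⊥) :
    ∃ p : ℝ, 1 / (n : ℝ) ^ 2 ≤ p ∧ p ≤ 1 ∧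
      (∃ C : Finset (Finset (EdgeSlot n)),
        (∀ A : Finset (EdgeSlot n), H.IsContained (edgeGraph A) → ∃ S ∈ C, S ⊆ A) ∧
        ∑ S ∈ C, p ^ S.card ≤ 1 / 2) ∧
      Crit n p H := by
  obtain ⟨p, h1, h2, h3, h4, -⟩ := setup_strong n hn W H hW hH
  exact ⟨p, h1, h2.le, h3, h4⟩

theorem dense_of_crit {n : ℕ} {W : Type} [Fintype W] {H : SimpleGraph W} {p : ℝ} (hp0 : 0 < p)
    (hp : p ≤ 1) (hcrit : Crit n p H) : Dense n H p := by
  refine ⟨hp0, hp, ?_⟩
  intro J _ hJH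
  have := hcrit (copies n J) (copies_cover hJH)
  rwa [cost_copies (fun e he => H.not_isDiag_of_mem_edgeSet (hJH e he))] at this

theorem star_count (n : ℕ) (W : Type) [Fintype W] [DecidableEq W] (H : SimpleGraph W)
    (p : ℝ) (hp0 : 0 < p) (hp : p ≤ 1 / 2) (hcrit : Crit n p H)
    (A : Finset W) (f : W → W) (hf : ∀ v ∈ A, H.Adj v (f v)) (hfA : ∀ v ∈ A, f v ∉ A)
    (d : ℕ) (hd : 1 ≤ d) :
    ((univ.filter fun b => d ≤ (A.filter fun v => f v = b).card).card : ℝ) ≤
      2 * Real.exp 1 * n * (Real.exp 1 * n * p / d) ^ d :=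
  (dense_of_crit hp0 (by linarith) hcrit).core_tail A f hf hfA hd

theorem eventually_log_sq : ∀ᶠ n : ℕ in atTop, (Real.log n ^ 2) ^ 64 ≤ (n : ℝ) ^ 63 := by
  have h := (isLittleO_log_rpow_atTop (r := 63 / 128) (by norm_num)).bound
    (c := 1) one_pos
  have h2 := tendsto_natCast_atTop_atTop (R := ℝ) |>.eventually h
  filter_upwards [h2, eventually_ge_atTop 1] with n hn h1
  have hn1 : (1:ℝ) ≤ n := by exact_mod_cast h1
  have hl : 0 ≤ Real.log n := Real.log_nonneg hn1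
  rw [one_mul, Real.norm_of_nonneg hl, Real.norm_of_nonneg (by positivity)] at hn
  calc (Real.log n ^ 2) ^ 64 = Real.log n ^ 128 := by ring
    _ ≤ ((n : ℝ) ^ ((63:ℝ) / 128)) ^ 128 := pow_le_pow_left₀ hl hn _
    _ = (n : ℝ) ^ 63 := by
        rw [← Real.rpow_natCast, ← Real.rpow_mul (by linarith), ← Real.rpow_natCast]
        norm_num

theorem common_nbrs : ∃ n0 : ℕ, ∀ n ≥ n0, ∀ (W : Type) [Fintype W] [DecidableEq W]
    (H : SimpleGraph W) (p : ℝ) (z : ℕ), 0 < p → p ≤ 1 / 2 → Crit n p H →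
    1 ≤ p ^ (64 * z) * n →
    ∀ Z : Finset W, Z.Nonempty → Z.card ≤ z →
      (Set.ncard {v | ∀ u ∈ Z, H.Adj v u} : ℝ) ≤ 30 * n * p ^ Z.card := by
  classical
  obtain ⟨n0, hn0⟩ := eventually_atTop.1 (eventually_log_sq.and (eventually_ge_atTop 1))
  refine ⟨n0, fun n hn W _ _ H p z hp0 hp hcrit hz Z hZ hZz => ?_⟩
  obtain ⟨hlogsq, hn1⟩ := hn0 n hn
  have hnr : (1:ℝ) ≤ n := by exact_mod_cast hn1
  have hd := dense_of_crit hp0 (by linarith) hcrit
  have hset : {v | ∀ u ∈ Z, H.Adj v u} =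
      ((Finset.univ.filter (fun v => ∀ u ∈ Z, H.Adj v u) : Finset W) : Set W) := by
    ext v; simp
  rw [hset, Set.ncard_coe_finset]
  have hl : 0 ≤ Real.log n := Real.log_nonneg hnr
  -- size of z
  have hzlog : (z:ℝ) ≤ Real.log n := by
    have h1 : (1:ℝ) ≤ (1 / 2) ^ (64 * z) * n :=
      hz.trans (mul_le_mul_of_nonneg_right (pow_le_pow_left₀ hp0.le hp _) (by linarith))
    have h2 : Real.log 1 ≤ Real.log ((1 / 2 : ℝ) ^ (64 * z) * n) :=
      Real.log_le_log (by norm_num) h1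
    rw [Real.log_one, Real.log_mul (by positivity) (by positivity), Real.log_pow, one_div,
      Real.log_inv] at h2
    have h3 : (0.69:ℝ) < Real.log 2 := by
      have := Real.log_two_gt_d9; linarith
    push_cast at h2
    have h4 : (64 * z : ℝ) * Real.log 2 ≤ Real.log n := by linarith
    have hz0 : (0:ℝ) ≤ z := Nat.cast_nonneg z
    nlinarith
  have hZz' : (Z.card : ℝ) ≤ z := by exact_mod_cast hZz
  have hpZ : p ^ z ≤ p ^ Z.card := pow_le_pow_of_le_one hp0.le (by linarith) hZz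
  have hnpz : Real.log n ^ 2 ≤ n * p ^ z := by
    have h1 : (Real.log n ^ 2) ^ 64 ≤ (n * p ^ z) ^ 64 := by
      refine hlogsq.trans ?_
      calc (n:ℝ) ^ 63 = (n:ℝ) ^ 63 * 1 := (mul_one _).symm
        _ ≤ (n:ℝ) ^ 63 * (p ^ (64 * z) * n) := mul_le_mul_of_nonneg_left hz (by positivity)
        _ = (n * p ^ z) ^ 64 := by
            rw [mul_pow, ← pow_mul, mul_comm z 64]
            ring
    exact le_of_pow_le_pow_left₀ (by norm_num) (by positivity) h1
  have hlog : (Z.card : ℝ) * Real.log n ≤ n * p ^ Z.card := by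
    calc (Z.card : ℝ) * Real.log n ≤ Real.log n * Real.log n := by
          apply mul_le_mul_of_nonneg_right _ hl
          linarith
      _ = Real.log n ^ 2 := by ring
      _ ≤ n * p ^ z := hnpz
      _ ≤ n * p ^ Z.card := mul_le_mul_of_nonneg_left hpZ (by linarith)
  have h := hd.hub_tail (T := Finset.univ.filter (fun v => ∀ u ∈ Z, H.Adj v u)) hn1 hZ ?_ ?_ hlog
  · refine h.trans ?_
    have he : Real.exp 3 ≤ 30 := by
      have h1 := Real.exp_one_lt_d9
      have : Real.exp 3 = Real.exp 1 ^ 3 := by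
        rw [← Real.exp_nat_mul]; norm_num
      rw [this]
      calc Real.exp 1 ^ 3 ≤ (2.7182818286) ^ 3 :=
            pow_le_pow_left₀ (Real.exp_pos 1).le h1.le 3
        _ ≤ 30 := by norm_num
    have : 0 ≤ (n:ℝ) * p ^ Z.card := by positivity
    nlinarith
  · rw [Finset.disjoint_left]
    intro a ha ha'
    rw [Finset.mem_filter] at ha'
    exact (ha'.2 a ha).ne rfl
  · intro a ha b hb
    rw [Finset.mem_filter] at hb
    exact (hb.2 a ha).symm

end Crest.Agent.R052.Setup
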