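import Mathlib
import Crest.Prelude.Def_FinProb
import Crest.Prelude.Def_RandomGraph

/-! Row 52, S0073, STAR part 1: independent coins, and the serving process. -/

set_option autoImplicit false
set_option linter.unusedSectionVars false

namespace Crest.Agent.R052.Star

open Crest.FinProb Finset

section basic

variable {ι : Type*} [Fintype ι] [DecidableEq ι]

theorem bW_nonneg {p : ℝ} (h0 : 0 ≤ p) (h1 : p ≤ 1) (ω : ι → Bool) : 0 ≤ bernoulliWeight p ω := by
  unfold bernoulliWeight
  refine prod_nonneg fun i _ => ?_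
  split_ifs
  · exact h0
  · linarith

/-- expectation of a product of functions of the single coins -/
theorem sum_bW_prod (p : ℝ) (g : ι → Bool → ℝ) :
    ∑ ω : ι → Bool, bernoulliWeight p ω * ∏ i, g i (ω i)
      = ∏ i, (p * g i true + (1 - p) * g i false) := by
  have h1 : ∀ ω : ι → Bool, bernoulliWeight p ω * ∏ i, g i (ω i)
      = ∏ i, ((if ω i then p else 1 - p) * g i (ω i)) := by
    intro ω
    unfold bernoulliWeight
    rw [prod_mul_distrib]
  rw [Finset.sum_congr rfl fun ω _ => h1 ω,
    ← Fintype.prod_sum (fun i b => (if b then p else 1 - p) * g i b)]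
  refine prod_congr rfl fun i _ => ?_
  rw [Fintype.sum_bool]
  simp

theorem sum_bW (p : ℝ) : ∑ ω : ι → Bool, bernoulliWeight p ω = 1 := by
  have h := sum_bW_prod (ι := ι) p (fun _ _ => 1)
  simpa using h

/-- `(1 - p) ^ |S|`-type products: functions of the coins in `S` only -/
theorem sum_bW_prod_subset (p : ℝ) (S : Finset ι) (g : ι → Bool → ℝ) :
    ∑ ω : ι → Bool, bernoulliWeight p ω * ∏ i ∈ S, g i (ω i)
      = ∏ i ∈ S, (p * g i true + (1 - p) * g i false) := by
  classical
  have h := sum_bW_prod (ι := ι) p (fun i b => if i ∈ S then g i b else 1)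
  have h1 : ∀ ω : ι → Bool, (∏ i, if i ∈ S then g i (ω i) else 1) = ∏ i ∈ S, g i (ω i) := by
    intro ω
    rw [Fintype.prod_ite_mem]
  simp only [h1] at h
  rw [h, ← Fintype.prod_ite_mem S]
  refine prod_congr rfl fun i _ => ?_
  by_cases hi : i ∈ S
  · simp [hi]
  · simp [hi]

end basic

section serve

variable {Y : Type*} [Fintype Y] [DecidableEq Y]

/-- the weight of a random `0/1`-matrix with rows `Fin a` -/
noncomputable def rowW (P : ℝ) {a : ℕ} (M : Fin a → Y → Bool) : ℝ := ∏ i, bernoulliWeight P (M i)

theorem rowW_nonneg {P : ℝ} (h0 : 0 ≤ P) (h1 : P ≤ 1) {a : ℕ} (M : Fin a → Y → Bool) :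
    0 ≤ rowW P M := prod_nonneg fun i _ => bW_nonneg h0 h1 (M i)

theorem sum_rowW (P : ℝ) (a : ℕ) : ∑ M : Fin a → Y → Bool, rowW P M = 1 := by
  unfold rowW
  rw [← Fintype.prod_sum (fun (_ : Fin a) (ω : Y → Bool) => bernoulliWeight P ω)]
  simp [sum_bW]

theorem sum_rowW_cons (P : ℝ) (a : ℕ) (F : (Fin (a + 1) → Y → Bool) → ℝ) :
    ∑ M : Fin (a + 1) → Y → Bool, rowW P M * F M
      = ∑ b : Y → Bool, bernoulliWeight P b *
          ∑ M : Fin a → Y → Bool, rowW P M * F (Fin.cons b M) := by
  rw [← (Fin.consEquiv (fun _ : Fin (a + 1) => Y → Bool)).sum_comp, Fintype.sum_prod_type]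
  refine sum_congr rfl fun b _ => ?_
  rw [mul_sum]
  refine sum_congr rfl fun M _ => ?_
  have h : rowW P ((Fin.consEquiv (fun _ : Fin (a + 1) => Y → Bool)) (b, M))
      = bernoulliWeight P b * rowW P M := by
    unfold rowW
    rw [Fin.prod_univ_succ]
    rfl
  rw [h, mul_assoc]
  rfl

/-- the cores `Fin m` with degrees `deg` can be served by distinct rows and disjoint sets of
columns outside `R` -/
def Serv {a m : ℕ} (M : Fin a → Y → Bool) (R : Finset Y) (deg : Fin m → ℕ) : Prop :=
  ∃ (f : Fin m → Fin a) (Q : Fin m → Finset Y), Function.Injective f ∧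
    (∀ i, (Q i).card = deg i) ∧ (∀ i j, i ≠ j → Disjoint (Q i) (Q j)) ∧
    (∀ i, Disjoint (Q i) R) ∧ ∀ i, ∀ y ∈ Q i, M (f i) y = true

theorem Serv.skip {a m : ℕ} {M : Fin a → Y → Bool} {R : Finset Y} {deg : Fin m → ℕ}
    (h : Serv M R deg) (b : Y → Bool) :
    Serv (Fin.cons b M : Fin (a + 1) → Y → Bool) R deg := by
  obtain ⟨f, Q, h1, h2, h3, h4, h5⟩ := h
  exact ⟨fun i => (f i).succ, Q, fun i j hij => h1 (Fin.succ_injective _ hij), h2, h3, h4,
    fun i y hy => by simpa using h5 i y hy⟩

theorem Serv.serve {a m : ℕ} {M : Fin a → Y → Bool} {R Q0 : Finset Y} {deg : Fin (m + 1) → ℕ}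
    {b : Y → Bool} (hQ0 : Q0.card = deg 0) (hR : Disjoint Q0 R) (hb : ∀ y ∈ Q0, b y = true)
    (h : Serv M (R ∪ Q0) (fun i => deg i.succ)) :
    Serv (Fin.cons b M : Fin (a + 1) → Y → Bool) R deg := by
  obtain ⟨f, Q, h1, h2, h3, h4, h5⟩ := h
  refine ⟨Fin.cons 0 (fun i => (f i).succ), Fin.cons Q0 Q, ?_, ?_, ?_, ?_, ?_⟩
  · intro i j
    refine Fin.cases ?_ (fun i => ?_) i <;> refine Fin.cases ?_ (fun j => ?_) j
    · intro _; rfl
    · intro h
      rw [Fin.cons_zero, Fin.cons_succ] at h
      exact absurd h.symm (Fin.succ_ne_zero _)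
    · intro h
      rw [Fin.cons_zero, Fin.cons_succ] at h
      exact absurd h (Fin.succ_ne_zero _)
    · intro h
      simp only [Fin.cons_succ] at h
      rw [h1 (Fin.succ_injective _ h)]
  · intro i
    refine Fin.cases ?_ (fun i => ?_) i
    · simpa using hQ0
    · simpa using h2 i
  · intro i j
    have h4' : ∀ i, Disjoint (Q i) Q0 := fun i => (h4 i).mono_right subset_union_right
    refine Fin.cases ?_ (fun i => ?_) i <;> refine Fin.cases ?_ (fun j => ?_) j
    · intro h; exact absurd rfl h
    · intro _; simpa using (h4' j).symm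
    · intro _; simpa using h4' i
    · intro h
      simpa using h3 i j (fun hh => h (by rw [hh]))
  · intro i
    refine Fin.cases ?_ (fun i => ?_) i
    · simpa using hR
    · simpa using (h4 i).mono_right subset_union_left
  · intro i
    refine Fin.cases ?_ (fun i => ?_) i
    · simpa using hb
    · simpa using h5 i

theorem Serv.zero {a : ℕ} (M : Fin a → Y → Bool) (R : Finset Y) (deg : Fin 0 → ℕ) :
    Serv M R deg :=
  ⟨Fin.elim0, Fin.elim0, fun i => i.elim0, fun i => i.elim0, fun i => i.elim0, fun i => i.elim0,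
    fun i => i.elim0⟩

/-- the probability that the cores cannot be served -/
noncomputable def pf (P : ℝ) (a m : ℕ) (R : Finset Y) (deg : Fin m → ℕ) : ℝ :=
  open Classical in ∑ M : Fin a → Y → Bool, rowW P M * (if Serv M R deg then 0 else 1)

theorem pf_nonneg {P : ℝ} (h0 : 0 ≤ P) (h1 : P ≤ 1) (a m : ℕ) (R : Finset Y) (deg : Fin m → ℕ) :
    0 ≤ pf P a m R deg := by
  classical
  unfold pf
  refine sum_nonneg fun M _ => mul_nonneg (rowW_nonneg h0 h1 M) ?_
  split_ifs <;> norm_num

theorem pf_le_one {P : ℝ} (h0 : 0 ≤ P) (h1 : P ≤ 1) (a m : ℕ) (R : Finset Y) (deg : Fin m → ℕ) :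
    pf P a m R deg ≤ 1 := by
  classical
  rw [← sum_rowW (Y := Y) P a]
  unfold pf
  refine sum_le_sum fun M _ => ?_
  have := rowW_nonneg h0 h1 M
  split_ifs <;> linarith

/-- number of fresh successes -/
def fresh (R : Finset Y) (b : Y → Bool) : Finset Y := univ.filter (fun y => y ∉ R ∧ b y = true)

/-- **the serving process**: the failure probability is at most the total need divided by the
number of rows -/
theorem mul_pf_le (P : ℝ) (h0 : 0 ≤ P) (h1 : P ≤ 1) (K : ℕ) (π : ℕ → ℝ) (hπ0 : ∀ d, 0 < π d)
    (hπ : ∀ (R : Finset Y) (d : ℕ), R.card + d ≤ K →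
      π d ≤ ∑ b : Y → Bool, bernoulliWeight P b * (if d ≤ (fresh R b).card then 1 else 0)) :
    ∀ (a m : ℕ) (R : Finset Y) (deg : Fin m → ℕ), R.card + ∑ i, deg i ≤ K →
      (a : ℝ) * pf P a m R deg ≤ ∑ i, 1 / π (deg i) := by
  classical
  intro a
  induction a with
  | zero =>
    intro m R deg _
    rw [Nat.cast_zero, zero_mul]
    exact sum_nonneg fun i _ => by have := hπ0 (deg i); positivity
  | succ a ih =>
    intro m
    cases m with
    | zero =>
      intro R deg _
      have h : pf P (a + 1) 0 R deg = 0 := by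
        unfold pf
        refine sum_eq_zero fun M _ => ?_
        rw [if_pos (Serv.zero M R deg), mul_zero]
      rw [h, mul_zero]
      exact sum_nonneg fun i _ => by have := hπ0 (deg i); positivity
    | succ m =>
      intro R deg hK
      set h : ℝ := ∑ i, 1 / π (deg i) with hh
      set h' : ℝ := ∑ i : Fin m, 1 / π (deg i.succ) with hh'
      have hsum : h = 1 / π (deg 0) + h' := by
        rw [hh, hh', Fin.sum_univ_succ]
      have hdeg : ∑ i, deg i = deg 0 + ∑ i : Fin m, deg i.succ := Fin.sum_univ_succ _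
      have hpos := hπ0 (deg 0)
      -- one step
      have hstep : (a : ℝ) * pf P (a + 1) (m + 1) R deg
          ≤ ∑ b : Y → Bool, bernoulliWeight P b *
            (h - (1 / π (deg 0)) * (if deg 0 ≤ (fresh R b).card then 1 else 0)) := by
        unfold pf
        rw [sum_rowW_cons, mul_sum]
        refine sum_le_sum fun b _ => ?_
        rw [mul_left_comm]
        refine mul_le_mul_of_nonneg_left ?_ (bW_nonneg h0 h1 b)
        by_cases hb : deg 0 ≤ (fresh R b).card
        · rw [if_pos hb]
          obtain ⟨Q0, hQ0, hQc⟩ := Finset.exists_subset_card_eq hb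
          have hQR : Disjoint Q0 R := by
            rw [Finset.disjoint_left]
            intro y hy hyR
            exact ((mem_filter.1 (hQ0 hy)).2.1) hyR
          have hQb : ∀ y ∈ Q0, b y = true := fun y hy => (mem_filter.1 (hQ0 hy)).2.2
          have hIH := ih m (R ∪ Q0) (fun i => deg i.succ) (by
            rw [card_union_of_disjoint hQR.symm, hQc]; omega)
          have hle : ∑ M : Fin a → Y → Bool, rowW P M *
              (if Serv (Fin.cons b M : Fin (a + 1) → Y → Bool) R deg then (0:ℝ) else 1)
              ≤ pf P a m (R ∪ Q0) (fun i => deg i.succ) := by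
            unfold pf
            refine sum_le_sum fun M _ => ?_
            refine mul_le_mul_of_nonneg_left ?_ (rowW_nonneg h0 h1 M)
            by_cases hs : Serv M (R ∪ Q0) (fun i => deg i.succ)
            · rw [if_pos hs, if_pos (Serv.serve hQc hQR hQb hs)]
            · rw [if_neg hs]
              split_ifs <;> norm_num
          have h3 := mul_le_mul_of_nonneg_left hle (Nat.cast_nonneg (α := ℝ) a)
          rw [mul_one]
          have h4 : h - 1 / π (deg 0) = h' := by rw [hsum]; ring
          rw [h4]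
          exact h3.trans hIH
        · rw [if_neg hb]
          have hIH := ih (m + 1) R deg hK
          have hle : ∑ M : Fin a → Y → Bool, rowW P M *
              (if Serv (Fin.cons b M : Fin (a + 1) → Y → Bool) R deg then (0:ℝ) else 1)
              ≤ pf P a (m + 1) R deg := by
            unfold pf
            refine sum_le_sum fun M _ => ?_
            refine mul_le_mul_of_nonneg_left ?_ (rowW_nonneg h0 h1 M)
            by_cases hs : Serv M R deg
            · rw [if_pos hs, if_pos (hs.skip b)]
            · rw [if_neg hs]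
              split_ifs <;> norm_num
          have h3 := mul_le_mul_of_nonneg_left hle (Nat.cast_nonneg (α := ℝ) a)
          rw [mul_zero, sub_zero]
          exact h3.trans hIH
      have hprob := hπ R (deg 0) (by omega)
      have hstep2 : ∑ b : Y → Bool, bernoulliWeight P b *
            (h - (1 / π (deg 0)) * (if deg 0 ≤ (fresh R b).card then 1 else 0)) ≤ h - 1 := by
        have e1 : ∑ b : Y → Bool, bernoulliWeight P b *
            (h - (1 / π (deg 0)) * (if deg 0 ≤ (fresh R b).card then (1:ℝ) else 0))
            = h * ∑ b : Y → Bool, bernoulliWeight P b - (1 / π (deg 0)) *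
              ∑ b : Y → Bool, bernoulliWeight P b * (if deg 0 ≤ (fresh R b).card then 1 else 0) := by
          rw [mul_sum, mul_sum, ← sum_sub_distrib]
          refine sum_congr rfl fun b _ => ?_
          ring
        rw [e1, sum_bW, mul_one]
        have h2 : 1 ≤ (1 / π (deg 0)) *
              ∑ b : Y → Bool, bernoulliWeight P b * (if deg 0 ≤ (fresh R b).card then 1 else 0) := by
          rw [one_div, inv_mul_eq_div, le_div_iff₀ hpos, one_mul]
          exact hprob
        linarith
      have h5 := hstep.trans hstep2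
      have h6 := pf_le_one h0 h1 (a + 1) (m + 1) R deg
      push_cast
      rw [add_mul, one_mul]
      linarith

end serve

end Crest.Agent.R052.Star
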