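import Mathlib

/-!
Numeric half of the STAR lemma of row 52 (S0073): the sum `∑ 1/π(d_j) ≤ n/8`.
-/

set_option autoImplicit false

namespace Crest.Agent.R052.Star

/-- lower bound for `P(Bin(N,P) ≥ d)`, `μ = N P` -/
noncomputable def piB (μ : ℝ) (d : ℕ) : ℝ :=
  if 8 * (d : ℝ) ≤ μ then 1 / 2 else (μ * Real.exp (-45) / d) ^ d

lemma sum_geom_Icc_le (q : ℝ) (hq0 : 0 ≤ q) (hq : q ≤ 1 / 2) (N : ℕ) :
    ∑ d ∈ Finset.Icc 1 N, q ^ d ≤ 2 * q := by
  have h : ∀ N : ℕ, ∑ d ∈ Finset.Icc 1 N, q ^ d ≤ 2 * q - 2 * (q * q ^ N) := by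
    intro N
    induction N with
    | zero => simp
    | succ N ih =>
      rw [Finset.sum_Icc_succ_top (by omega)]
      have h1 : 0 ≤ q ^ (N + 1) := by positivity
      have e : q * q ^ N = q ^ (N + 1) := by rw [pow_succ]; ring
      have : q * q ^ (N + 1) ≤ 1 / 2 * q ^ (N + 1) := mul_le_mul_of_nonneg_right hq h1
      have h2 : 0 ≤ q * q ^ N := by positivity
      linarith
  have h1 := h N
  have h2 : 0 ≤ q * q ^ N := by positivity
  linarith

theorem star_num (n : ℕ) (p : ℝ) (hp : 0 < p) {m : ℕ} (deg : Fin m → ℕ)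
    (hdeg : ∀ i, 1 ≤ deg i) (hsum : 64 * ∑ i, deg i ≤ n)
    (hst : ∀ d : ℕ, 1 ≤ d → ((Finset.univ.filter (fun i => d ≤ deg i)).card : ℝ) ≤
      2 * Real.exp 1 * n * (Real.exp 1 * n * p / d) ^ d) :
    ∑ i, 1 / piB (3 / 8 * n * (Real.exp 60 * p)) (deg i) ≤ n / 8 := by
  set μ : ℝ := 3 / 8 * n * (Real.exp 60 * p) with hμ
  have hm : 64 * m ≤ n := by
    have h1 : m ≤ ∑ i, deg i := by
      calc m = ∑ _i : Fin m, 1 := by simp
        _ ≤ ∑ i, deg i := Finset.sum_le_sum (fun i _ => hdeg i)
    omega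
  rcases Nat.eq_zero_or_pos n with hn | hn
  · have hm0 : m = 0 := by omega
    subst hm0
    simp
    positivity
  have hnpos : (0 : ℝ) < n := by exact_mod_cast hn
  have hμpos : 0 < μ := by rw [hμ]; positivity
  set g : ℕ → ℝ := fun d => (d * Real.exp 45 / μ) ^ d with hg
  have hgnn : ∀ d, 0 ≤ g d := fun d => by simp only [hg]; positivity
  have key : ∀ i, 1 / piB μ (deg i) ≤ 2 + g (deg i) := by
    intro i
    unfold piB
    split_ifs with h
    · have := hgnn (deg i); norm_num; linarith
    · have hd : (0 : ℝ) < deg i := by exact_mod_cast hdeg i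
      have e : 1 / (μ * Real.exp (-45) / (deg i : ℝ)) ^ deg i = g (deg i) := by
        simp only [hg]
        rw [one_div, ← inv_pow, Real.exp_neg]
        congr 1
        field_simp
      rw [e]; linarith
  set q : ℝ := 8 / 3 * Real.exp (-14) with hq
  have hq0 : 0 ≤ q := by rw [hq]; positivity
  have he14 : Real.exp (-14) ≤ 1 / 16384 := by
    rw [Real.exp_neg, ← one_div]
    apply one_div_le_one_div_of_le (by norm_num)
    have h2 : (2 : ℝ) ≤ Real.exp 1 := by
      have := Real.add_one_le_exp (1 : ℝ); linarith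
    calc (16384 : ℝ) = 2 ^ 14 := by norm_num
      _ ≤ Real.exp 1 ^ 14 := pow_le_pow_left₀ (by norm_num) h2 14
      _ = Real.exp 14 := by rw [← Real.exp_nat_mul]; norm_num
  have hq1 : q ≤ 1 / 1000 := by rw [hq]; linarith
  have he1 : Real.exp 1 ≤ 3 := by
    have := Real.exp_one_lt_d9; linarith
  -- the sum of g
  have hgsum : ∑ i, g (deg i) ≤ n / 16 := by
    have hmaps : ∀ i ∈ (Finset.univ : Finset (Fin m)), deg i ∈ Finset.Icc 1 n := by
      intro i _
      rw [Finset.mem_Icc]
      refine ⟨hdeg i, ?_⟩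
      have : deg i ≤ ∑ i, deg i := Finset.single_le_sum (f := deg) (fun _ _ => Nat.zero_le _)
        (Finset.mem_univ i)
      omega
    rw [← Finset.sum_fiberwise_of_maps_to hmaps]
    have hterm : ∀ d ∈ Finset.Icc 1 n,
        ∑ i ∈ Finset.univ.filter (fun i => deg i = d), g (deg i) ≤
          2 * Real.exp 1 * n * q ^ d := by
      intro d hd
      rw [Finset.mem_Icc] at hd
      have hdpos : (0 : ℝ) < d := by exact_mod_cast hd.1
      have e1 : ∑ i ∈ Finset.univ.filter (fun i => deg i = d), g (deg i) =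
          ((Finset.univ.filter (fun i => deg i = d)).card : ℝ) * g d := by
        rw [← nsmul_eq_mul, ← Finset.sum_const]
        apply Finset.sum_congr rfl
        intro i hi
        rw [Finset.mem_filter] at hi
        rw [hi.2]
      rw [e1]
      have h1 : ((Finset.univ.filter (fun i => deg i = d)).card : ℝ) ≤
          ((Finset.univ.filter (fun i => d ≤ deg i)).card : ℝ) := by
        exact_mod_cast Finset.card_le_card (by
          intro i hi
          rw [Finset.mem_filter] at hi ⊢
          exact ⟨hi.1, hi.2.ge⟩)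
      calc ((Finset.univ.filter (fun i => deg i = d)).card : ℝ) * g d
          ≤ (2 * Real.exp 1 * n * (Real.exp 1 * n * p / d) ^ d) * g d :=
            mul_le_mul_of_nonneg_right (h1.trans (hst d hd.1)) (hgnn d)
        _ = 2 * Real.exp 1 * n * ((Real.exp 1 * n * p / d) * (d * Real.exp 45 / μ)) ^ d := by
            simp only [hg]; rw [mul_pow]; ring
        _ = 2 * Real.exp 1 * n * q ^ d := by
            congr 2
            rw [hq, hμ]
            have e2 : Real.exp 60 = Real.exp 1 * Real.exp 45 * Real.exp 14 := by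
              rw [← Real.exp_add, ← Real.exp_add]; norm_num
            rw [e2, Real.exp_neg]
            field_simp
    calc ∑ d ∈ Finset.Icc 1 n, ∑ i ∈ Finset.univ.filter (fun i => deg i = d), g (deg i)
        ≤ ∑ d ∈ Finset.Icc 1 n, 2 * Real.exp 1 * n * q ^ d := Finset.sum_le_sum hterm
      _ = 2 * Real.exp 1 * n * ∑ d ∈ Finset.Icc 1 n, q ^ d := by rw [Finset.mul_sum]
      _ ≤ 2 * Real.exp 1 * n * (2 * q) := by
          apply mul_le_mul_of_nonneg_left (sum_geom_Icc_le q hq0 (by linarith) n)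
          positivity
      _ ≤ 2 * 3 * n * (2 * (1 / 1000)) := by
          gcongr
      _ ≤ n / 16 := by nlinarith
  calc ∑ i, 1 / piB μ (deg i) ≤ ∑ i, (2 + g (deg i)) := Finset.sum_le_sum (fun i _ => key i)
    _ = 2 * m + ∑ i, g (deg i) := by
        rw [Finset.sum_add_distrib]; simp; ring
    _ ≤ n / 8 := by
        have : (64 : ℝ) * m ≤ n := by exact_mod_cast hm
        linarith

end Crest.Agent.R052.Star
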