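import Crest.Agent.R052.Star1
import Crest.Agent.R052.StarNum

/-! Row 52, S0073, STAR part 2: lower bound for the probability of `d` successes. -/

set_option autoImplicit false
set_option linter.unusedSectionVars false

namespace Crest.Agent.R052.Star

open Crest.FinProb Finset

section tail

variable {Y : Type*} [Fintype Y] [DecidableEq Y]

theorem exp_one_ge_two : (2 : ℝ) ≤ Real.exp 1 := by
  have := Real.add_one_le_exp (1 : ℝ)
  linarith

theorem tail_big {P : ℝ} (h0 : 0 ≤ P) (h1 : P ≤ 1) (F : Finset Y) (d : ℕ) {μ : ℝ}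
    (hμ : μ ≤ P * F.card) (hd : 8 * (d : ℝ) ≤ μ) (hd1 : 1 ≤ d) :
    (1 / 2 : ℝ) ≤ ∑ b : Y → Bool, bernoulliWeight P b *
      (if d ≤ (F.filter (fun y => b y = true)).card then 1 else 0) := by
  classical
  have hsum := sum_bW (ι := Y) P
  have key : ∑ b : Y → Bool, bernoulliWeight P b *
      (if d ≤ (F.filter (fun y => b y = true)).card then 0 else 1) ≤ 1 / 2 := by
    have hpt : ∀ b : Y → Bool,
        (if d ≤ (F.filter (fun y => b y = true)).card then (0:ℝ) else 1)
          ≤ Real.exp d * ∏ y ∈ F, (if b y = true then Real.exp (-1) else 1) := by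
      intro b
      have hprod : ∏ y ∈ F, (if b y = true then Real.exp (-1) else (1:ℝ))
          = Real.exp (-((F.filter (fun y => b y = true)).card : ℝ)) := by
        rw [← prod_filter, prod_const, ← Real.exp_nat_mul]
        congr 1; ring
      rw [hprod, ← Real.exp_add]
      split_ifs with hc
      · positivity
      · push Not at hc
        have : (((F.filter (fun y => b y = true)).card : ℕ) : ℝ) < d := by exact_mod_cast hc
        exact Real.one_le_exp (by linarith)
    calc ∑ b : Y → Bool, bernoulliWeight P b *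
          (if d ≤ (F.filter (fun y => b y = true)).card then (0:ℝ) else 1)
        ≤ ∑ b : Y → Bool, bernoulliWeight P b *
          (Real.exp d * ∏ y ∈ F, (if b y = true then Real.exp (-1) else 1)) :=
          sum_le_sum fun b _ => mul_le_mul_of_nonneg_left (hpt b) (bW_nonneg h0 h1 b)
      _ = Real.exp d * ∑ b : Y → Bool, bernoulliWeight P b *
            ∏ y ∈ F, (if b y = true then Real.exp (-1) else 1) := by
          rw [mul_sum]; exact sum_congr rfl fun b _ => by ring
      _ = Real.exp d * (P * Real.exp (-1) + (1 - P)) ^ F.card := by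
          rw [sum_bW_prod_subset P F (fun _ t => if t = true then Real.exp (-1) else 1)]
          simp
      _ ≤ Real.exp d * Real.exp (-(P * F.card) / 2) := by
          refine mul_le_mul_of_nonneg_left ?_ (Real.exp_pos _).le
          have he : Real.exp (-1) ≤ 1 / 2 := by
            rw [Real.exp_neg, ← one_div]
            exact one_div_le_one_div_of_le (by norm_num) exp_one_ge_two
          have hb : P * Real.exp (-1) + (1 - P) ≤ Real.exp (-P / 2) := by
            have h2 := Real.add_one_le_exp (-P / 2)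
            nlinarith
          have hnn : 0 ≤ P * Real.exp (-1) + (1 - P) := by
            have := Real.exp_pos (-1); nlinarith [mul_nonneg h0 this.le]
          calc (P * Real.exp (-1) + (1 - P)) ^ F.card ≤ (Real.exp (-P / 2)) ^ F.card :=
                pow_le_pow_left₀ hnn hb _
            _ = Real.exp (-(P * F.card) / 2) := by
                rw [← Real.exp_nat_mul]; congr 1; ring
      _ ≤ 1 / 2 := by
          rw [← Real.exp_add]
          have hd1' : (1:ℝ) ≤ d := by exact_mod_cast hd1
          have h3 : (d:ℝ) + -(P * F.card) / 2 ≤ -1 := by linarith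
          refine (Real.exp_le_exp.2 h3).trans ?_
          rw [Real.exp_neg, ← one_div]
          exact one_div_le_one_div_of_le (by norm_num) exp_one_ge_two
  have hadd : ∑ b : Y → Bool, bernoulliWeight P b *
      (if d ≤ (F.filter (fun y => b y = true)).card then (1:ℝ) else 0)
      + ∑ b : Y → Bool, bernoulliWeight P b *
      (if d ≤ (F.filter (fun y => b y = true)).card then (0:ℝ) else 1) = 1 := by
    rw [← sum_add_distrib]
    refine Eq.trans (sum_congr rfl fun b _ => ?_) hsum
    split_ifs <;> ring
  linarith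

theorem prob_exact (P : ℝ) (F S : Finset Y) (hS : S ⊆ F) :
    ∑ b : Y → Bool, bernoulliWeight P b * (if F.filter (fun y => b y = true) = S then 1 else 0)
      = P ^ S.card * (1 - P) ^ (F.card - S.card) := by
  classical
  have hpt : ∀ b : Y → Bool, (if F.filter (fun y => b y = true) = S then (1:ℝ) else 0)
      = ∏ y ∈ F, (if y ∈ S then (if b y = true then 1 else 0) else (if b y = true then 0 else 1)) := by
    intro b
    by_cases h : F.filter (fun y => b y = true) = S
    · rw [if_pos h]
      symm
      refine prod_eq_one fun y hy => ?_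
      have hyS : y ∈ S ↔ b y = true := by
        rw [← h, mem_filter]; exact ⟨fun hh => hh.2, fun hh => ⟨hy, hh⟩⟩
      by_cases hb : b y = true
      · simp [hb, hyS.2 hb]
      · have : y ∉ S := fun hh => hb (hyS.1 hh)
        simp [hb, this]
    · rw [if_neg h]
      symm
      have hex : ∃ y ∈ F, ¬ (y ∈ S ↔ b y = true) := by
        by_contra hcon
        push Not at hcon
        apply h
        ext y
        rw [mem_filter]
        constructor
        · rintro ⟨hy, hb⟩; exact (hcon y hy).2 hb
        · intro hy; exact ⟨hS hy, (hcon y (hS hy)).1 hy⟩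
      obtain ⟨y, hy, hne⟩ := hex
      refine prod_eq_zero hy ?_
      by_cases hyS : y ∈ S <;> by_cases hb : b y = true
      · exact absurd ⟨fun _ => hb, fun _ => hyS⟩ hne
      · simp [hyS, hb]
      · simp [hyS, hb]
      · exact absurd ⟨fun hh => absurd hh hyS, fun hh => absurd hh hb⟩ hne
  rw [sum_congr rfl fun b _ => by rw [hpt b],
    sum_bW_prod_subset P F (fun y t => if y ∈ S then (if t = true then (1:ℝ) else 0)
      else (if t = true then 0 else 1))]
  have h2 : ∀ y ∈ F, (P * (if y ∈ S then (if (true : Bool) = true then (1:ℝ) else 0)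
      else (if (true : Bool) = true then 0 else 1)) + (1 - P) * (if y ∈ S then
        (if (false : Bool) = true then (1:ℝ) else 0) else (if (false : Bool) = true then 0 else 1)))
      = if y ∈ S then P else 1 - P := by
    intro y _
    by_cases hy : y ∈ S
    · simp [hy]
    · simp [hy]
  rw [prod_congr rfl h2, prod_ite, prod_const, prod_const]
  have h3 : F.filter (fun y => y ∈ S) = S := by
    ext y; rw [mem_filter]; exact ⟨fun h => h.2, fun h => ⟨hS h, h⟩⟩
  have h4 : (F.filter (fun y => y ∉ S)).card = F.card - S.card := by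
    have := Finset.card_filter_add_card_filter_not (s := F) (fun y => y ∈ S)
    rw [h3] at this
    omega
  rw [h3, h4]

theorem tail_small {P : ℝ} (h0 : 0 ≤ P) (h1 : P ≤ 1) (F : Finset Y) (d : ℕ) :
    (F.card.choose d : ℝ) * (P ^ d * (1 - P) ^ (F.card - d)) ≤ ∑ b : Y → Bool,
      bernoulliWeight P b * (if d ≤ (F.filter (fun y => b y = true)).card then 1 else 0) := by
  classical
  have h2 : (F.card.choose d : ℝ) * (P ^ d * (1 - P) ^ (F.card - d))
      = ∑ S ∈ F.powersetCard d, ∑ b : Y → Bool, bernoulliWeight P b *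
        (if F.filter (fun y => b y = true) = S then 1 else 0) := by
    rw [← card_powersetCard d F, ← nsmul_eq_mul, ← sum_const]
    refine sum_congr rfl fun S hS => ?_
    rw [mem_powersetCard] at hS
    rw [prob_exact P F S hS.1, hS.2]
  rw [h2, sum_comm]
  refine sum_le_sum fun b _ => ?_
  rw [← mul_sum]
  refine mul_le_mul_of_nonneg_left ?_ (bW_nonneg h0 h1 b)
  rw [sum_ite_eq]
  by_cases h3 : F.filter (fun y => b y = true) ∈ F.powersetCard d
  · rw [if_pos h3, if_pos (by rw [mem_powersetCard] at h3; exact h3.2.ge)]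
  · rw [if_neg h3]
    split_ifs <;> norm_num

theorem choose_ge {N d : ℕ} (hd : 1 ≤ d) (h : 2 * d ≤ N) :
    ((N : ℝ) / (2 * d)) ^ d ≤ (N.choose d : ℝ) := by
  have h1 := Nat.pow_le_choose (α := ℝ) d N
  refine le_trans ?_ h1
  have hd0 : (0:ℝ) < d := by exact_mod_cast hd
  have hfac : ((d.factorial : ℕ) : ℝ) ≤ (d:ℝ) ^ d := by exact_mod_cast Nat.factorial_le_pow d
  have hfac0 : (0:ℝ) < (d.factorial : ℝ) := by exact_mod_cast Nat.factorial_pos d
  have h2 : (N:ℝ) / 2 ≤ ((N + 1 - d : ℕ) : ℝ) := by
    rw [Nat.cast_sub (by omega)]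
    push_cast
    have : (2:ℝ) * d ≤ N := by exact_mod_cast h
    linarith
  rw [le_div_iff₀ hfac0]
  calc ((N : ℝ) / (2 * d)) ^ d * (d.factorial : ℝ) ≤ ((N : ℝ) / (2 * d)) ^ d * (d:ℝ) ^ d :=
        mul_le_mul_of_nonneg_left hfac (by positivity)
    _ = ((N:ℝ) / 2) ^ d := by
        rw [← mul_pow]; congr 1; field_simp
    _ ≤ _ := pow_le_pow_left₀ (by positivity) h2 d

theorem one_sub_pow_ge {P : ℝ} (h0 : 0 ≤ P) (h1 : P ≤ 1 / 2) (N : ℕ) :
    Real.exp (-(2 * P * N)) ≤ (1 - P) ^ N := by
  have h2 : Real.exp (-(2 * P)) ≤ 1 - P := by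
    have h3 := Real.add_one_le_exp (2 * P)
    have h4 : 1 ≤ (1 - P) * Real.exp (2 * P) := by
      have : (1 - P) * (2 * P + 1) ≤ (1 - P) * Real.exp (2 * P) :=
        mul_le_mul_of_nonneg_left h3 (by linarith)
      nlinarith
    rw [Real.exp_neg, ← one_div, div_le_iff₀ (Real.exp_pos _)]
    exact h4
  calc Real.exp (-(2 * P * N)) = (Real.exp (-(2 * P))) ^ N := by
        rw [← Real.exp_nat_mul]; congr 1; ring
    _ ≤ _ := pow_le_pow_left₀ (Real.exp_pos _).le h2 N

/-- **tail bound** -/
theorem tail_bound {P : ℝ} (h0 : 0 ≤ P) (h1 : P ≤ 1) (n : ℕ) (hY1 : (n : ℝ) / 2 ≤ Fintype.card Y)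
    (hY2 : Fintype.card Y ≤ n) (R : Finset Y) (d : ℕ) (hRd : 64 * (R.card + d) ≤ n) :
    piB (3 / 8 * n * P) d ≤ ∑ b : Y → Bool, bernoulliWeight P b *
      (if d ≤ (fresh R b).card then 1 else 0) := by
  classical
  have hfr : ∀ b : Y → Bool, fresh R b = (Rᶜ).filter (fun y => b y = true) := by
    intro b
    ext y
    simp [fresh]
  simp only [hfr]
  have hRd' : (64:ℝ) * (R.card + d) ≤ n := by exact_mod_cast hRd
  have hF : ((Rᶜ).card : ℝ) = Fintype.card Y - R.card := by
    rw [card_compl, Nat.cast_sub (card_le_univ R)]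
  have hR0 : (0:ℝ) ≤ R.card := Nat.cast_nonneg _
  have hdn : (0:ℝ) ≤ d := Nat.cast_nonneg _
  have hF1 : 3 / 8 * (n:ℝ) ≤ (Rᶜ).card := by rw [hF]; linarith
  have hF2 : ((Rᶜ).card : ℝ) ≤ n := by
    rw [hF]
    have : (Fintype.card Y : ℝ) ≤ n := by exact_mod_cast hY2
    linarith
  unfold piB
  split_ifs with hd
  · rcases Nat.eq_zero_or_pos d with hz | hz
    · subst hz
      simp only [Nat.zero_le, if_true, mul_one]
      rw [sum_bW]; norm_num
    · exact tail_big h0 h1 _ d (by nlinarith) hd hz
  · push Not at hd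
    have hd1 : 1 ≤ d := by
      by_contra hcon
      have : d = 0 := by omega
      subst this
      simp only [Nat.cast_zero, mul_zero] at hd
      have : 0 ≤ 3 / 8 * (n:ℝ) * P := by positivity
      linarith
    have hd1' : (1:ℝ) ≤ d := by exact_mod_cast hd1
    have hP2 : P ≤ 1 / 2 := by
      by_contra hcon
      push Not at hcon
      nlinarith
    have h2d : 2 * d ≤ (Rᶜ).card := by
      have : (2:ℝ) * d ≤ (Rᶜ).card := by nlinarith
      exact_mod_cast this
    refine le_trans ?_ (tail_small h0 h1 (Rᶜ) d)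
    have hc := choose_ge hd1 h2d
    have hp := one_sub_pow_ge h0 hP2 (Rᶜ).card
    have hp' : (1 - P) ^ (Rᶜ).card ≤ (1 - P) ^ ((Rᶜ).card - d) :=
      pow_le_pow_of_le_one (by linarith) (by linarith) (Nat.sub_le _ _)
    have he : Real.exp (-(43 * d)) ≤ (1 - P) ^ ((Rᶜ).card - d) := by
      refine le_trans (Real.exp_le_exp.2 ?_) (hp.trans hp')
      nlinarith
    have hPn : 3 / 8 * (n:ℝ) * P ≤ (Rᶜ).card * P := mul_le_mul_of_nonneg_right hF1 h0
    have he2 : Real.exp (-45) ≤ Real.exp (-43) / 2 := by
      have h3 : Real.exp (-45) = Real.exp (-43) * Real.exp (-2) := by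
        rw [← Real.exp_add]; norm_num
      have h4 : Real.exp (-2) ≤ 1 / 2 := by
        rw [Real.exp_neg, ← one_div]
        refine one_div_le_one_div_of_le (by norm_num) ?_
        have := Real.add_one_le_exp (2:ℝ)
        linarith
      rw [h3]
      have := Real.exp_pos (-43)
      nlinarith
    calc (3 / 8 * (n:ℝ) * P * Real.exp (-45) / d) ^ d
        ≤ ((Rᶜ).card / (2 * d) * P * Real.exp (-43)) ^ d := by
          refine pow_le_pow_left₀ (by positivity) ?_ d
          rw [div_le_iff₀ (by linarith)]
          have h5 : (Rᶜ).card / (2 * (d:ℝ)) * P * Real.exp (-43) * d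
              = (Rᶜ).card * P * (Real.exp (-43) / 2) := by
            field_simp
          rw [h5]
          have h6 := Real.exp_pos (-45)
          have h7 : 0 ≤ ((Rᶜ).card : ℝ) * P := by positivity
          calc 3 / 8 * (n:ℝ) * P * Real.exp (-45) ≤ (Rᶜ).card * P * Real.exp (-45) :=
                mul_le_mul_of_nonneg_right hPn h6.le
            _ ≤ _ := mul_le_mul_of_nonneg_left he2 h7
      _ = ((Rᶜ).card / (2 * (d:ℝ))) ^ d * (P ^ d * Real.exp (-(43 * d))) := by
          rw [mul_pow, mul_pow, mul_assoc]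
          congr 2
          rw [← Real.exp_nat_mul]; congr 1; ring
      _ ≤ _ := by
          refine mul_le_mul hc ?_ (by positivity) (by positivity)
          exact mul_le_mul_of_nonneg_left he (by positivity)

end tail

end Crest.Agent.R052.Star
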