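import Crest.Agent.R052.Star2
import Crest.Agent.R052.Struct

/-! Row 52, S0073, STAR part 3: star forests in `G(n, L p)`. -/

set_option autoImplicit false
set_option linter.unusedSectionVars false

namespace Crest.Agent.R052.Star

open Crest.FinProb Finset Crest.CombinatoricsR.RandomGraph

section marg

variable {ι : Type*} [Fintype ι] [DecidableEq ι] {Y : Type*} [Fintype Y] [DecidableEq Y]

/-- marginal: coins at the places `e (i, y)` form a random matrix -/
theorem sum_marg (P : ℝ) {a : ℕ} (e : Fin a × Y → ι) (he : Function.Injective e)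
    (Φ : (Fin a → Y → Bool) → ℝ) :
    ∑ ω : ι → Bool, bernoulliWeight P ω * Φ (fun i y => ω (e (i, y)))
      = ∑ M : Fin a → Y → Bool, rowW P M * Φ M := by
  classical
  have key : ∀ M : Fin a → Y → Bool, ∑ ω : ι → Bool, bernoulliWeight P ω *
      (if (fun i y => ω (e (i, y))) = M then 1 else 0) = rowW P M := by
    intro M
    set ext : ι → Bool := Function.extend e (fun q => M q.1 q.2) (fun _ => false) with hext
    have hexte : ∀ q, ext (e q) = M q.1 q.2 := fun q => he.extend_apply _ _ _
    have hpt : ∀ ω : ι → Bool, (if (fun i y => ω (e (i, y))) = M then (1:ℝ) else 0)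
        = ∏ k ∈ univ.image e, (if ω k = ext k then 1 else 0) := by
      intro ω
      rw [prod_image (fun x _ y _ h => he h)]
      by_cases h : (fun i y => ω (e (i, y))) = M
      · rw [if_pos h]
        symm
        refine prod_eq_one fun q _ => ?_
        rw [if_pos]
        rw [hexte, ← h]
      · rw [if_neg h]
        symm
        have : ∃ q : Fin a × Y, ω (e q) ≠ M q.1 q.2 := by
          by_contra hcon
          push Not at hcon
          exact h (funext fun i => funext fun y => hcon (i, y))
        obtain ⟨q, hq⟩ := this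
        refine prod_eq_zero (mem_univ q) ?_
        rw [if_neg]
        rw [hexte]; exact hq
    rw [sum_congr rfl fun ω _ => by rw [hpt ω],
      sum_bW_prod_subset P (univ.image e) (fun k t => if t = ext k then (1:ℝ) else 0),
      prod_image (fun x _ y _ h => he h)]
    unfold rowW bernoulliWeight
    rw [Fintype.prod_prod_type]
    refine prod_congr rfl fun i _ => prod_congr rfl fun y _ => ?_
    rw [hexte]
    cases M i y <;> simp
  have h1 : ∀ ω : ι → Bool, Φ (fun i y => ω (e (i, y)))
      = ∑ M : Fin a → Y → Bool, Φ M * (if (fun i y => ω (e (i, y))) = M then 1 else 0) := by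
    intro ω
    simp
  calc ∑ ω : ι → Bool, bernoulliWeight P ω * Φ (fun i y => ω (e (i, y)))
      = ∑ ω : ι → Bool, ∑ M : Fin a → Y → Bool, Φ M * (bernoulliWeight P ω *
          (if (fun i y => ω (e (i, y))) = M then 1 else 0)) := by
        refine sum_congr rfl fun ω _ => ?_
        rw [h1 ω, mul_sum]
        exact sum_congr rfl fun M _ => by ring
    _ = ∑ M : Fin a → Y → Bool, Φ M * ∑ ω : ι → Bool, bernoulliWeight P ω *
          (if (fun i y => ω (e (i, y))) = M then 1 else 0) := by
        rw [sum_comm]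
        exact sum_congr rfl fun M _ => by rw [mul_sum]
    _ = _ := by
        refine sum_congr rfl fun M _ => ?_
        rw [key]; ring

end marg

/-- extension of a partial injection to all of `W` -/
theorem exists_extend {n : ℕ} {W : Type} [Fintype W] (hW : Fintype.card W ≤ n) (s : Finset W)
    (f : W → Fin n) (hf : Set.InjOn f s) :
    ∃ g : W → Fin n, Function.Injective g ∧ ∀ i ∈ s, g i = f i := by
  classical
  obtain ⟨t, ht1, ht2⟩ : ∃ t : Finset (Fin n), s.image f ⊆ t ∧ t.card = Fintype.card W := by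
    obtain ⟨t, h1, h2, h3⟩ := Finset.exists_subsuperset_card_eq (subset_univ (s.image f))
      (n := Fintype.card W) (card_image_le.trans (card_le_univ s)) (by simpa using hW)
    exact ⟨t, h1, h3⟩
  obtain ⟨g, hg⟩ := Finset.exists_equiv_extend_of_card_eq ht2.symm ht1 hf
  exact ⟨fun w => g w, fun a b h => g.injective (Subtype.ext h), hg⟩

/-- deterministic part: a served star forest is contained in the graph -/
theorem contained_of_serv {n a : ℕ} {W : Type} [Fintype W] [DecidableEq W]
    (hW : Fintype.card W ≤ n) (A : Finset W) (f : W → W) (hfA : ∀ v ∈ A, f v ∉ A)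
    {m : ℕ} (c : Fin m ≃ (A.image f : Finset W)) (ω : EdgeSlot n → Bool)
    (rowV : Fin a → Fin n) {b : ℕ} (colV : Fin b → Fin n) (hrow : Function.Injective rowV)
    (hcol : Function.Injective colV) (hne : ∀ i y, rowV i ≠ colV y)
    (e : Fin a × Fin b → EdgeSlot n) (hev : ∀ i y, (e (i, y)).1 = s(rowV i, colV y))
    (hs : Serv (fun i y => ω (e (i, y))) ∅
      (fun i => (A.filter fun v => f v = (c i : W)).card)) :
    (SimpleGraph.fromRel fun v b => v ∈ A ∧ f v = b).IsContained (graphOf ω) := by
  classical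
  obtain ⟨r, Q, hr, hQc, hQd, -, hQ⟩ := hs
  -- bijections of the leaves with the served columns
  have hbij : ∀ i, Nonempty ({v // v ∈ A.filter fun v => f v = (c i : W)} ≃ {y // y ∈ Q i}) := by
    intro i
    refine ⟨Fintype.equivOfCardEq ?_⟩
    rw [Fintype.card_coe, Fintype.card_coe, hQc i]
  obtain ⟨bij⟩ : Nonempty (∀ i, ({v // v ∈ A.filter fun v => f v = (c i : W)} ≃ {y // y ∈ Q i})) :=
    ⟨fun i => (hbij i).some⟩
  -- the index of the core of a leaf
  have hidx : ∀ v ∈ A, f v ∈ A.image f := fun v hv => mem_image_of_mem f hv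
  by_cases hn : n = 0
  · subst hn
    have : IsEmpty W := by
      rw [← Fintype.card_eq_zero_iff]; omega
    exact ⟨⟨⟨fun w => (IsEmpty.false w).elim, fun {a} => (IsEmpty.false a).elim⟩,
      fun a => (IsEmpty.false a).elim⟩⟩
  have hn0 : 0 < n := Nat.pos_of_ne_zero hn
  let φ : W → Fin n := fun w =>
    if hA : w ∈ A then
      colV (bij (c.symm ⟨f w, hidx w hA⟩) ⟨w, by
        rw [mem_filter]; exact ⟨hA, by simp⟩⟩).1
    else if hC : w ∈ A.image f then rowV (r (c.symm ⟨w, hC⟩)) else ⟨0, hn0⟩
  have hφA : ∀ w (hA : w ∈ A), φ w = colV (bij (c.symm ⟨f w, hidx w hA⟩) ⟨w, by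
        rw [mem_filter]; exact ⟨hA, by simp⟩⟩).1 := fun w hA => dif_pos hA
  have hφC : ∀ w (hA : w ∉ A) (hC : w ∈ A.image f), φ w = rowV (r (c.symm ⟨w, hC⟩)) := by
    intro w hA hC
    simp only [φ, dif_neg hA, dif_pos hC]
  have hCA : ∀ w ∈ A.image f, w ∉ A := by
    intro w hw
    obtain ⟨v, hv, rfl⟩ := mem_image.1 hw
    exact hfA v hv
  -- injectivity
  have hinj : Set.InjOn φ (A ∪ A.image f : Finset W) := by
    intro x hx y hy hxy
    rw [mem_coe, mem_union] at hx hy
    by_cases hxA : x ∈ A <;> by_cases hyA : y ∈ A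
    · rw [hφA x hxA, hφA y hyA] at hxy
      have h1 := hcol hxy
      by_cases hi : c.symm ⟨f x, hidx x hxA⟩ = c.symm ⟨f y, hidx y hyA⟩
      · -- same core
        have hfxy : f x = f y := congrArg Subtype.val (c.symm.injective hi)
        have key : ∀ (i j : Fin m) (hij : i = j) (hx' : x ∈ A.filter fun v => f v = (c i : W))
            (hy' : y ∈ A.filter fun v => f v = (c j : W)),
            ((bij i ⟨x, hx'⟩).1 = (bij j ⟨y, hy'⟩).1) → x = y := by
          intro i j hij hx' hy' h2
          subst hij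
          have h3 := (bij i).injective (Subtype.ext h2)
          exact congrArg Subtype.val h3
        exact key _ _ hi _ _ h1
      · exfalso
        have h2 := hQd _ _ hi
        rw [Finset.disjoint_left] at h2
        refine h2 (bij (c.symm ⟨f x, hidx x hxA⟩) ⟨x, by
          rw [mem_filter]; exact ⟨hxA, by simp⟩⟩).2 ?_
        rw [h1]
        exact (bij (c.symm ⟨f y, hidx y hyA⟩) ⟨y, by
          rw [mem_filter]; exact ⟨hyA, by simp⟩⟩).2
    · have hyC : y ∈ A.image f := hy.resolve_left hyA
      rw [hφA x hxA, hφC y hyA hyC] at hxy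
      exact absurd hxy.symm (hne _ _)
    · have hxC : x ∈ A.image f := hx.resolve_left hxA
      rw [hφC x hxA hxC, hφA y hyA] at hxy
      exact absurd hxy (hne _ _)
    · have hxC : x ∈ A.image f := hx.resolve_left hxA
      have hyC : y ∈ A.image f := hy.resolve_left hyA
      rw [hφC x hxA hxC, hφC y hyA hyC] at hxy
      exact congrArg Subtype.val (c.symm.injective (hr (hrow hxy)))
  obtain ⟨g, hg, hgφ⟩ := exists_extend hW (A ∪ A.image f) φ hinj
  -- edges
  have hedge : ∀ v ∈ A, (graphOf ω).Adj (g v) (g (f v)) := by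
    intro v hv
    have hfv : f v ∈ A.image f := hidx v hv
    rw [hgφ v (mem_union_left _ hv), hgφ (f v) (mem_union_right _ hfv), hφA v hv,
      hφC (f v) (hfA v hv) hfv]
    set i := c.symm ⟨f v, hfv⟩ with hi
    set y := (bij i ⟨v, by rw [mem_filter]; exact ⟨hv, by simp [hi]⟩⟩) with hy
    have h1 := hQ i y.1 y.2
    unfold graphOf
    rw [SimpleGraph.fromEdgeSet_adj]
    refine ⟨?_, (hne _ _).symm⟩
    rw [Set.mem_ofPred_eq, Sym2.eq_swap]
    have h2 := hev (r i) y.1
    rw [← h2]
    exact ⟨(e (r i, y.1)).2, h1⟩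
  refine ⟨⟨⟨g, ?_⟩, hg⟩⟩
  intro u v huv
  rw [SimpleGraph.fromRel_adj] at huv
  rcases huv.2 with ⟨h1, h2⟩ | ⟨h1, h2⟩
  · rw [← h2]; exact hedge u h1
  · rw [← h2]; exact (hedge v h1).symm

theorem piB_pos {μ : ℝ} (hμ : 0 < μ) (d : ℕ) : 0 < piB μ d := by
  unfold piB
  split_ifs with h
  · norm_num
  · have hd : (0:ℝ) < d := by
      by_contra hcon
      push Not at hcon
      apply h
      have : (0:ℝ) ≤ d := Nat.cast_nonneg d
      have h0 : (d:ℝ) = 0 := le_antisymm hcon this
      rw [h0]; linarith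
    have := Real.exp_pos (-45)
    positivity

/-- **STAR**, explicit constant -/
theorem star_explicit {n : ℕ} (hn : 2 ≤ n) (W : Type) [Fintype W] [DecidableEq W]
    (A : Finset W) (f : W → W) (p : ℝ)
    (hW : Fintype.card W ≤ n) (hp : 0 < p) (hLp : Real.exp 60 * p ≤ 1) (hA : 64 * A.card ≤ n)
    (hfA : ∀ v ∈ A, f v ∉ A)
    (hst : ∀ d : ℕ, 1 ≤ d →
      ((univ.filter fun b => d ≤ (A.filter fun v => f v = b).card).card : ℝ) ≤
      2 * Real.exp 1 * n * (Real.exp 1 * n * p / d) ^ d) :
    1 / 2 ≤ gnpProb n (Real.exp 60 * p)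
      {G | (SimpleGraph.fromRel fun v b => v ∈ A ∧ f v = b).IsContained G} := by
  classical
  set P : ℝ := Real.exp 60 * p with hP
  have hP0 : 0 < P := by have := Real.exp_pos 60; positivity
  set m := (A.image f).card with hm
  obtain ⟨c⟩ : Nonempty (Fin m ≃ (A.image f : Finset W)) := ⟨(A.image f).equivFin.symm⟩
  set deg : Fin m → ℕ := fun i => (A.filter fun v => f v = (c i : W)).card with hdeg
  have hdeg1 : ∀ i, 1 ≤ deg i := by
    intro i
    obtain ⟨v, hv, hvi⟩ := mem_image.1 (c i).2
    exact card_pos.2 ⟨v, mem_filter.2 ⟨hv, hvi⟩⟩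
  have hsumdeg : ∑ i, deg i = A.card := by
    have h1 := Finset.card_eq_sum_card_image f A
    rw [h1, ← Finset.sum_coe_sort (A.image f) (fun b => (A.filter fun v => f v = b).card)]
    exact Equiv.sum_comp c (fun b : (A.image f : Finset W) =>
      (A.filter fun v => f v = (b : W)).card)
  have hcount : ∀ d : ℕ, 1 ≤ d → (univ.filter (fun i => d ≤ deg i)).card
      ≤ (univ.filter fun b => d ≤ (A.filter fun v => f v = b).card).card := by
    intro d _
    refine Finset.card_le_card_of_injOn (fun i => (c i : W)) ?_ ?_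
    · intro i hi
      rw [mem_coe, mem_filter] at hi ⊢
      exact ⟨mem_univ _, hi.2⟩
    · intro i _ j _ hij
      exact c.injective (Subtype.ext hij)
  have hnum := star_num n p hp deg hdeg1 (by rw [hsumdeg]; exact hA)
    (fun d hd => le_trans (by exact_mod_cast hcount d hd) (hst d hd))
  rw [← hP] at hnum
  -- pools
  set a : ℕ := n / 2 with ha
  set b : ℕ := n - a with hb
  have hab : a + b = n := by omega
  let rowV : Fin a → Fin n := fun i => ⟨i.1, by omega⟩
  let colV : Fin b → Fin n := fun y => ⟨a + y.1, by omega⟩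
  have hrow : Function.Injective rowV := by
    intro i j h
    have h1 : (rowV i).val = (rowV j).val := congrArg Fin.val h
    exact Fin.ext h1
  have hcol : Function.Injective colV := fun i j h => by
    have := congrArg Fin.val h
    simp only [colV] at this
    exact Fin.ext (by omega)
  have hne : ∀ i y, rowV i ≠ colV y := fun i y h => by
    have := congrArg Fin.val h
    simp only [rowV, colV] at this
    have := i.2
    omega
  let e : Fin a × Fin b → EdgeSlot n := fun q =>
    ⟨s(rowV q.1, colV q.2), by rw [Sym2.mk_isDiag_iff]; exact hne q.1 q.2⟩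
  have he : Function.Injective e := by
    rintro ⟨i, y⟩ ⟨j, z⟩ h
    have h1 := congrArg Subtype.val h
    simp only [e] at h1
    rw [Sym2.eq_iff] at h1
    rcases h1 with ⟨h2, h3⟩ | ⟨h2, h3⟩
    · rw [hrow h2, hcol h3]
    · exact absurd h2 (hne _ _)
  -- the serving process
  have hpool : (n:ℝ) / 2 ≤ Fintype.card (Fin b) := by
    rw [Fintype.card_fin]
    have : n ≤ 2 * b := by omega
    have h2 : (n:ℝ) ≤ 2 * b := by exact_mod_cast this
    linarith
  have hn0 : (0:ℝ) < n := by exact_mod_cast (show 0 < n by omega)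
  have hμ : 0 < 3 / 8 * (n:ℝ) * P := by positivity
  have hmain := mul_pf_le (Y := Fin b) P hP0.le hLp A.card (piB (3 / 8 * n * P))
    (fun d => piB_pos hμ d)
    (fun R d hRd => tail_bound hP0.le hLp n hpool (by rw [Fintype.card_fin]; omega) R d (by omega))
    a m ∅ deg (by rw [hsumdeg]; simp)
  have hpf : pf P a m (∅ : Finset (Fin b)) deg ≤ 1 / 2 := by
    have h1 : (a:ℝ) * pf P a m (∅ : Finset (Fin b)) deg ≤ n / 8 := hmain.trans hnum
    have h2 : (n:ℝ) / 4 ≤ a := by
      have : n ≤ 4 * a := by omega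
      have h3 : (n:ℝ) ≤ 4 * a := by exact_mod_cast this
      linarith
    have h3 := pf_nonneg hP0.le hLp a m (∅ : Finset (Fin b)) deg
    have h4 : (n:ℝ) / 4 * pf P a m (∅ : Finset (Fin b)) deg ≤ n / 8 :=
      (mul_le_mul_of_nonneg_right h2 h3).trans h1
    by_contra hcon
    push Not at hcon
    have : (n:ℝ) / 4 * (1 / 2) < (n:ℝ) / 4 * pf P a m (∅ : Finset (Fin b)) deg :=
      mul_lt_mul_of_pos_left hcon (by positivity)
    linarith
  -- transfer
  have hmarg := sum_marg P e he (fun M : Fin a → Fin b → Bool =>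
    if Serv M ∅ deg then (1:ℝ) else 0)
  have hpf2 : ∑ M : Fin a → Fin b → Bool, rowW P M * (if Serv M ∅ deg then (1:ℝ) else 0)
      = 1 - pf P a m (∅ : Finset (Fin b)) deg := by
    unfold pf
    rw [eq_sub_iff_add_eq, ← sum_add_distrib]
    refine Eq.trans (sum_congr rfl fun M _ => ?_) (sum_rowW (Y := Fin b) P a)
    split_ifs <;> ring
  have hle : ∑ ω : EdgeSlot n → Bool, bernoulliWeight P ω *
      (if Serv (fun i y => ω (e (i, y))) ∅ deg then (1:ℝ) else 0)
      ≤ gnpProb n P {G | (SimpleGraph.fromRel fun v b => v ∈ A ∧ f v = b).IsContained G} := by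
    unfold gnpProb bernoulliProb
    rw [sum_filter]
    refine sum_le_sum fun ω _ => ?_
    by_cases hs : Serv (fun i y => ω (e (i, y))) ∅ deg
    · have hc := contained_of_serv hW A f hfA c ω rowV colV hrow hcol hne e (fun i y => rfl) hs
      rw [if_pos hs, if_pos (by exact hc), mul_one]
    · rw [if_neg hs, mul_zero]
      split_ifs
      · exact bW_nonneg hP0.le hLp ω
      · exact le_rfl
  have : (1:ℝ) / 2 ≤ 1 - pf P a m (∅ : Finset (Fin b)) deg := by linarith
  refine this.trans ?_
  rw [← hpf2, ← hmarg]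
  exact hle

/-- **STAR** (interface of helper556): a directed star forest with few leaves and few cores of
large degree is contained in `G(n, L p)` -/
theorem star : ∃ n0 : ℕ, ∃ L : ℝ, 1 ≤ L ∧ ∀ n ≥ n0, ∀ (W : Type) [Fintype W] [DecidableEq W]
    (A : Finset W) (f : W → W) (p : ℝ),
    Fintype.card W ≤ n → 0 < p → L * p ≤ 1 → 64 * A.card ≤ n →
    (∀ v ∈ A, f v ∉ A) →
    (∀ d : ℕ, 1 ≤ d → ((univ.filter fun b => d ≤ (A.filter fun v => f v = b).card).card : ℝ) ≤
      2 * Real.exp 1 * n * (Real.exp 1 * n * p / d) ^ d) →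
    1 / 2 ≤ gnpProb n (L * p) {G | (SimpleGraph.fromRel fun v b => v ∈ A ∧ f v = b).IsContained G} :=
  ⟨2, Real.exp 60, Real.one_le_exp (by norm_num),
    fun n hn W _ _ A f p hW hp hLp hA hfA hst => star_explicit hn W A f p hW hp hLp hA hfA hst⟩

end Crest.Agent.R052.Star
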