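import Crest.Agent.R052.Star3
import Crest.Agent.R052.SetupI

/-! Row 52, S0073: the sparse case lemma consumed by FINAL. -/

set_option autoImplicit false

namespace Crest.Agent.R052.Star

open Finset Crest.CombinatoricsR.RandomGraph Crest.Agent.R052.Struct

theorem starLemma : ∃ n0 : ℕ, ∃ L : ℝ, ∃ k : ℕ, 1 ≤ L ∧ ∀ n ≥ n0, ∀ (W : Type) [Fintype W]
    [DecidableEq W] (H : SimpleGraph W) (p : ℝ), Fintype.card W ≤ n → 0 < p → L * p ≤ 1 →
    Crit n p H → ∀ (A : Finset W) (f : W → W), 64 * A.card ≤ n → (∀ v ∈ A, H.Adj v (f v)) →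
    (∀ v ∈ A, f v ∉ A) → Splits n (L * p) (SimpleGraph.fromRel fun v b => v ∈ A ∧ f v = b) k := by
  refine ⟨2, Real.exp 60, 1, Real.one_le_exp (by norm_num), ?_⟩
  intro n hn W _ _ H p hW hp hLp hcrit A f hA hf hfA
  have h60 : (2 : ℝ) ≤ Real.exp 60 := by
    have := Real.add_one_le_exp (60 : ℝ)
    linarith
  have hp2 : p ≤ 1 / 2 := by nlinarith
  refine splits_one (by positivity) hLp ?_
  exact star_explicit hn W A f p hW hp hLp hA hfA
    (fun d hd => Setup.star_count n W H p hp hp2 hcrit A f hf hfA d hd)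

end Crest.Agent.R052.Star
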