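import Mathlib

/-!
# Row 52, S0073: star forests survive thinning

A star forest (leaves `A`, centre `f v` of the leaf `v`) has a labelling of its leaves by `2 × 2`
labels such that, whenever every set `S` of leaves is lost with probability at most `(1/50)^|S|`,
each label class can be embedded in the kept part with probability at least `1/2`.
-/

set_option autoImplicit false

namespace Crest.Agent.R052.StarX

open Finset

section prob

variable {Ω : Type} [Fintype Ω]

open Classical in
/-- total weight of an event -/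
noncomputable def Pr (w : Ω → ℝ) (Q : Ω → Prop) : ℝ := ∑ ω, if Q ω then w ω else 0

theorem Pr_mono (w : Ω → ℝ) (hw : ∀ ω, 0 ≤ w ω) {P Q : Ω → Prop} (h : ∀ ω, P ω → Q ω) :
    Pr w P ≤ Pr w Q := by
  unfold Pr
  refine Finset.sum_le_sum fun ω _ => ?_
  by_cases hP : P ω
  · rw [if_pos hP, if_pos (h ω hP)]
  · rw [if_neg hP]
    split_ifs
    exacts [hw ω, le_rfl]

theorem Pr_exists_le {κ : Type} (w : Ω → ℝ) (hw : ∀ ω, 0 ≤ w ω) (T : Finset κ)
    (P : κ → Ω → Prop) (Q : Ω → Prop) (h : ∀ ω, Q ω → ∃ E ∈ T, P E ω) :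
    Pr w Q ≤ ∑ E ∈ T, Pr w (P E) := by
  classical
  unfold Pr
  rw [Finset.sum_comm]
  refine Finset.sum_le_sum fun ω _ => ?_
  by_cases hQ : Q ω
  · rw [if_pos hQ]
    obtain ⟨E, hE, hP⟩ := h ω hQ
    have h2 : (if P E ω then w ω else 0) ≤ ∑ E ∈ T, if P E ω then w ω else 0 :=
      Finset.single_le_sum (f := fun E => if P E ω then w ω else 0)
        (fun E _ => by split_ifs; exacts [hw ω, le_rfl]) hE
    rwa [if_pos hP] at h2
  · rw [if_neg hQ]
    exact Finset.sum_nonneg fun E _ => by split_ifs; exacts [hw ω, le_rfl]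

theorem Pr_not (w : Ω → ℝ) (hw1 : ∑ ω, w ω = 1) (Q : Ω → Prop) :
    Pr w Q = 1 - Pr w (fun ω => ¬ Q ω) := by
  unfold Pr
  rw [← hw1, ← Finset.sum_sub_distrib]
  refine Finset.sum_congr rfl fun ω _ => ?_
  by_cases h : Q ω <;> simp [h]

/-- probability that all the stars in `J` fail -/
theorem fail_prod {W : Type} [DecidableEq W] (w : Ω → ℝ) (hw : ∀ ω, 0 ≤ w ω)
    (L : Ω → Finset W) (ε : ℝ) (A : Finset W)
    (hL : ∀ S ⊆ A, Pr w (fun ω => S ⊆ L ω) ≤ ε ^ S.card)
    {ι : Type} [DecidableEq ι] (star : ι → Finset W) (hstar : ∀ j, star j ⊆ A)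
    (hdisj : ∀ i j, i ≠ j → Disjoint (star i) (star j)) (k : ι → ℕ) (J : Finset ι) :
    ∀ S ⊆ A, (∀ j ∈ J, Disjoint S (star j)) →
      Pr w (fun ω => S ⊆ L ω ∧ ∀ j ∈ J, ∃ E ∈ (star j).powersetCard (k j), E ⊆ L ω) ≤
        ε ^ S.card * ∏ j ∈ J, (((star j).card.choose (k j) : ℝ) * ε ^ (k j)) := by
  induction J using Finset.induction_on with
  | empty =>
    intro S hS _
    simpa using hL S hS
  | insert j J hj ih =>
    intro S hS hd
    have h1 := Pr_exists_le w hw ((star j).powersetCard (k j))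
      (fun E ω => S ∪ E ⊆ L ω ∧ ∀ i ∈ J, ∃ E ∈ (star i).powersetCard (k i), E ⊆ L ω)
      (fun ω => S ⊆ L ω ∧ ∀ i ∈ insert j J, ∃ E ∈ (star i).powersetCard (k i), E ⊆ L ω)
      (by
        rintro ω ⟨h2, h3⟩
        obtain ⟨E, hE, hEL⟩ := h3 j (mem_insert_self _ _)
        exact ⟨E, hE, union_subset h2 hEL, fun i hi => h3 i (mem_insert_of_mem hi)⟩)
    refine h1.trans ?_
    rw [Finset.prod_insert hj]
    have h4 : ∀ E ∈ (star j).powersetCard (k j),
        Pr w (fun ω => S ∪ E ⊆ L ω ∧ ∀ i ∈ J, ∃ E ∈ (star i).powersetCard (k i), E ⊆ L ω) ≤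
        ε ^ S.card * ε ^ (k j) * ∏ j ∈ J, (((star j).card.choose (k j) : ℝ) * ε ^ (k j)) := by
      intro E hE
      rw [mem_powersetCard] at hE
      have h5 := ih (S ∪ E) (union_subset hS (hE.1.trans (hstar j))) (by
        intro i hi
        rw [disjoint_union_left]
        refine ⟨hd i (mem_insert_of_mem hi), ?_⟩
        exact disjoint_of_subset_left hE.1 (hdisj j i (fun h => hj (h ▸ hi))))
      have h6 : (S ∪ E).card = S.card + k j := by
        rw [card_union_of_disjoint (disjoint_of_subset_right hE.1 (hd j (mem_insert_self _ _))),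
          hE.2]
      rw [h6, pow_add] at h5
      exact h5
    refine (Finset.sum_le_sum h4).trans (le_of_eq ?_)
    rw [Finset.sum_const, card_powersetCard, nsmul_eq_mul]
    ring

end prob

/-- an injection between finsets -/
theorem exists_inj {α β : Type} [DecidableEq α] [DecidableEq β] [Nonempty β] (s : Finset α)
    (t : Finset β) (h : s.card ≤ t.card) :
    ∃ g : α → β, (∀ x ∈ s, g x ∈ t) ∧ Set.InjOn g s := by
  obtain ⟨e⟩ : Nonempty (s ↪ t) := Function.Embedding.nonempty_of_card_le (by simpa using h)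
  refine ⟨fun x => if hx : x ∈ s then e ⟨x, hx⟩ else Classical.arbitrary β, ?_, ?_⟩
  · intro x hx
    simp only [hx, dif_pos]
    exact (e ⟨x, hx⟩).2
  · intro x hx y hy hxy
    have hx' : x ∈ s := hx
    have hy' : y ∈ s := hy
    simp only [hx', hy', dif_pos] at hxy
    have := e.injective (Subtype.ext hxy)
    simpa using this

theorem choose_bound (d : ℕ) :
    ((d.choose (d / 2 + 1) : ℕ) : ℝ) * (1 / 50) ^ (d / 2 + 1) ≤ 1 / 25 := by
  have h1 : (d.choose (d / 2 + 1) : ℝ) ≤ 2 * 4 ^ (d / 2) := by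
    have h2 : d.choose (d / 2 + 1) ≤ 2 ^ d := Nat.choose_le_two_pow _ _
    have h3 : 2 ^ d ≤ 2 ^ (2 * (d / 2) + 1) := Nat.pow_le_pow_right (by norm_num) (by omega)
    have h4 : 2 ^ (2 * (d / 2) + 1) = 2 * 4 ^ (d / 2) := by
      rw [pow_succ, pow_mul]; norm_num; ring
    exact_mod_cast (h2.trans h3).trans h4.le
  calc ((d.choose (d / 2 + 1) : ℕ) : ℝ) * (1 / 50) ^ (d / 2 + 1)
      ≤ (2 * 4 ^ (d / 2)) * (1 / 50) ^ (d / 2 + 1) :=
        mul_le_mul_of_nonneg_right h1 (by positivity)
    _ = (1 / 25) * (4 / 50) ^ (d / 2) := by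
        rw [pow_succ, div_pow, div_pow]
        field_simp
        norm_num
    _ ≤ (1 / 25) * 1 := by
        refine mul_le_mul_of_nonneg_left ?_ (by norm_num)
        exact pow_le_one₀ (by norm_num) (by norm_num)
    _ = _ := by norm_num

section ranks

variable {m : ℕ}

/-- indices among the first `2 i + 1` -/
def pre (m i : ℕ) : Finset (Fin m) := univ.filter fun j => j.val ≤ 2 * i

theorem card_pre_le (i : ℕ) : (pre m i).card ≤ 2 * i + 1 := by
  have h : ((pre m i).image Fin.val) ⊆ range (2 * i + 1) := by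
    intro x hx
    rw [mem_image] at hx
    obtain ⟨j, hj, rfl⟩ := hx
    rw [pre, mem_filter] at hj
    rw [mem_range]; omega
  have h2 := card_le_card h
  rw [card_range, card_image_of_injective _ Fin.val_injective] at h2
  exact h2

theorem card_pre (i : ℕ) (h : 2 * i < m) : (pre m i).card = 2 * i + 1 := by
  have h1 : ((pre m i).image Fin.val) = range (2 * i + 1) := by
    ext x
    rw [mem_image, mem_range]
    constructor
    · rintro ⟨j, hj, rfl⟩
      rw [pre, mem_filter] at hj
      omega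
    · intro hx
      exact ⟨⟨x, by omega⟩, by rw [pre, mem_filter]; exact ⟨mem_univ _, by simp; omega⟩, rfl⟩
  rw [← card_range (2 * i + 1), ← h1, card_image_of_injective _ Fin.val_injective]

/-- the matching of the indices of one parity to surviving indices which are not larger -/
theorem rank_match (fail : Fin m → Prop)
    (hgood : ∀ i : ℕ, ∀ J : Finset (Fin m), J ⊆ pre m i → J.card = i + 1 → ∃ j ∈ J, ¬ fail j)
    (b : ℕ) :
    ∃ τ : {j : Fin m // j.val % 2 = b} → Fin m, Function.Injective τ ∧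
      ∀ j, τ j ≤ j.1 ∧ ¬ fail (τ j) := by
  classical
  have key := (Finset.all_card_le_biUnion_card_iff_exists_injective
    (fun j : {j : Fin m // j.val % 2 = b} => univ.filter fun s : Fin m => s ≤ j.1 ∧ ¬ fail s)).1 ?_
  · obtain ⟨τ, h1, h2⟩ := key
    refine ⟨τ, h1, fun j => ?_⟩
    have := h2 j
    rw [mem_filter] at this
    exact this.2
  · intro s
    rcases s.eq_empty_or_nonempty with hs | hs
    · subst hs; simp
    obtain ⟨M, hM, hmax⟩ := s.exists_max_image (fun j => j.1) hs
    have h1 : s.card ≤ M.1.val / 2 + 1 := by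
      have h2 : (s.image fun j => j.1.val / 2) ⊆ range (M.1.val / 2 + 1) := by
        intro x hx
        rw [mem_image] at hx
        obtain ⟨j, hj, rfl⟩ := hx
        rw [mem_range]
        have h3 : j.1.val ≤ M.1.val := hmax j hj
        omega
      have h3 := card_le_card h2
      rw [card_range, card_image_of_injective] at h3
      · exact h3
      · intro x y hxy
        apply Subtype.ext
        apply Fin.ext
        have h4 := x.2
        have h5 := y.2
        dsimp only at hxy
        omega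
    refine h1.trans ?_
    set i := M.1.val / 2 with hi
    have h4 : (pre m i).filter (fun s => ¬ fail s) ⊆
        s.biUnion fun j => univ.filter fun s : Fin m => s ≤ j.1 ∧ ¬ fail s := by
      intro x hx
      rw [mem_filter, pre, mem_filter] at hx
      rw [mem_biUnion]
      refine ⟨M, hM, ?_⟩
      rw [mem_filter]
      refine ⟨mem_univ _, ?_, hx.2⟩
      rw [Fin.le_def]; omega
    refine le_trans ?_ (card_le_card h4)
    by_contra hcon
    push Not at hcon
    have h5 := Finset.card_filter_add_card_filter_not (s := pre m i) (fun s => ¬ fail s)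
    rw [card_pre i (by have := M.1.2; omega)] at h5
    have h6 : i + 1 ≤ ((pre m i).filter (fun s => ¬ ¬ fail s)).card := by omega
    obtain ⟨J, hJ, hJc⟩ := Finset.exists_subset_card_eq h6
    obtain ⟨j, hj, hnf⟩ := hgood i J (hJ.trans (filter_subset _ _)) hJc
    have := hJ hj
    rw [mem_filter] at this
    exact this.2 hnf

theorem geom_bound (m : ℕ) :
    ∑ i ∈ range m, (((pre m i).powersetCard (i + 1)).card : ℝ) * (1 / 25) ^ (i + 1) ≤ 1 / 2 := by
  have h1 : ∀ i ∈ range m, (((pre m i).powersetCard (i + 1)).card : ℝ) * (1 / 25) ^ (i + 1) ≤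
      (2 / 25) * (4 / 25) ^ i := by
    intro i _
    have h2 : ((pre m i).powersetCard (i + 1)).card ≤ 2 * 4 ^ i := by
      rw [card_powersetCard]
      calc (pre m i).card.choose (i + 1) ≤ (2 * i + 1).choose (i + 1) :=
            Nat.choose_le_choose _ (card_pre_le i)
        _ ≤ 2 ^ (2 * i + 1) := Nat.choose_le_two_pow _ _
        _ = 2 * 4 ^ i := by rw [pow_succ, pow_mul]; norm_num; ring
    have h3 : (((pre m i).powersetCard (i + 1)).card : ℝ) ≤ 2 * 4 ^ i := by exact_mod_cast h2
    calc (((pre m i).powersetCard (i + 1)).card : ℝ) * (1 / 25) ^ (i + 1)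
        ≤ (2 * 4 ^ i) * (1 / 25) ^ (i + 1) := mul_le_mul_of_nonneg_right h3 (by positivity)
      _ = _ := by rw [pow_succ, div_pow, div_pow]; field_simp; simp
  refine (Finset.sum_le_sum h1).trans ?_
  rw [← Finset.mul_sum, geom_sum_eq (by norm_num)]
  have h4 : (0 : ℝ) ≤ (4 / 25) ^ m := by positivity
  have h5 : ((4 / 25 : ℝ) ^ m - 1) / (4 / 25 - 1) ≤ 25 / 21 := by
    rw [div_le_iff_of_neg (by norm_num)]
    norm_num
  linarith

end ranks

section main

variable {W : Type} [Fintype W] [DecidableEq W]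

/-- the star of `c` -/
def star (A : Finset W) (f : W → W) (c : W) : Finset W := A.filter fun v => f v = c

theorem mem_star {A : Finset W} {f : W → W} {c v : W} : v ∈ star A f c ↔ v ∈ A ∧ f v = c := by
  rw [star, mem_filter]

/-- enumeration of the vertices by decreasing degree -/
theorem exists_rank (d : W → ℕ) :
    ∃ st : Fin (Fintype.card W) ≃ W, ∀ i j, i ≤ j → d (st j) ≤ d (st i) := by
  let e0 : W ≃ Fin (Fintype.card W) := Fintype.equivFin W
  let g : Fin (Fintype.card W) → ℕᵒᵈ := fun j => OrderDual.toDual (d (e0.symm j))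
  refine ⟨(Tuple.sort g).trans e0.symm, fun i j hij => ?_⟩
  have := Tuple.monotone_sort g hij
  exact this

/-- the deterministic embedding -/
theorem embed (A : Finset W) (f : W → W) (hf : ∀ v ∈ A, f v ∉ A)
    (st : Fin (Fintype.card W) ≃ W)
    (hst : ∀ i j, i ≤ j → (star A f (st j)).card ≤ (star A f (st i)).card)
    (Lost : Finset W) (fail : Fin (Fintype.card W) → Prop)
    (hfail : ∀ j, ¬ fail j →
      ¬ ∃ E ∈ (star A f (st j)).powersetCard ((star A f (st j)).card / 2 + 1), E ⊆ Lost)
    (b : ℕ) (τ : {j : Fin (Fintype.card W) // j.val % 2 = b} → Fin (Fintype.card W))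
    (hτ : Function.Injective τ) (hτ2 : ∀ j, τ j ≤ j.1 ∧ ¬ fail (τ j))
    (P : Finset W) (hPA : P ⊆ A) (hPb : ∀ v ∈ P, (st.symm (f v)).val % 2 = b)
    (hPc : ∀ c, (star P f c).card ≤ ((star A f c).card + 1) / 2) :
    ∃ g : W → W, Function.Injective g ∧
      ∀ v ∈ P, g v ∈ A ∧ g v ∉ Lost ∧ f (g v) = g (f v) := by
  classical
  rcases P.eq_empty_or_nonempty with hP | ⟨v0, hv0⟩
  · subst hP
    exact ⟨id, Function.injective_id, by simp⟩
  haveI : Nonempty W := ⟨v0⟩
  -- the image of a centre
  set s : W → W := fun c => if h : (st.symm c).val % 2 = b then st (τ ⟨st.symm c, h⟩) else c with hs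
  have hs1 : ∀ c, (h : (st.symm c).val % 2 = b) → s c = st (τ ⟨st.symm c, h⟩) := by
    intro c h
    rw [hs]; dsimp only; rw [dif_pos h]
  have hkept : ∀ c, (st.symm c).val % 2 = b →
      (star P f c).card ≤ (star A f (s c) \ Lost).card := by
    intro c h
    have h1 := hτ2 ⟨st.symm c, h⟩
    have h2 := hst _ _ h1.1
    simp only [Equiv.apply_symm_apply] at h2
    rw [← hs1 c h] at h2
    have h3 := hfail _ h1.2
    rw [← hs1 c h] at h3
    have h4 : (star A f (s c) ∩ Lost).card ≤ (star A f (s c)).card / 2 := by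
      by_contra hcon
      push Not at hcon
      obtain ⟨E, hE, hEc⟩ := Finset.exists_subset_card_eq (Nat.succ_le_of_lt hcon)
      apply h3
      refine ⟨E, ?_, hE.trans inter_subset_right⟩
      rw [mem_powersetCard]
      exact ⟨hE.trans inter_subset_left, hEc⟩
    have h5 := Finset.card_sdiff_add_card_inter (star A f (s c)) Lost
    have h6 := hPc c
    omega
  have hinj : ∀ c, ∃ g : W → W, (st.symm c).val % 2 = b →
      (∀ x ∈ star P f c, g x ∈ star A f (s c) \ Lost) ∧ Set.InjOn g (star P f c) := by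
    intro c
    by_cases h : (st.symm c).val % 2 = b
    · obtain ⟨g, hg⟩ := exists_inj _ _ (hkept c h)
      exact ⟨g, fun _ => hg⟩
    · exact ⟨id, fun h' => absurd h' h⟩
  choose gg hgg using hinj
  set g0 : W → W := fun v => if v ∈ A then gg (f v) v else s v with hg0
  have hleaf : ∀ v ∈ P, g0 v ∈ A ∧ g0 v ∉ Lost ∧ f (g0 v) = s (f v) := by
    intro v hv
    have h1 : g0 v = gg (f v) v := by rw [hg0]; dsimp only; rw [if_pos (hPA hv)]
    have h2 := (hgg (f v) (hPb v hv)).1 v (mem_star.2 ⟨hv, rfl⟩)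
    rw [mem_sdiff, mem_star] at h2
    rw [h1]
    exact ⟨h2.1.1, h2.2, h2.1.2⟩
  have hcen : ∀ v ∈ P, g0 (f v) = s (f v) := by
    intro v hv
    rw [hg0]; dsimp only; rw [if_neg (hf v (hPA hv))]
  have hcenA : ∀ v ∈ P, s (f v) ∉ A := by
    intro v hv
    obtain ⟨h1, _, h3⟩ := hleaf v hv
    rw [← h3]
    exact hf _ h1
  have hsinj : ∀ u ∈ P, ∀ v ∈ P, s (f u) = s (f v) → f u = f v := by
    intro u hu v hv h
    rw [hs1 _ (hPb u hu), hs1 _ (hPb v hv)] at h
    have h2 := hτ (st.injective h)
    have h3 := congrArg Subtype.val h2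
    exact st.symm.injective h3
  have hinjOn : Set.InjOn g0 ((P ∪ P.image f : Finset W) : Set W) := by
    intro x hx y hy hxy
    rw [mem_coe, mem_union, mem_image] at hx hy
    rcases hx with hx | ⟨u, hu, rfl⟩ <;> rcases hy with hy | ⟨v, hv, rfl⟩
    · have h1 := hleaf x hx
      have h2 := hleaf y hy
      have h3 : f x = f y := by
        apply hsinj x hx y hy
        rw [← h1.2.2, ← h2.2.2, hxy]
      have h4 : g0 x = gg (f x) x := by rw [hg0]; dsimp only; rw [if_pos (hPA hx)]
      have h5 : g0 y = gg (f y) y := by rw [hg0]; dsimp only; rw [if_pos (hPA hy)]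
      rw [h4, h5, ← h3] at hxy
      exact (hgg (f x) (hPb x hx)).2 (mem_coe.2 (mem_star.2 ⟨hx, rfl⟩))
        (mem_coe.2 (mem_star.2 ⟨hy, h3.symm⟩)) hxy
    · exfalso
      rw [hcen v hv] at hxy
      apply hcenA v hv
      rw [← hxy]
      exact (hleaf x hx).1
    · exfalso
      rw [hcen u hu] at hxy
      apply hcenA u hu
      rw [hxy]
      exact (hleaf y hy).1
    · rw [hcen u hu, hcen v hv] at hxy
      exact hsinj u hu v hv hxy
  obtain ⟨e, he⟩ := Finset.exists_equiv_extend_of_card_eq (t := (univ : Finset W))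
    (by simp) (s := P ∪ P.image f) (f := g0) (Finset.subset_univ _) hinjOn
  refine ⟨fun w => (e w : W), fun a b h => e.injective (Subtype.ext h), fun v hv => ?_⟩
  dsimp only
  rw [he v (mem_union_left _ hv), he (f v) (mem_union_right _ (mem_image_of_mem f hv)), hcen v hv]
  exact hleaf v hv

/-- **Star forests survive thinning.** -/
theorem star_forest (A : Finset W) (f : W → W) (hf : ∀ v ∈ A, f v ∉ A) :
    ∃ lab : W → Fin 4, ∀ (Ω : Type) [Fintype Ω] (w : Ω → ℝ), (∀ ω, 0 ≤ w ω) → ∑ ω, w ω = 1 →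
      ∀ L : Ω → Finset W, (∀ S ⊆ A, Pr w (fun ω => S ⊆ L ω) ≤ (1 / 50) ^ S.card) →
      ∀ i : Fin 4, 1 / 2 ≤ Pr w (fun ω => ∃ g : W → W, Function.Injective g ∧
        ∀ v ∈ A, lab v = i → g v ∈ A ∧ g v ∉ L ω ∧ f (g v) = g (f v)) := by
  classical
  obtain ⟨st, hst⟩ := exists_rank (fun c => (star A f c).card)
  have hT : ∀ c : W, ∃ T ⊆ star A f c, T.card = (star A f c).card / 2 := fun c =>
    Finset.exists_subset_card_eq (Nat.div_le_self _ _)
  choose T hTs hTc using hT
  set lab : W → Fin 4 := fun v =>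
    ⟨(st.symm (f v)).val % 2 + (if v ∈ T (f v) then 2 else 0), by split_ifs <;> omega⟩ with hlab
  refine ⟨lab, fun Ω _ w hw hw1 L hL i => ?_⟩
  set fail : Ω → Fin (Fintype.card W) → Prop := fun ω j =>
    ∃ E ∈ (star A f (st j)).powersetCard ((star A f (st j)).card / 2 + 1), E ⊆ L ω with hfail
  -- the bad event
  have hbad : Pr w (fun ω => ¬ ∀ i : ℕ, ∀ J : Finset (Fin (Fintype.card W)),
      J ⊆ pre _ i → J.card = i + 1 → ∃ j ∈ J, ¬ fail ω j) ≤ 1 / 2 := by
    have h1 := Pr_exists_le w hw ((range (Fintype.card W)).sigma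
      fun i => (pre (Fintype.card W) i).powersetCard (i + 1))
      (fun x ω => ∅ ⊆ L ω ∧ ∀ j ∈ x.2,
        ∃ E ∈ (star A f (st j)).powersetCard ((star A f (st j)).card / 2 + 1), E ⊆ L ω)
      (fun ω => ¬ ∀ i : ℕ, ∀ J : Finset (Fin (Fintype.card W)),
      J ⊆ pre _ i → J.card = i + 1 → ∃ j ∈ J, ¬ fail ω j) (by
        intro ω h
        push Not at h
        obtain ⟨i, J, hJ, hJc, hJf⟩ := h
        refine ⟨⟨i, J⟩, ?_, empty_subset _, hJf⟩
        rw [mem_sigma, mem_range, mem_powersetCard]
        refine ⟨?_, hJ, hJc⟩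
        have h2 := Finset.card_le_univ J
        rw [Fintype.card_fin] at h2
        dsimp only
        omega)
    refine h1.trans ?_
    rw [Finset.sum_sigma]
    refine le_trans ?_ (geom_bound (Fintype.card W))
    refine Finset.sum_le_sum fun i _ => ?_
    rw [← nsmul_eq_mul, ← Finset.sum_const]
    refine Finset.sum_le_sum fun J hJ => ?_
    rw [mem_powersetCard] at hJ
    have h3 := fail_prod w hw L (1 / 50) A hL (fun j => star A f (st j))
      (fun j => filter_subset _ _) (by
        intro i j hij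
        rw [Finset.disjoint_left]
        intro x hx hx2
        rw [mem_star] at hx hx2
        exact hij (st.injective (hx.2.symm.trans hx2.2)))
      (fun j => (star A f (st j)).card / 2 + 1) J ∅ (empty_subset _)
      (fun j _ => disjoint_empty_left _)
    refine h3.trans ?_
    rw [card_empty, pow_zero, one_mul, ← hJ.2, ← Finset.prod_const]
    refine Finset.prod_le_prod (fun j _ => by positivity) fun j _ => choose_bound _
  have hgood := Pr_not w hw1 (fun ω => ∀ i : ℕ, ∀ J : Finset (Fin (Fintype.card W)),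
      J ⊆ pre _ i → J.card = i + 1 → ∃ j ∈ J, ¬ fail ω j)
  have h4 : (1 / 2 : ℝ) ≤ Pr w (fun ω => ∀ i : ℕ, ∀ J : Finset (Fin (Fintype.card W)),
      J ⊆ pre _ i → J.card = i + 1 → ∃ j ∈ J, ¬ fail ω j) := by
    rw [hgood]; linarith
  refine h4.trans (Pr_mono w hw ?_)
  intro ω hω
  obtain ⟨τ, hτ1, hτ2⟩ := rank_match (fail ω) hω (i.val % 2)
  obtain ⟨g, hg, hg2⟩ := embed A f hf st hst (L ω) (fail ω) (fun j hj => hj) (i.val % 2) τ hτ1 hτ2
    (A.filter fun v => lab v = i) (filter_subset _ _) (by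
      intro v hv
      rw [mem_filter] at hv
      have h5 := congrArg Fin.val hv.2
      rw [hlab] at h5
      dsimp only at h5
      rw [← h5]
      split_ifs <;> omega) (by
      intro c
      by_cases hi : i.val < 2
      · have h6 : star (A.filter fun v => lab v = i) f c ⊆ star A f c \ T c := by
          intro v hv
          rw [mem_star, mem_filter] at hv
          rw [mem_sdiff, mem_star]
          refine ⟨⟨hv.1.1, hv.2⟩, fun hvT => ?_⟩
          have h5 := congrArg Fin.val hv.1.2
          rw [hlab] at h5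
          dsimp only at h5
          rw [hv.2, if_pos hvT] at h5
          omega
        have h7 := card_le_card h6
        rw [card_sdiff_of_subset (hTs c), hTc] at h7
        omega
      · have h6 : star (A.filter fun v => lab v = i) f c ⊆ T c := by
          intro v hv
          rw [mem_star, mem_filter] at hv
          by_contra hvT
          have h5 := congrArg Fin.val hv.1.2
          rw [hlab] at h5
          dsimp only at h5
          rw [hv.2, if_neg hvT] at h5
          omega
        have h7 := card_le_card h6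
        rw [hTc] at h7
        omega)
  exact ⟨g, hg, fun v hv hl => hg2 v (mem_filter.2 ⟨hv, hl⟩)⟩

end main

end Crest.Agent.R052.StarX
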