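import Crest.Agent.R052.Struct

/-!
Row 52, S0073: combinatorics of the decomposition (parts, index of a neighbour, hubs,
greedy colouring, numeric facts).
-/

set_option autoImplicit false

open Finset
open Crest.CombinatoricsR.RandomGraph

namespace Crest.Agent.R052.Struct

section parts

/-- A set with at most `n` elements can be divided into `128` parts of size at most `n / 64`. -/
theorem exists_parts (n : ℕ) (hn : 128 ≤ n) (W : Type) [Fintype W] [DecidableEq W]
    (hW : Fintype.card W ≤ n) :
    ∃ part : W → Fin 128, ∀ a, 64 * (univ.filter fun v => part v = a).card ≤ n := by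
  classical
  let e := Fintype.equivFin W
  refine ⟨fun v => ⟨(e v : ℕ) % 128, Nat.mod_lt _ (by norm_num)⟩, fun a => ?_⟩
  have h : (univ.filter fun v : W =>
      (⟨(e v : ℕ) % 128, Nat.mod_lt _ (by norm_num)⟩ : Fin 128) = a).card ≤
      (range (n / 128 + 1)).card := by
    apply Finset.card_le_card_of_injOn (fun v => (e v : ℕ) / 128)
    · intro v _
      simp only [coe_range, Set.mem_Iio]
      have h1 : (e v : ℕ) < Fintype.card W := (e v).isLt
      have h2 : (e v : ℕ) / 128 ≤ n / 128 := Nat.div_le_div_right (by omega)
      omega
    · intro v hv v' hv' heq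
      simp only [coe_filter, mem_univ, true_and, Set.mem_ofPred_eq] at hv hv' heq
      have h1 : (e v : ℕ) % 128 = (e v' : ℕ) % 128 := by
        have := congrArg Fin.val (hv.trans hv'.symm)
        simpa using this
      have h2 : (e v : ℕ) = (e v' : ℕ) := by
        rw [← Nat.div_add_mod (e v : ℕ) 128, ← Nat.div_add_mod (e v' : ℕ) 128, h1, heq]
      exact e.injective (Fin.ext h2)
  rw [card_range] at h
  change 64 * (univ.filter fun v : W =>
      (⟨(e v : ℕ) % 128, Nat.mod_lt _ (by norm_num)⟩ : Fin 128) = a).card ≤ n
  omega

end parts

section idx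

variable {W : Type} [Fintype W] [DecidableEq W]

open Classical in
/-- the number of earlier neighbours of `v` which come before `u` -/
noncomputable def idx (H : SimpleGraph W) (ord : W → ℕ) (v u : W) : ℕ :=
  (univ.filter fun u' => (H.Adj v u' ∧ ord u' < ord v) ∧ ord u' < ord u).card

theorem idx_lt (H : SimpleGraph W) (ord : W → ℕ) (d : ℕ) (v u : W)
    (hd : Set.ncard {u | H.Adj v u ∧ ord u < ord v} ≤ d)
    (hu : H.Adj v u ∧ ord u < ord v) : idx H ord v u < d := by
  classical
  refine lt_of_lt_of_le ?_ hd
  rw [Set.ncard_eq_toFinset_card', idx]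
  apply Finset.card_lt_card
  rw [Finset.ssubset_iff_of_subset]
  · exact ⟨u, by simpa using hu, by simp⟩
  · intro x hx
    simp only [mem_filter, mem_univ, true_and] at hx
    simpa using hx.1

theorem idx_strictMono (H : SimpleGraph W) (ord : W → ℕ) (v u u' : W)
    (hu : H.Adj v u ∧ ord u < ord v) (h : ord u < ord u') :
    idx H ord v u < idx H ord v u' := by
  classical
  rw [idx, idx]
  apply Finset.card_lt_card
  rw [Finset.ssubset_iff_of_subset]
  · exact ⟨u, by simp [hu, h], by simp⟩
  · intro x hx
    simp only [mem_filter, mem_univ, true_and] at hx ⊢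
    exact ⟨hx.1, hx.2.trans h⟩

theorem idx_inj (H : SimpleGraph W) (ord : W → ℕ) (hord : Function.Injective ord) (v u u' : W)
    (hu : H.Adj v u ∧ ord u < ord v) (hu' : H.Adj v u' ∧ ord u' < ord v)
    (h : idx H ord v u = idx H ord v u') : u = u' := by
  rcases lt_trichotomy (ord u) (ord u') with h1 | h1 | h1
  · exact absurd h (idx_strictMono H ord v u u' hu h1).ne
  · exact hord h1
  · exact absurd h.symm (idx_strictMono H ord v u' u hu' h1).ne

/-- each group of indices has at most `z` neighbours -/
theorem group_card (H : SimpleGraph W) (ord : W → ℕ) (hord : Function.Injective ord)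
    (z : ℕ) (hz : 1 ≤ z) (v : W) (γ : ℕ) (s : Finset W)
    (hs : ∀ u ∈ s, (H.Adj v u ∧ ord u < ord v) ∧ idx H ord v u / z = γ) : s.card ≤ z := by
  have h : s.card ≤ (Finset.Ico (γ * z) (γ * z + z)).card := by
    apply Finset.card_le_card_of_injOn (fun u => idx H ord v u)
    · intro u hu
      have := (hs u hu).2
      simp only [coe_Ico, Set.mem_Ico]
      constructor
      · rw [← this]; exact Nat.div_mul_le_self _ _
      · rw [← this]; exact Nat.lt_div_mul_add hz
    · intro u hu u' hu' heq
      exact idx_inj H ord hord v u u' (hs u hu).1 (hs u' hu').1 heq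
  simpa using h

/-- number of hubs -/
theorem hubs_card (H : SimpleGraph W) (ord : W → ℕ) (d D : ℕ)
    (hd : ∀ v, Set.ncard {u | H.Adj v u ∧ ord u < ord v} ≤ d)
    (B : Finset W) (hB : ∀ u ∈ B, D < Set.ncard {v | H.Adj v u ∧ ord u < ord v}) :
    B.card * (D + 1) ≤ Fintype.card W * d := by
  classical
  have h1 : B.card * (D + 1) ≤
      ∑ u ∈ B, (univ.filter fun v => H.Adj v u ∧ ord u < ord v).card := by
    rw [← smul_eq_mul]
    apply Finset.card_nsmul_le_sum
    intro u hu
    have := hB u hu
    rw [Set.ncard_eq_toFinset_card'] at this
    have h2 : (Set.toFinset {v | H.Adj v u ∧ ord u < ord v}) =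
        univ.filter fun v => H.Adj v u ∧ ord u < ord v := by ext; simp
    rw [h2] at this
    exact this
  refine h1.trans ?_
  calc ∑ u ∈ B, (univ.filter fun v => H.Adj v u ∧ ord u < ord v).card
      ≤ ∑ u : W, (univ.filter fun v => H.Adj v u ∧ ord u < ord v).card :=
        Finset.sum_le_sum_of_subset (Finset.subset_univ _)
    _ = ∑ v : W, (univ.filter fun u => H.Adj v u ∧ ord u < ord v).card := by
        simp only [Finset.card_filter]
        rw [Finset.sum_comm]
    _ ≤ ∑ v : W, d := by
        apply Finset.sum_le_sum
        intro v _
        have := hd v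
        rw [Set.ncard_eq_toFinset_card'] at this
        have h2 : (Set.toFinset {u | H.Adj v u ∧ ord u < ord v}) =
            univ.filter fun u => H.Adj v u ∧ ord u < ord v := by ext; simp
        rw [h2] at this
        exact this
    _ = Fintype.card W * d := by simp

/-- greedy colouring along a degenerate order -/
theorem exists_coloring (H : SimpleGraph W) (ord : W → ℕ) (hord : Function.Injective ord) (d : ℕ)
    (hd : ∀ v, Set.ncard {u | H.Adj v u ∧ ord u < ord v} ≤ d) :
    ∃ χ : W → Fin (d + 1), ∀ u v, H.Adj u v → χ u ≠ χ v := by
  classical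
  have key : ∀ m : ℕ, ∃ χ : W → Fin (d + 1),
      ∀ u v, ord u < m → ord v < m → H.Adj u v → χ u ≠ χ v := by
    intro m
    induction m with
    | zero => exact ⟨fun _ => 0, fun u v hu => absurd hu (by omega)⟩
    | succ m ih =>
      obtain ⟨χ, hχ⟩ := ih
      by_cases hm : ∃ w, ord w = m
      · obtain ⟨w, hw⟩ := hm
        obtain ⟨c, hc⟩ : ∃ c : Fin (d + 1),
            c ∉ (univ.filter fun u => H.Adj w u ∧ ord u < ord w).image χ := by
          by_contra hcon
          push Not at hcon
          have h1 : (univ : Finset (Fin (d + 1))) ⊆
              (univ.filter fun u => H.Adj w u ∧ ord u < ord w).image χ := fun c _ => hcon c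
          have h2 := Finset.card_le_card h1
          have h3 := (h2.trans Finset.card_image_le)
          have := hd w
          rw [Set.ncard_eq_toFinset_card'] at this
          have h4 : (Set.toFinset {u | H.Adj w u ∧ ord u < ord w}) =
              univ.filter fun u => H.Adj w u ∧ ord u < ord w := by ext; simp
          rw [h4] at this
          simp at h3
          omega
        refine ⟨Function.update χ w c, fun u v hu hv huv => ?_⟩
        simp only [Finset.mem_image, Finset.mem_filter, Finset.mem_univ, true_and, not_exists,
          not_and] at hc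
        by_cases hu' : u = w
        · subst hu'
          have hvu : v ≠ u := huv.ne'
          rw [Function.update_self, Function.update_of_ne hvu]
          have : ord v < ord u := by
            have : ord v ≠ ord u := fun h => hvu (hord h)
            omega
          exact fun h => hc v ⟨huv, this⟩ h.symm
        · by_cases hv' : v = w
          · subst hv'
            rw [Function.update_self, Function.update_of_ne hu']
            have : ord u < ord v := by
              have : ord u ≠ ord v := fun h => hu' (hord h)
              omega
            exact fun h => hc u ⟨huv.symm, this⟩ h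
          · rw [Function.update_of_ne hu', Function.update_of_ne hv']
            apply hχ u v _ _ huv
            · have : ord u ≠ m := fun h => hu' (hord (h.trans hw.symm))
              omega
            · have : ord v ≠ m := fun h => hv' (hord (h.trans hw.symm))
              omega
      · refine ⟨χ, fun u v hu hv huv => hχ u v ?_ ?_ huv⟩
        · have : ord u ≠ m := fun h => hm ⟨u, h⟩
          omega
        · have : ord v ≠ m := fun h => hm ⟨v, h⟩
          omega
  obtain ⟨χ, hχ⟩ := key (univ.sup ord + 1)
  refine ⟨χ, fun u v huv => hχ u v ?_ ?_ huv⟩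
  · exact Nat.lt_succ_of_le (Finset.le_sup (f := ord) (Finset.mem_univ u))
  · exact Nat.lt_succ_of_le (Finset.le_sup (f := ord) (Finset.mem_univ v))

end idx

end Crest.Agent.R052.Struct
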